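import Vale.Agent.N067S.Chain

/-! Averaging over groups of odd order invertible in the coefficient field. -/

set_option autoImplicit false
set_option linter.all false

open Finset

namespace Vale.Agent.P067.S

attribute [local instance] Classical.propDecidable

variable {α : Type*} {k : Type*} [Field k]

/-- Action of a group element on chains. -/
noncomputable def act {G : Type*} [Group G] [MulAction G α] (g : G) :
    (Finset α →₀ k) →ₗ[k] (Finset α →₀ k) := mapC (fun x => g • x)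

/-- The order of `G` is odd and invertible in `k`. -/
def Good (G : Type*) (k : Type*) [Field k] : Prop := Odd (Nat.card G) ∧ (Nat.card G : k) ≠ 0

section act

variable {G : Type*} [Group G] [MulAction G α]

theorem act_single (g : G) (s : Finset α) (a : k) :
    act g (Finsupp.single s a) =
      ps (fun x => g • x) s • Finsupp.single (s.image (fun x => g • x)) a := mapC_single _ s a

theorem bd_act (g : G) (c : Finset α →₀ k) :
    bd (act g c) = act g (bd c) := bd_mapC _ c fun _ _ => (MulAction.injective g).injOn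

theorem act_apply' (g : G) (c : Finset α →₀ k) (s : Finset α) :
    act g c (s.image (fun x => g • x)) = ps (fun x => g • x) s • c s :=
  mapC_apply (MulAction.injective g) c s

theorem act_apply (g : G) (c : Finset α →₀ k) (s : Finset α) :
    act g c s = ps (fun x => g • x) (s.image (fun x => g⁻¹ • x)) •
      c (s.image (fun x => g⁻¹ • x)) := by
  rw [← act_apply', image_smul_inv']

theorem act_one (c : Finset α →₀ k) : act (1 : G) c = c :=
  mapC_of_fix _ c fun _ _ x _ => one_smul G x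

theorem act_mul (g h : G) (c : Finset α →₀ k) : act (g * h) c = act g (act h c) := by
  unfold act
  rw [mapC_mapC (fun x => g • x) (fun x => h • x) c
    fun _ _ => ((MulAction.injective g).comp (MulAction.injective h)).injOn]
  exact mapC_congr c fun _ _ x _ => mul_smul g h x

theorem act_of_fix (g : G) (c : Finset α →₀ k) (h : ∀ s ∈ c.support, ∀ x ∈ s, g • x = x) :
    act g c = c := mapC_of_fix _ c h

theorem ChainIn.act {K : Set (Finset α)} {q : ℕ} {c : Finset α →₀ k}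
    (hinv : ∀ (g : G), ∀ σ ∈ K, σ.image (fun x => g • x) ∈ K) (hc : ChainIn K q c) (g : G) :
    ChainIn K q (S.act g c) :=
  hc.mapC _ fun s hs _ => ⟨hinv g s hs, (MulAction.injective g).injOn⟩

theorem ps_stab (hodd : Odd (Nat.card G)) {g : G} {τ : Finset α}
    (hg : τ.image (fun x => g • x) = τ) : ps (fun x => g • x) τ = 1 := by
  have h1 : ∀ n : ℕ, τ.image (fun x => g ^ n • x) = τ ∧
      ps (fun x => g ^ n • x) τ = ps (fun x => g • x) τ ^ n := by
    intro n
    induction n with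
    | zero =>
      rw [pow_zero, pow_zero]
      exact ⟨image_smul_one τ, ps_of_fix _ τ fun x _ => one_smul G x⟩
    | succ n ih =>
      refine ⟨by rw [pow_succ, image_smul_mul, hg, ih.1], ?_⟩
      have := ps_comp (fun x => g ^ n • x) (fun x => g • x) τ (MulAction.injective g).injOn
        (MulAction.injective _).injOn
      rw [hg, ih.2, ← pow_succ] at this
      rw [← this]
      exact ps_congr fun x _ => by rw [pow_succ, mul_smul]
  have h2 := (h1 (Nat.card G)).2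
  rw [pow_card_eq_one', ps_of_fix _ τ fun x _ => one_smul G x] at h2
  obtain ⟨r, hr⟩ := hodd
  rw [hr, pow_succ, pow_mul, pow_two, uu, one_pow, one_mul] at h2
  exact h2.symm

theorem stab_inv {g : G} {τ : Finset α} (hg : τ.image (fun x => g • x) = τ) :
    τ.image (fun x => g⁻¹ • x) = τ := by
  conv_lhs => rw [← hg]
  rw [image_smul_inv]

end act

section avg

variable {G : Type*} [Group G] [Fintype G] [MulAction G α]

/-- twisted average (without normalisation) -/
noncomputable def avg (ψ : G →* kˣ) : (Finset α →₀ k) →ₗ[k] (Finset α →₀ k) :=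
  ∑ g : G, (((ψ g)⁻¹ : kˣ) : k) • act g

theorem avg_eq (ψ : G →* kˣ) (c : Finset α →₀ k) :
    avg ψ c = ∑ g : G, (((ψ g)⁻¹ : kˣ) : k) • act g c := by
  simp only [avg, Units.val_inv_eq_inv_val, LinearMap.sum_apply, LinearMap.smul_apply]

theorem avg_apply (ψ : G →* kˣ) (c : Finset α →₀ k) (s : Finset α) :
    avg ψ c s = ∑ g : G, (((ψ g)⁻¹ : kˣ) : k) *
      (ps (fun x => g • x) (s.image (fun x => g⁻¹ • x)) • c (s.image (fun x => g⁻¹ • x))) := by
  rw [avg_eq, Finsupp.finsetSum_apply]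
  refine Finset.sum_congr rfl fun g _ => ?_
  rw [Finsupp.smul_apply, act_apply, smul_eq_mul]

theorem bd_avg (ψ : G →* kˣ) (c : Finset α →₀ k) : bd (avg ψ c) = avg ψ (bd c) := by
  rw [avg_eq, avg_eq, map_sum]
  refine Finset.sum_congr rfl fun g _ => ?_
  rw [map_smul, bd_act]

theorem act_avg (ψ : G →* kˣ) (h : G) (c : Finset α →₀ k) :
    act h (avg ψ c) = (ψ h : k) • avg ψ c := by
  rw [avg_eq, map_sum, Finset.smul_sum]
  refine Fintype.sum_equiv (Equiv.mulLeft h) _ _ fun g => ?_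
  rw [Equiv.coe_mulLeft, map_smul, ← act_mul, map_mul, smul_smul]
  congr 1
  rw [← Units.val_mul]
  congr 1
  rw [mul_inv, ← mul_assoc, mul_inv_cancel, one_mul]

theorem ChainIn.avg {K : Set (Finset α)} {q : ℕ} {c : Finset α →₀ k}
    (hinv : ∀ (g : G), ∀ σ ∈ K, σ.image (fun x => g • x) ∈ K) (ψ : G →* kˣ)
    (hc : ChainIn K q c) : ChainIn K q (S.avg ψ c) := by
  rw [avg_eq]
  exact ChainIn.sum fun g _ => (ChainIn.act hinv hc g).smul _

/-- the stabilizer sum -/
noncomputable def stabSum (ψ : G →* kˣ) (τ : Finset α) : k :=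
  ∑ g : G, if τ.image (fun x => g⁻¹ • x) = τ then (((ψ g)⁻¹ : kˣ) : k) else 0

theorem avg_apply_dom (hodd : Odd (Nat.card G)) {K Fd : Set (Finset α)} (hd : StrictDom G K Fd) (ψ : G →* kˣ)
    {x : Finset α →₀ k} (hx : ∀ s ∈ x.support, s ∈ Fd) {τ : Finset α} (hτ : τ ∈ Fd) :
    avg ψ x τ = x τ * stabSum ψ τ := by
  rw [avg_apply, stabSum, Finset.mul_sum]
  refine Finset.sum_congr rfl fun g _ => ?_
  by_cases h : τ.image (fun x => g⁻¹ • x) = τ
  · have h' := stab_inv h
    rw [inv_inv] at h'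
    rw [if_pos h, h, ps_stab hodd h', one_smul, mul_comm]
  · rw [if_neg h, mul_zero]
    have : x (τ.image (fun x => g⁻¹ • x)) = 0 := by
      by_contra hcon
      exact h (hd.strict g⁻¹ τ hτ (hx _ (Finsupp.mem_support_iff.2 hcon)))
    rw [this, smul_zero, mul_zero]

theorem stabSum_ne_zero (hodd : Good G k) (ψ : G →* kˣ) {τ : Finset α}
    (h : ∀ g : G, τ.image (fun x => g • x) = τ → ψ g = 1) : stabSum (k := k) ψ τ ≠ 0 := by
  -- the stabilizer as a subgroup
  let H : Subgroup G :=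
    { carrier := {g | τ.image (fun x => g • x) = τ}
      one_mem' := image_smul_one τ
      mul_mem' := by
        intro a b ha hb
        change τ.image (fun x => (a * b) • x) = τ
        have ha' : τ.image (fun x => a • x) = τ := ha
        have hb' : τ.image (fun x => b • x) = τ := hb
        rw [image_smul_mul, hb', ha']
      inv_mem' := by
        intro a ha
        change τ.image (fun x => a⁻¹ • x) = τ
        have ha' : τ.image (fun x => a • x) = τ := ha
        conv_lhs => rw [← ha']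
        rw [image_smul_inv] }
  have hmem : ∀ g : G, g ∈ H ↔ τ.image (fun x => g • x) = τ := fun g => Iff.rfl
  have h1 : stabSum (k := k) ψ τ = ∑ g : G, if g ∈ H then (1 : k) else 0 := by
    rw [stabSum]
    refine Finset.sum_congr rfl fun g _ => ?_
    by_cases hg : g ∈ H
    · have hg' : g⁻¹ ∈ H := H.inv_mem hg
      rw [if_pos hg, if_pos ((hmem _).1 hg'), h g ((hmem g).1 hg)]
      simp
    · rw [if_neg hg, if_neg]
      intro hcon
      exact hg (by simpa using H.inv_mem ((hmem g⁻¹).2 hcon))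
  rw [h1, Finset.sum_boole]
  have h2 : (univ.filter fun g => g ∈ H).card = Nat.card H := by
    rw [Nat.card_eq_fintype_card, Fintype.card_subtype]
  rw [h2]
  intro h0
  obtain ⟨r, hr⟩ : Nat.card H ∣ Nat.card G := Subgroup.card_subgroup_dvd_card H
  apply hodd.2
  rw [hr, Nat.cast_mul, h0, zero_mul]

theorem stabSum_eq_zero (ψ : G →* kˣ) {τ : Finset α}
    (h : ∃ g : G, τ.image (fun x => g • x) = τ ∧ ψ g ≠ 1) : stabSum (k := k) ψ τ = 0 := by
  obtain ⟨g0, hg0, hψ⟩ := h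
  have hg0' : τ.image (fun x => g0⁻¹ • x) = τ := by
    conv_lhs => rw [← hg0]
    rw [image_smul_inv]
  have h1 : stabSum (k := k) ψ τ = (((ψ g0)⁻¹ : kˣ) : k) * stabSum ψ τ := by
    rw [stabSum, Finset.mul_sum]
    refine Fintype.sum_equiv (Equiv.mulLeft g0⁻¹) _ _ fun g => ?_
    rw [Equiv.coe_mulLeft]
    have h2 : τ.image (fun x => (g0⁻¹ * g)⁻¹ • x) = τ ↔ τ.image (fun x => g⁻¹ • x) = τ := by
      rw [mul_inv_rev, inv_inv, image_smul_mul, hg0]
    by_cases h3 : τ.image (fun x => g⁻¹ • x) = τ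
    · rw [if_pos h3, if_pos (h2.2 h3), ← Units.val_mul]
      congr 1
      rw [map_mul, map_inv, mul_inv, inv_inv, ← mul_assoc, inv_mul_cancel, one_mul]
    · rw [if_neg h3, if_neg (fun h => h3 (h2.1 h)), mul_zero]
  have h2 : (1 - (((ψ g0)⁻¹ : kˣ) : k)) * stabSum (k := k) ψ τ = 0 := by
    rw [sub_mul, one_mul, ← h1, sub_self]
  rcases mul_eq_zero.1 h2 with h3 | h3
  · exfalso
    apply hψ
    have : (((ψ g0)⁻¹ : kˣ) : k) = 1 := (sub_eq_zero.1 h3).symm
    have h4 : (ψ g0)⁻¹ = 1 := Units.ext this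
    exact inv_eq_one.1 h4
  · exact h3


/-- An equivariant chain in `K` is determined by its restriction to `Fd`. -/
theorem eq_of_equivariant {K Fd : Set (Finset α)} (hd : StrictDom G K Fd) (ψ : G →* kˣ)
    {x y : Finset α →₀ k} (hx : ∀ s ∈ x.support, s ∈ K) (hy : ∀ s ∈ y.support, s ∈ K)
    (hxe : ∀ g : G, act g x = (ψ g : k) • x) (hye : ∀ g : G, act g y = (ψ g : k) • y)
    (h : ∀ τ ∈ Fd, x τ = y τ) : x = y := by
  ext s
  by_cases hs : s ∈ K
  · obtain ⟨g, hg⟩ := hd.cov s hs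
    have h1 := h _ hg
    have h2 : ∀ z : Finset α →₀ k, (∀ g : G, act g z = (ψ g : k) • z) →
        ps (fun x => g • x) s • z s = (ψ g : k) * z (s.image (fun x => g • x)) := by
      intro z hz
      rw [← act_apply', hz g, Finsupp.smul_apply, smul_eq_mul]
    have h3 := h2 x hxe
    rw [h1, ← h2 y hye] at h3
    exact MulAction.injective _ h3
  · have h1 : x s = 0 := by
      by_contra hcon; exact hs (hx s (Finsupp.mem_support_iff.2 hcon))
    have h2 : y s = 0 := by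
      by_contra hcon; exact hs (hy s (Finsupp.mem_support_iff.2 hcon))
    rw [h1, h2]

/-- weighted restriction to the domain -/
noncomputable def wf (ψ : G →* kˣ) (Fd : Set (Finset α)) (c : Finset α →₀ k) : Finset α →₀ k :=
  Finsupp.onFinset c.support (fun s => if s ∈ Fd then c s * (stabSum ψ s)⁻¹ else 0) (by
    intro s hs
    rw [Finsupp.mem_support_iff]
    intro h
    rw [h, zero_mul, ite_self] at hs
    exact hs rfl)

theorem mem_wf {ψ : G →* kˣ} {Fd : Set (Finset α)} {c : Finset α →₀ k} {s : Finset α}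
    (hs : s ∈ (wf ψ Fd c).support) : s ∈ c.support ∧ s ∈ Fd := by
  refine ⟨Finsupp.support_onFinset_subset hs, ?_⟩
  by_contra h
  rw [Finsupp.mem_support_iff, wf, Finsupp.onFinset_apply, if_neg h] at hs
  exact hs rfl

theorem avg_eq_self (hodd : Good G k) {K Fd : Set (Finset α)}
    (hd : StrictDom G K Fd) (ψ : G →* kˣ) {q : ℕ} {c : Finset α →₀ k} (hc : ChainIn K q c)
    (heq : ∀ g : G, act g c = (ψ g : k) • c) :
    avg ψ (wf ψ Fd c) = c := by
  have ha : ∀ s ∈ (wf ψ Fd c).support, s ∈ Fd := fun s hs => (mem_wf hs).2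
  have haK : ChainIn K q (wf ψ Fd c) := fun s hs => hc s (mem_wf hs).1
  refine eq_of_equivariant hd ψ (fun s hs => (ChainIn.avg hd.inv ψ haK s hs).1)
    (fun s hs => (hc s hs).1) (fun g => act_avg ψ g _) heq fun τ hτ => ?_
  rw [avg_apply_dom hodd.1 hd ψ ha hτ, wf, Finsupp.onFinset_apply, if_pos hτ]
  by_cases h : ∀ g : G, τ.image (fun x => g • x) = τ → ψ g = 1
  · rw [inv_mul_cancel_right₀ (stabSum_ne_zero hodd ψ h)]
  · push Not at h
    obtain ⟨g, hg, hψ⟩ := h
    have h1 : c τ = 0 := by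
      have h2 := act_apply' g c τ
      rw [hg, ps_stab hodd.1 hg, one_smul, heq g, Finsupp.smul_apply, smul_eq_mul] at h2
      by_contra hcon
      have h3 : ((ψ g : kˣ) : k) = 1 :=
        mul_right_cancel₀ hcon (by rw [one_mul]; exact h2)
      exact hψ (Units.ext h3)
    rw [h1, zero_mul, zero_mul]

theorem bd_filter_supp (hodd : Good G k) {K Fd : Set (Finset α)}
    (hd : StrictDom G K Fd) (ψ : G →* kˣ) {q : ℕ} {c : Finset α →₀ k} (hc : ChainIn K q c)
    (hbd : bd c = 0) (heq : ∀ g : G, act g c = (ψ g : k) • c) :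
    ∀ s ∈ (bd (wf ψ Fd c)).support,
      s ∈ Fd ∧ ∃ g : G, s.image (fun x => g • x) = s ∧ ψ g ≠ 1 := by
  intro s hs
  have hsF : ∀ t ∈ (bd (wf ψ Fd c)).support, t ∈ Fd := by
    intro t ht
    obtain ⟨v, hv, hvt⟩ := mem_support_bd ht
    exact hd.down _ (mem_wf hvt).2 t (Finset.subset_insert v t)
  refine ⟨hsF s hs, ?_⟩
  by_contra hcon
  have h1 : ∀ g : G, s.image (fun x => g • x) = s → ψ g = 1 := by
    intro g hg
    by_contra hψ
    exact hcon ⟨g, hg, hψ⟩
  have h2 : avg ψ (bd (wf ψ Fd c)) = 0 := by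
    rw [← bd_avg, avg_eq_self hodd hd ψ hc heq, hbd]
  have h3 := avg_apply_dom hodd.1 hd ψ hsF (hsF s hs)
  rw [h2, Finsupp.zero_apply] at h3
  exact mul_ne_zero (Finsupp.mem_support_iff.1 hs) (stabSum_ne_zero hodd ψ h1) h3.symm

theorem avg_eq_zero (hodd : Odd (Nat.card G)) {K Fd : Set (Finset α)} (hd : StrictDom G K Fd)
    (ψ : G →* kˣ) {x : Finset α →₀ k}
    (hx : ∀ s ∈ x.support, s ∈ Fd ∧ ∃ g : G, s.image (fun x => g • x) = s ∧ ψ g ≠ 1) :
    avg ψ x = 0 := by
  refine eq_of_equivariant hd ψ ?_ (by simp) (fun g => act_avg ψ g _) (by simp) fun τ hτ => ?_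
  · intro s hs
    rw [Finsupp.mem_support_iff, avg_apply] at hs
    obtain ⟨g, _, hg⟩ := Finset.exists_ne_zero_of_sum_ne_zero hs
    have h1 : x (s.image (fun x => g⁻¹ • x)) ≠ 0 := by
      have := right_ne_zero_of_mul hg
      rwa [Ne, us_eq_zero] at this
    have h2 := hd.inv g _ (hd.sub (hx _ (Finsupp.mem_support_iff.2 h1)).1)
    rwa [image_smul_inv'] at h2
  · rw [avg_apply_dom hodd hd ψ (fun s hs => (hx s hs).1) hτ, Finsupp.zero_apply]
    by_cases h : x τ = 0
    · rw [h, zero_mul]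
    · rw [stabSum_eq_zero ψ (hx τ (Finsupp.mem_support_iff.2 h)).2, mul_zero]

theorem odd_avg_aux (hodd : Good G k) (ψ : G →* kˣ)
    (K Fd : Set (Finset α)) (hd : StrictDom G K Fd) (q : ℕ)
    (hrel : RelAcyc k Fd {σ | σ ∈ Fd ∧ ∃ g : G, σ.image (fun x => g • x) = σ ∧ ψ g ≠ 1} q)
    (c : Finset α →₀ k) (hc : ChainIn K q c) (hbd : bd c = 0)
    (heq : ∀ g : G, act g c = (ψ g : k) • c) :
    ∃ y : Finset α →₀ k, ChainIn K (q + 1) y ∧ bd y = c := by
  set a := wf ψ Fd c with ha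
  have haF : ChainIn Fd q a := fun s hs => ⟨(mem_wf hs).2, (hc s (mem_wf hs).1).2⟩
  obtain ⟨b, hb, hbs⟩ := hrel a haF (bd_filter_supp hodd hd ψ hc hbd heq)
  have h1 : avg ψ (a + bd b) = 0 := avg_eq_zero hodd.1 hd ψ hbs
  rw [map_add, avg_eq_self hodd hd ψ hc heq, ← bd_avg] at h1
  refine ⟨-avg ψ b, (ChainIn.avg hd.inv ψ (hb.mono hd.sub)).neg, ?_⟩
  rw [map_neg]
  exact (eq_neg_of_add_eq_zero_left h1).symm

end avg

theorem odd_avg {G : Type*} [Group G] [Finite G] (hodd : Good G k)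
    [MulAction G α] (ψ : G →* kˣ) (K Fd : Set (Finset α)) (hd : StrictDom G K Fd) (q : ℕ)
    (hrel : RelAcyc k Fd {σ | σ ∈ Fd ∧ ∃ g : G, σ.image (fun x => g • x) = σ ∧ ψ g ≠ 1} q)
    (c : Finset α →₀ k) (hc : ChainIn K q c) (hbd : bd c = 0)
    (heq : ∀ g : G, act g c = (ψ g : k) • c) :
    ∃ y : Finset α →₀ k, ChainIn K (q + 1) y ∧ bd y = c := by
  have := Fintype.ofFinite G
  exact odd_avg_aux hodd ψ K Fd hd q hrel c hc hbd heq

theorem relAcyc_one {G : Type*} [Group G] [MulAction G α] {Fd : Set (Finset α)} {q : ℕ}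
    (h : Acyc k Fd q) :
    RelAcyc k Fd {σ | σ ∈ Fd ∧ ∃ g : G, σ.image (fun x => g • x) = σ ∧ (1 : G →* kˣ) g ≠ 1} q := by
  intro c hc hb
  have hbd : bd c = 0 := by
    ext s
    rw [Finsupp.zero_apply]
    by_contra hcon
    obtain ⟨_, g, _, hg⟩ := hb s (Finsupp.mem_support_iff.2 hcon)
    exact hg rfl
  obtain ⟨y, hy, hby⟩ := h c hc hbd
  refine ⟨-y, hy.neg, fun s hs => ?_⟩
  rw [map_neg, hby, add_neg_cancel] at hs
  simp at hs

theorem boundary_of_class_invariant {G : Type*} [Group G] [Finite G]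
    (hodd : Good G k) [MulAction G α] (K Fd : Set (Finset α)) (hd : StrictDom G K Fd)
    (q : ℕ) (hFd : Acyc k Fd q) (c : Finset α →₀ k) (hc : ChainIn K q c) (hbd : bd c = 0)
    (hinv : ∀ g : G, ∃ y : Finset α →₀ k, ChainIn K (q + 1) y ∧ act g c - c = bd y) :
    ∃ y : Finset α →₀ k, ChainIn K (q + 1) y ∧ bd y = c := by
  have := Fintype.ofFinite G
  choose y hy hyb using hinv
  have h1 : avg (1 : G →* kˣ) c = (Nat.card G : k) • c + bd (∑ g : G, y g) := by
    rw [avg_eq]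
    have h3 : ∀ g : G, ((((1 : G →* kˣ) g)⁻¹ : kˣ) : k) • act g c = c + bd (y g) := by
      intro g
      rw [MonoidHom.one_apply, inv_one, Units.val_one, one_smul, ← hyb g, add_sub_cancel]
    rw [Finset.sum_congr rfl fun g _ => h3 g, Finset.sum_add_distrib, map_sum, Finset.sum_const,
      Finset.card_univ, Nat.card_eq_fintype_card, Nat.cast_smul_eq_nsmul]
  obtain ⟨z, hz, hzb⟩ := odd_avg hodd (1 : G →* kˣ) K Fd hd q (relAcyc_one hFd)
    (avg (1 : G →* kˣ) c) (ChainIn.avg hd.inv _ hc) (by rw [bd_avg, hbd, map_zero])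
    (fun g => act_avg _ g c)
  refine ⟨(Nat.card G : k)⁻¹ • (z - ∑ g : G, y g), (hz.sub (ChainIn.sum fun g _ => hy g)).smul _, ?_⟩
  rw [map_smul, map_sub, hzb, h1, add_sub_cancel_right, smul_smul, inv_mul_cancel₀ hodd.2, one_smul]

section comm

variable [IsAlgClosed k] {Q : Type*} [CommGroup Q] [Finite Q] [MulAction Q α]

omit [MulAction Q α] [Finite Q] in
theorem enoughRoots (hodd : Good Q k) : HasEnoughRootsOfUnity k (Monoid.exponent Q) := by
  have h2 : ((Monoid.exponent Q : ℕ) : k) ≠ 0 := by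
    intro h
    obtain ⟨r, hr⟩ := Group.exponent_dvd_nat_card (G := Q)
    apply hodd.2
    rw [hr, Nat.cast_mul, h, zero_mul]
  have : NeZero ((Monoid.exponent Q : ℕ) : k) := ⟨h2⟩
  infer_instance

omit [MulAction Q α] in
theorem finite_chars (hodd : Good Q k) : Finite (Q →* kˣ) := by
  have := enoughRoots (k := k) hodd
  obtain ⟨e⟩ := CommGroup.monoidHom_mulEquiv_of_hasEnoughRootsOfUnity Q k
  exact Finite.of_equiv Q e.symm.toEquiv

/-- Every chain is the sum of its isotypic parts. -/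
theorem sum_avg [Fintype Q] [Fintype (Q →* kˣ)] (hodd : Good Q k) (c : Finset α →₀ k) :
    ∑ ψ : Q →* kˣ, avg ψ c = (Nat.card Q : k) • c := by
  have hroots := enoughRoots (k := k) hodd
  have hcard : Nat.card (Q →* kˣ) = Nat.card Q :=
    CommGroup.card_monoidHom_of_hasEnoughRootsOfUnity Q k
  simp_rw [avg_eq]
  rw [Finset.sum_comm]
  simp_rw [← Finset.sum_smul]
  have h1 : ∀ g : Q, g ≠ 1 → ∑ ψ : Q →* kˣ, (((ψ g)⁻¹ : kˣ) : k) = 0 := by
    intro g hg
    obtain ⟨φ, hφ⟩ := CommGroup.exists_apply_ne_one_of_hasEnoughRootsOfUnity Q k hg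
    have h2 : ∑ ψ : Q →* kˣ, (((ψ g)⁻¹ : kˣ) : k)
        = (((φ g)⁻¹ : kˣ) : k) * ∑ ψ : Q →* kˣ, (((ψ g)⁻¹ : kˣ) : k) := by
      rw [Finset.mul_sum]
      symm
      refine Fintype.sum_equiv (Equiv.mulLeft φ) _ _ fun ψ => ?_
      rw [Equiv.coe_mulLeft, ← Units.val_mul]
      congr 1
      rw [MonoidHom.mul_apply, mul_inv]
    have h3 : (1 - (((φ g)⁻¹ : kˣ) : k)) * ∑ ψ : Q →* kˣ, (((ψ g)⁻¹ : kˣ) : k) = 0 := by
      rw [sub_mul, one_mul, ← h2, sub_self]
    rcases mul_eq_zero.1 h3 with h4 | h4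
    · exfalso
      have h5 : (((φ g)⁻¹ : kˣ) : k) = 1 := (sub_eq_zero.1 h4).symm
      have h6 : (φ g)⁻¹ = 1 := Units.ext h5
      exact hφ (inv_eq_one.1 h6)
    · exact h4
  rw [Finset.sum_eq_single (1 : Q)]
  · rw [act_one]
    have h2 : ∑ ψ : Q →* kˣ, (((ψ (1 : Q))⁻¹ : kˣ) : k) = (Nat.card Q : k) := by
      simp only [map_one, inv_one, Units.val_one, Finset.sum_const, Finset.card_univ,
        nsmul_eq_mul, mul_one]
      rw [← Nat.card_eq_fintype_card, hcard]
    rw [h2]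
  · intro g _ hg
    rw [h1 g hg, zero_smul]
  · intro h
    exact absurd (Finset.mem_univ _) h

/-- Every cycle is homologous to its invariant part. -/
theorem homologous_avg_one [Fintype Q] (hodd : Good Q k) (K Fd : Set (Finset α))
    (hd : StrictDom Q K Fd) (q : ℕ)
    (hrel : ∀ ψ : Q →* kˣ, ψ ≠ 1 →
      RelAcyc k Fd {σ | σ ∈ Fd ∧ ∃ g : Q, σ.image (fun x => g • x) = σ ∧ ψ g ≠ 1} q)
    (c : Finset α →₀ k) (hc : ChainIn K q c) (hbd : bd c = 0) :
    ∃ y : Finset α →₀ k, ChainIn K (q + 1) y ∧ (Nat.card Q : k) • c = avg (1 : Q →* kˣ) c + bd y := by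
  have := finite_chars (k := k) hodd
  have := Fintype.ofFinite (Q →* kˣ)
  have h1 : ∀ ψ : Q →* kˣ, ψ ≠ 1 → ∃ y : Finset α →₀ k, ChainIn K (q + 1) y ∧
      bd y = avg ψ c := fun ψ hψ =>
    odd_avg hodd ψ K Fd hd q (hrel ψ hψ) (avg ψ c) (ChainIn.avg hd.inv ψ hc)
      (by rw [bd_avg, hbd, map_zero]) (fun g => act_avg ψ g c)
  choose! y hy hyb using h1
  refine ⟨∑ ψ ∈ univ.erase (1 : Q →* kˣ), y ψ,
    ChainIn.sum fun ψ hψ => hy ψ (Finset.ne_of_mem_erase hψ), ?_⟩
  rw [map_sum, Finset.sum_congr rfl fun ψ hψ => hyb ψ (Finset.ne_of_mem_erase hψ),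
    Finset.add_sum_erase _ (fun ψ => avg ψ c) (Finset.mem_univ _), sum_avg hodd]

theorem acyc_of_comm_odd (hodd : Good Q k) (K Fd : Set (Finset α))
    (hd : StrictDom Q K Fd) (q : ℕ)
    (hrel : ∀ ψ : Q →* kˣ, ψ ≠ 1 →
      RelAcyc k Fd {σ | σ ∈ Fd ∧ ∃ g : Q, σ.image (fun x => g • x) = σ ∧ ψ g ≠ 1} q)
    (h1 : Acyc k Fd q) : Acyc k K q := by
  have := Fintype.ofFinite Q
  intro c hc hbd
  obtain ⟨y, hy, hyb⟩ := homologous_avg_one hodd K Fd hd q hrel c hc hbd
  obtain ⟨z, hz, hzb⟩ := odd_avg hodd (1 : Q →* kˣ) K Fd hd q (relAcyc_one h1)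
    (avg (1 : Q →* kˣ) c) (ChainIn.avg hd.inv _ hc) (by rw [bd_avg, hbd, map_zero])
    (fun g => act_avg _ g c)
  refine ⟨(Nat.card Q : k)⁻¹ • (z + y), (hz.add hy).smul _, ?_⟩
  rw [map_smul (bd (α := α)), map_add, hzb, ← hyb, smul_smul, inv_mul_cancel₀ hodd.2, one_smul]

omit [IsAlgClosed k] [Finite Q] in
theorem filter_avg_one [Fintype Q] (hodd : Good Q k) {K Fd : Set (Finset α)}
    (hd : StrictDom Q K Fd) {q : ℕ} {c : Finset α →₀ k} (hc : ChainIn K q c) (hbd : bd c = 0) :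
    ∃ a : Finset α →₀ k, ChainIn Fd q a ∧ bd a = 0 ∧
      avg (1 : Q →* kˣ) a = avg (1 : Q →* kˣ) c := by
  have hcK := ChainIn.avg hd.inv (1 : Q →* kˣ) hc
  refine ⟨wf (1 : Q →* kˣ) Fd (avg (1 : Q →* kˣ) c), ?_, ?_, ?_⟩
  · intro s hs
    exact ⟨(mem_wf hs).2, (hcK s (mem_wf hs).1).2⟩
  · ext s
    rw [Finsupp.zero_apply]
    by_contra hcon
    obtain ⟨_, g, _, hg⟩ := bd_filter_supp hodd hd (1 : Q →* kˣ) hcK
      (by rw [bd_avg, hbd, map_zero]) (fun g => act_avg _ g c) s (Finsupp.mem_support_iff.2 hcon)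
    exact hg rfl
  · exact avg_eq_self hodd hd (1 : Q →* kˣ) hcK (fun g => act_avg _ g c)

theorem homologous_of_comm_odd (hodd : Good Q k) (K Fd : Set (Finset α))
    (hd : StrictDom Q K Fd) (q : ℕ)
    (hrel : ∀ ψ : Q →* kˣ, ψ ≠ 1 →
      RelAcyc k Fd {σ | σ ∈ Fd ∧ ∃ g : Q, σ.image (fun x => g • x) = σ ∧ ψ g ≠ 1} q)
    (c : Finset α →₀ k) (hc : ChainIn K q c) (hbd : bd c = 0) :
    ∃ a y : Finset α →₀ k, ChainIn Fd q a ∧ bd a = 0 ∧ ChainIn K (q + 1) y ∧ c = a + bd y := by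
  have := Fintype.ofFinite Q
  obtain ⟨y, hy, hyb⟩ := homologous_avg_one hodd K Fd hd q hrel c hc hbd
  obtain ⟨a, ha, hab, hac⟩ := filter_avg_one hodd hd hc hbd
  obtain ⟨z, hz, hzb⟩ := homologous_avg_one hodd K Fd hd q hrel a (ha.mono hd.sub) hab
  refine ⟨a, (Nat.card Q : k)⁻¹ • (y - z), ha, hab, (hy.sub hz).smul _, ?_⟩
  rw [hac] at hzb
  have h : (Nat.card Q : k) • c = (Nat.card Q : k) • a + bd (y - z) := by
    rw [hyb, hzb, map_sub]
    abel
  calc c = (Nat.card Q : k)⁻¹ • (Nat.card Q : k) • c := by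
        rw [smul_smul, inv_mul_cancel₀ hodd.2, one_smul]
    _ = _ := by rw [h, smul_add, smul_smul, inv_mul_cancel₀ hodd.2, one_smul, map_smul]

theorem act_homologous_of_comm_odd (hodd : Good Q k) (K Fd : Set (Finset α))
    (hd : StrictDom Q K Fd) (q : ℕ)
    (hrel : ∀ ψ : Q →* kˣ, ψ ≠ 1 →
      RelAcyc k Fd {σ | σ ∈ Fd ∧ ∃ g : Q, σ.image (fun x => g • x) = σ ∧ ψ g ≠ 1} q)
    (a : Finset α →₀ k) (ha : ChainIn Fd q a) (hbd : bd a = 0) (g : Q) :
    ∃ y : Finset α →₀ k, ChainIn K (q + 1) y ∧ act g a - a = bd y := by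
  have := Fintype.ofFinite Q
  obtain ⟨y, hy, hyb⟩ := homologous_avg_one hodd K Fd hd q hrel a (ha.mono hd.sub) hbd
  refine ⟨(Nat.card Q : k)⁻¹ • (act g y - y), ((ChainIn.act hd.inv hy g).sub hy).smul _, ?_⟩
  have h1 : (Nat.card Q : k) • act g a = avg (1 : Q →* kˣ) a + act g (bd y) := by
    rw [← map_smul, hyb, map_add, act_avg, MonoidHom.one_apply, Units.val_one, one_smul]
  have h : (Nat.card Q : k) • (act g a - a) = bd (act g y - y) := by
    rw [smul_sub, h1, hyb, map_sub, bd_act]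
    abel
  rw [map_smul, ← h, smul_smul, inv_mul_cancel₀ hodd.2, one_smul]

end comm

end Vale.Agent.P067.S
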