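import Vale.Agent.N067S.Sign

/-! Oriented simplicial chains over a commutative ring. -/

set_option autoImplicit false
set_option linter.all false

open Finset

namespace Vale.Agent.P067.S

attribute [local instance] Classical.propDecidable

universe u

variable {α β : Type*} {k : Type*} [CommRing k]

/-- Boundary operator (augmented). -/
noncomputable def bd : (Finset α →₀ k) →ₗ[k] (Finset α →₀ k) :=
  Finsupp.lsum k (fun s => ∑ v ∈ s, sg s v • Finsupp.lsingle (s.erase v))

/-- Cone operator with apex `x`. -/
noncomputable def cone (x : α) : (Finset α →₀ k) →ₗ[k] (Finset α →₀ k) :=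
  Finsupp.lsum k (fun s => if x ∈ s then 0 else sg s x • Finsupp.lsingle (insert x s))

/-- Link of `x` in a chain. -/
noncomputable def lk (x : α) : (Finset α →₀ k) →ₗ[k] (Finset α →₀ k) :=
  Finsupp.lsum k (fun s => if x ∈ s then sg s x • Finsupp.lsingle (s.erase x) else 0)

/-- Part of the chain made of simplices not containing `x`. -/
noncomputable def del (x : α) : (Finset α →₀ k) →ₗ[k] (Finset α →₀ k) :=
  Finsupp.lsum k (fun s => if x ∈ s then 0 else Finsupp.lsingle s)

def ChainIn (K : Set (Finset α)) (q : ℕ) (c : Finset α →₀ k) : Prop :=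
  ∀ s ∈ c.support, s ∈ K ∧ s.card = q

def Acyc (k : Type*) [CommRing k] (K : Set (Finset α)) (q : ℕ) : Prop :=
  ∀ c : Finset α →₀ k, ChainIn K q c → bd c = 0 → ∃ y : Finset α →₀ k, ChainIn K (q + 1) y ∧ bd y = c

def RelAcyc (k : Type*) [CommRing k] (K K₀ : Set (Finset α)) (q : ℕ) : Prop :=
  ∀ c : Finset α →₀ k, ChainIn K q c → (∀ s ∈ (bd c).support, s ∈ K₀) →
    ∃ y : Finset α →₀ k, ChainIn K (q + 1) y ∧ ∀ s ∈ (c + bd y).support, s ∈ K₀

theorem us_us {M : Type*} [AddCommGroup M] (u : ℤˣ) (c : M) : u • u • c = c := by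
  rw [smul_smul, uu, one_smul]

theorem us_eq_zero {M : Type*} [AddCommGroup M] (u : ℤˣ) (c : M) : u • c = 0 ↔ c = 0 :=
  smul_eq_zero_iff_eq u

theorem support_us (u : ℤˣ) (c : Finset α →₀ k) : (u • c).support = c.support := by
  ext s
  simp only [Finsupp.mem_support_iff, Finsupp.smul_apply, Ne, us_eq_zero]

theorem map_us {M N : Type*} [AddCommGroup M] [AddCommGroup N] [Module k M] [Module k N]
    (φ : M →ₗ[k] N) (u : ℤˣ) (c : M) : φ (u • c) = u • φ c := by
  rw [Units.smul_def, Units.smul_def, map_zsmul]

theorem us_comm {M : Type*} [AddCommGroup M] [Module k M] (u : ℤˣ) (a : k) (c : M) :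
    u • a • c = a • u • c := by
  rw [Units.smul_def, Units.smul_def, smul_comm]

theorem bd_single (s : Finset α) (a : k) :
    bd (Finsupp.single s a) = ∑ v ∈ s, sg s v • Finsupp.single (s.erase v) a := by
  simp only [bd, Finsupp.lsum_single, LinearMap.sum_apply, LinearMap.smul_apply,
    Finsupp.lsingle_apply]

theorem cone_single (x : α) (s : Finset α) (a : k) :
    cone x (Finsupp.single s a) =
      if x ∈ s then 0 else sg s x • Finsupp.single (insert x s) a := by
  simp only [cone, Finsupp.lsum_single]
  split_ifs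
  · rfl
  · rfl

theorem lk_single (x : α) (s : Finset α) (a : k) :
    lk x (Finsupp.single s a) = if x ∈ s then sg s x • Finsupp.single (s.erase x) a else 0 := by
  simp only [lk, Finsupp.lsum_single]
  split_ifs
  · rfl
  · rfl

theorem del_single (x : α) (s : Finset α) (a : k) :
    del x (Finsupp.single s a) = if x ∈ s then 0 else Finsupp.single s a := by
  simp only [del, Finsupp.lsum_single]
  split_ifs <;> simp

theorem bd_bd (c : Finset α →₀ k) : bd (bd c) = 0 := by
  have : (bd ∘ₗ bd : (Finset α →₀ k) →ₗ[k] (Finset α →₀ k)) = 0 := by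
    apply Finsupp.lhom_ext
    intro s a
    simp only [LinearMap.comp_apply, bd_single, map_sum, LinearMap.zero_apply, map_us,
      Finset.smul_sum, smul_smul]
    rw [Finset.sum_sigma']
    apply Finset.sum_involution (fun x _ => ⟨x.2, x.1⟩)
    · rintro ⟨v, w⟩ h
      simp only [Finset.mem_sigma, Finset.mem_erase] at h
      show (sg s v * sg (s.erase v) w) • Finsupp.single ((s.erase v).erase w) a +
        (sg s w * sg (s.erase w) v) • Finsupp.single ((s.erase w).erase v) a = 0
      rw [Finset.erase_right_comm (a := v), sg_sg h.1 h.2.2 (Ne.symm h.2.1), Units.neg_smul,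
        neg_add_cancel]
    · rintro ⟨v, w⟩ h _
      simp only [Finset.mem_sigma, Finset.mem_erase] at h
      intro heq
      have : w = v := congrArg Sigma.fst heq
      exact h.2.1 this
    · rintro ⟨v, w⟩ h
      rfl
    · rintro ⟨v, w⟩ h
      simp only [Finset.mem_sigma, Finset.mem_erase] at h ⊢
      exact ⟨h.2.2, fun e => h.2.1 e.symm, h.1⟩
  exact LinearMap.congr_fun this c

theorem bd_cone (x : α) (c : Finset α →₀ k) :
    bd (cone x c) = c - cone x (bd c) := by
  have : (bd ∘ₗ cone x : (Finset α →₀ k) →ₗ[k] (Finset α →₀ k)) =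
      LinearMap.id - cone x ∘ₗ bd := by
    apply Finsupp.lhom_ext
    intro s a
    simp only [LinearMap.comp_apply, cone_single, LinearMap.sub_apply, LinearMap.id_apply,
      bd_single, map_sum, map_us]
    by_cases hx : x ∈ s
    · simp only [hx, if_true, map_zero]
      rw [← Finset.add_sum_erase s _ hx]
      have h0 : ∑ v ∈ s.erase x, sg s v • (if x ∈ s.erase v then (0 : Finset α →₀ k)
          else sg (s.erase v) x • Finsupp.single (insert x (s.erase v)) a) = 0 := by
        apply Finset.sum_eq_zero
        intro v hv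
        rw [Finset.mem_erase] at hv
        have : x ∈ s.erase v := Finset.mem_erase.2 ⟨fun e => hv.1 e.symm, hx⟩
        rw [if_pos this, smul_zero]
      rw [h0, if_neg (notMem_erase x s), sg_erase_self, us_us, insert_erase hx, add_zero, sub_self]
    · simp only [hx, if_false, map_us, bd_single]
      rw [Finset.sum_insert hx, Finset.erase_insert hx, sg_insert_self, smul_add, us_us,
        sub_eq_add_neg, ← Finset.sum_neg_distrib, Finset.smul_sum]
      congr 1
      apply Finset.sum_congr rfl
      intro v hv
      have hxv : x ≠ v := fun e => hx (e ▸ hv)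
      have : x ∉ s.erase v := fun h => hx (Finset.mem_of_mem_erase h)
      rw [if_neg this, Finset.erase_insert_of_ne hxv, smul_smul, smul_smul, ← Units.neg_smul,
        sg_insert hx, sg_erase hv, tw_swap hxv]
      congr 1
      simp only [mul_neg, neg_mul, mul_comm, mul_left_comm]
  exact LinearMap.congr_fun this c

theorem cone_lk_add_del (x : α) (c : Finset α →₀ k) : cone x (lk x c) + del x c = c := by
  have : (cone x ∘ₗ lk x + del x : (Finset α →₀ k) →ₗ[k] (Finset α →₀ k)) = LinearMap.id := by
    apply Finsupp.lhom_ext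
    intro s a
    simp only [LinearMap.comp_apply, LinearMap.add_apply, LinearMap.id_apply, lk_single,
      del_single]
    by_cases hx : x ∈ s
    · rw [if_pos hx, if_pos hx, map_us, cone_single, if_neg (notMem_erase x s), sg_erase_self,
        us_us, insert_erase hx, add_zero]
    · rw [if_neg hx, if_neg hx, map_zero, zero_add]
  exact LinearMap.congr_fun this c

theorem elim_vertex (x : α) (c y : Finset α →₀ k) (hy : bd y = lk x c) :
    c + bd (cone x y) = del x c + y := by
  have h1 := cone_lk_add_del x c
  rw [bd_cone, hy]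
  calc c + (y - cone x (lk x c)) = (cone x (lk x c) + del x c) + (y - cone x (lk x c)) := by
        rw [h1]
    _ = del x c + y := by abel

theorem lk_apply (x : α) (c : Finset α →₀ k) (s : Finset α) :
    lk x c s = if x ∈ s then 0 else sg s x • c (insert x s) := by
  induction c using Finsupp.induction_linear with
  | zero => simp only [map_zero, Finsupp.coe_zero, Pi.zero_apply, smul_zero, ite_self]
  | add f g hf hg =>
    rw [map_add, Finsupp.add_apply, hf, hg, Finsupp.add_apply]
    split_ifs <;> simp
  | single t a =>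
    rw [lk_single]
    by_cases hxt : x ∈ t
    · rw [if_pos hxt, Finsupp.smul_apply, Finsupp.single_apply, Finsupp.single_apply]
      by_cases hxs : x ∈ s
      · rw [if_pos hxs, if_neg, smul_zero]
        rintro rfl
        exact notMem_erase x t hxs
      · rw [if_neg hxs]
        have : (t.erase x = s) ↔ (t = insert x s) := by
          constructor
          · rintro rfl
            rw [insert_erase hxt]
          · rintro rfl
            rw [erase_insert hxs]
        by_cases h : t = insert x s
        · rw [if_pos (this.2 h), if_pos h, h, sg_insert_self]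
        · rw [if_neg (fun h' => h (this.1 h')), if_neg h, smul_zero, smul_zero]
    · rw [if_neg hxt]
      split_ifs with hxs
      · simp
      · rw [Finsupp.coe_zero, Pi.zero_apply, Finsupp.single_apply, if_neg, smul_zero]
        rintro rfl
        exact hxt (mem_insert_self _ _)

theorem del_apply (x : α) (c : Finset α →₀ k) (s : Finset α) :
    del x c s = if x ∈ s then 0 else c s := by
  induction c using Finsupp.induction_linear with
  | zero => simp only [map_zero, Finsupp.coe_zero, Pi.zero_apply, ite_self]
  | add f g hf hg =>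
    rw [map_add, Finsupp.add_apply, hf, hg, Finsupp.add_apply]
    split_ifs <;> simp
  | single t a =>
    rw [del_single]
    by_cases hxt : x ∈ t
    · rw [if_pos hxt]
      split_ifs with hxs
      · simp
      · rw [Finsupp.coe_zero, Pi.zero_apply, Finsupp.single_apply, if_neg]
        rintro rfl
        exact hxs hxt
    · rw [if_neg hxt, Finsupp.single_apply]
      split_ifs with h1 h2 h2
      · subst h1
        exact absurd h2 hxt
      · rfl
      · rfl
      · rfl

theorem cone_apply (x : α) (c : Finset α →₀ k) (s : Finset α) :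
    cone x c s = if x ∈ s then sg s x • c (s.erase x) else 0 := by
  induction c using Finsupp.induction_linear with
  | zero => simp only [map_zero, Finsupp.coe_zero, Pi.zero_apply, smul_zero, ite_self]
  | add f g hf hg =>
    rw [map_add, Finsupp.add_apply, hf, hg, Finsupp.add_apply]
    split_ifs <;> simp
  | single t a =>
    rw [cone_single]
    by_cases hxt : x ∈ t
    · rw [if_pos hxt]
      split_ifs with hxs
      · rw [Finsupp.coe_zero, Pi.zero_apply, Finsupp.single_apply, if_neg, smul_zero]
        rintro rfl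
        exact notMem_erase x s hxt
      · simp
    · rw [if_neg hxt, Finsupp.smul_apply, Finsupp.single_apply, Finsupp.single_apply]
      by_cases hxs : x ∈ s
      · rw [if_pos hxs]
        have : (insert x t = s) ↔ (t = s.erase x) := by
          constructor
          · rintro rfl
            rw [erase_insert hxt]
          · rintro rfl
            rw [insert_erase hxs]
        by_cases h : t = s.erase x
        · rw [if_pos (this.2 h), if_pos h, h, sg_erase_self]
        · rw [if_neg (fun h' => h (this.1 h')), if_neg h, smul_zero, smul_zero]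
      · rw [if_neg hxs, if_neg, smul_zero]
        rintro rfl
        exact hxs (mem_insert_self _ _)

theorem mem_support_lk {x : α} {c : Finset α →₀ k} {s : Finset α} :
    s ∈ (lk x c).support ↔ x ∉ s ∧ insert x s ∈ c.support := by
  rw [Finsupp.mem_support_iff, lk_apply, Finsupp.mem_support_iff]
  by_cases h : x ∈ s <;> simp [h, us_eq_zero]

theorem mem_support_del {x : α} {c : Finset α →₀ k} {s : Finset α} :
    s ∈ (del x c).support ↔ x ∉ s ∧ s ∈ c.support := by
  rw [Finsupp.mem_support_iff, del_apply, Finsupp.mem_support_iff]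
  by_cases h : x ∈ s <;> simp [h]

theorem mem_support_cone {x : α} {c : Finset α →₀ k} {s : Finset α} :
    s ∈ (cone x c).support ↔ x ∈ s ∧ s.erase x ∈ c.support := by
  rw [Finsupp.mem_support_iff, cone_apply, Finsupp.mem_support_iff]
  by_cases h : x ∈ s <;> simp [h, us_eq_zero]

theorem exists_of_mem_support_cone {x : α} {c : Finset α →₀ k} {s : Finset α}
    (h : s ∈ (cone x c).support) : ∃ t ∈ c.support, x ∉ t ∧ s = insert x t := by
  rw [mem_support_cone] at h
  exact ⟨s.erase x, h.2, notMem_erase _ _, (insert_erase h.1).symm⟩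

theorem card_support_cone_le (x : α) (c : Finset α →₀ k) :
    (cone x c).support.card ≤ c.support.card := by
  refine card_le_card_of_injOn (fun s => s.erase x) ?_ ?_
  · intro s hs
    exact (mem_support_cone.1 hs).2
  · intro s hs t ht hst
    have h1 := (mem_support_cone.1 hs).1
    have h2 := (mem_support_cone.1 ht).1
    have : insert x (s.erase x) = insert x (t.erase x) := congrArg (insert x) hst
    rwa [insert_erase h1, insert_erase h2] at this

theorem card_support_lk_eq (x : α) (c : Finset α →₀ k) :
    (lk x c).support.card = (c.support.filter (fun s => x ∈ s)).card := by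
  refine card_bij' (fun s _ => insert x s) (fun s _ => s.erase x) ?_ ?_ ?_ ?_
  · intro s hs
    rw [mem_filter]
    exact ⟨(mem_support_lk.1 hs).2, mem_insert_self _ _⟩
  · intro s hs
    rw [mem_filter] at hs
    rw [mem_support_lk]
    exact ⟨notMem_erase _ _, by rw [insert_erase hs.2]; exact hs.1⟩
  · intro s hs
    exact erase_insert (mem_support_lk.1 hs).1
  · intro s hs
    exact insert_erase (mem_filter.1 hs).2

theorem support_del (x : α) (c : Finset α →₀ k) :
    (del x c).support = c.support.filter (fun s => x ∉ s) := by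
  ext s
  rw [mem_support_del, mem_filter, and_comm]

theorem card_support_lk_add_del (x : α) (c : Finset α →₀ k) :
    (lk x c).support.card + (del x c).support.card = c.support.card := by
  rw [card_support_lk_eq, support_del]
  exact card_filter_add_card_filter_not (s := c.support) (fun s => x ∈ s)

theorem card_support_add_le (c d : Finset α →₀ k) :
    (c + d).support.card ≤ c.support.card + d.support.card :=
  (card_le_card Finsupp.support_add).trans (card_union_le _ _)

theorem card_support_sub_le (c d : Finset α →₀ k) :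
    (c - d).support.card ≤ c.support.card + d.support.card :=
  (card_le_card Finsupp.support_sub).trans (card_union_le _ _)

theorem bd_lk (x : α) (c : Finset α →₀ k) : bd (lk x c) = - lk x (bd c) := by
  induction c using Finsupp.induction_linear with
  | zero => simp
  | add f g hf hg => simp only [map_add, hf, hg, neg_add]
  | single s c =>
    rw [lk_single, bd_single, map_sum]
    by_cases h : x ∈ s
    · rw [if_pos h, map_us, bd_single, ← Finset.add_sum_erase _ _ h, map_us, lk_single,
        if_neg (notMem_erase x s), smul_zero, zero_add, ← Finset.sum_neg_distrib, Finset.smul_sum]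
      refine Finset.sum_congr rfl (fun y hy => ?_)
      rw [mem_erase] at hy
      rw [map_us, lk_single, if_pos (mem_erase.2 ⟨fun h' => hy.1 h'.symm, h⟩), erase_right_comm,
        smul_smul, smul_smul, sg_sg h hy.2 (Ne.symm hy.1), Units.neg_smul]
    · rw [if_neg h, map_zero, Finset.sum_eq_zero, neg_zero]
      intro y hy
      rw [map_us, lk_single, if_neg (fun h' => h (mem_of_mem_erase h')), smul_zero]

theorem lk_bd (x : α) (c : Finset α →₀ k) : lk x (bd c) = - bd (lk x c) := by
  rw [bd_lk, neg_neg]

theorem chainIn_zero (K : Set (Finset α)) (q : ℕ) : ChainIn K q (0 : Finset α →₀ k) := by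
  intro s hs
  simp at hs

theorem ChainIn.add {K : Set (Finset α)} {q : ℕ} {c d : Finset α →₀ k}
    (hc : ChainIn K q c) (hd : ChainIn K q d) : ChainIn K q (c + d) := by
  intro s hs
  rcases mem_union.1 (Finsupp.support_add hs) with h | h
  · exact hc s h
  · exact hd s h

theorem ChainIn.neg {K : Set (Finset α)} {q : ℕ} {c : Finset α →₀ k}
    (hc : ChainIn K q c) : ChainIn K q (-c) := by
  intro s hs
  rw [Finsupp.support_neg] at hs
  exact hc s hs

theorem ChainIn.sub {K : Set (Finset α)} {q : ℕ} {c d : Finset α →₀ k}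
    (hc : ChainIn K q c) (hd : ChainIn K q d) : ChainIn K q (c - d) := by
  rw [sub_eq_add_neg]
  exact hc.add hd.neg

theorem ChainIn.us {K : Set (Finset α)} {q : ℕ} {c : Finset α →₀ k} (u : ℤˣ)
    (hc : ChainIn K q c) : ChainIn K q (u • c) := by
  intro s hs
  rw [support_us] at hs
  exact hc s hs

theorem mem_support_bd {c : Finset α →₀ k} {s : Finset α} (h : s ∈ (bd c).support) :
    ∃ v, v ∉ s ∧ insert v s ∈ c.support := by
  by_contra hcon
  have hcon' : ∀ v, v ∉ s → insert v s ∉ c.support := fun v hv hc => hcon ⟨v, hv, hc⟩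
  rw [Finsupp.mem_support_iff] at h
  apply h
  have : c = c.sum Finsupp.single := (Finsupp.sum_single c).symm
  rw [this, Finsupp.sum, map_sum, Finsupp.finsetSum_apply]
  refine Finset.sum_eq_zero fun t ht => ?_
  rw [bd_single, Finsupp.finsetSum_apply]
  refine Finset.sum_eq_zero fun v hv => ?_
  rw [Finsupp.smul_apply, Finsupp.single_apply, if_neg, smul_zero]
  rintro rfl
  apply hcon' v (Finset.notMem_erase v t)
  rwa [Finset.insert_erase hv]

theorem lk_eq_zero_of {x : α} {c : Finset α →₀ k} (h : ∀ s ∈ c.support, x ∉ s) : lk x c = 0 := by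
  ext s
  rw [lk_apply, Finsupp.zero_apply]
  split_ifs with hx
  · rfl
  · rw [us_eq_zero]
    by_contra hc
    exact h _ (Finsupp.mem_support_iff.2 hc) (Finset.mem_insert_self x s)

/-! ### `ChainIn` -/

theorem ChainIn.mono {K K' : Set (Finset α)} (h : K ⊆ K') {q : ℕ} {c : Finset α →₀ k}
    (hc : ChainIn K q c) : ChainIn K' q c := fun s hs => ⟨h (hc s hs).1, (hc s hs).2⟩

theorem ChainIn.zero (K : Set (Finset α)) (q : ℕ) : ChainIn K q (0 : Finset α →₀ k) := by
  intro s hs; simp at hs

theorem ChainIn.smul {K : Set (Finset α)} {q : ℕ} {c : Finset α →₀ k} (a : k)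
    (hc : ChainIn K q c) : ChainIn K q (a • c) := fun s hs => hc s (Finsupp.support_smul hs)

theorem ChainIn.sum {K : Set (Finset α)} {q : ℕ} {ι : Type*} {S : Finset ι}
    {f : ι → (Finset α →₀ k)} (h : ∀ i ∈ S, ChainIn K q (f i)) : ChainIn K q (∑ i ∈ S, f i) := by
  induction S using Finset.cons_induction with
  | empty => simpa using ChainIn.zero K q
  | cons a S ha ih =>
    rw [Finset.sum_cons]
    exact (h a (Finset.mem_cons_self a S)).add
      (ih fun i hi => h i (Finset.mem_cons.2 (Or.inr hi)))

theorem ChainIn.bd {K : Set (Finset α)} (hK : DownClosed K) {q : ℕ} {c : Finset α →₀ k}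
    (hc : ChainIn K (q + 1) c) : ChainIn K q (S.bd c) := by
  intro s hs
  obtain ⟨v, hv, hvs⟩ := mem_support_bd hs
  obtain ⟨h1, h2⟩ := hc _ hvs
  refine ⟨hK _ h1 s (Finset.subset_insert v s), ?_⟩
  rw [Finset.card_insert_of_notMem hv] at h2
  omega

theorem ChainIn.del {K : Set (Finset α)} {q : ℕ} {c : Finset α →₀ k} (x : α)
    (hc : ChainIn K q c) : ChainIn K q (S.del x c) :=
  fun s hs => hc s (mem_support_del.1 hs).2

/-- A chain of size zero is a multiple of the empty simplex. -/
theorem eq_single_empty {K : Set (Finset α)} {c : Finset α →₀ k} (hc : ChainIn K 0 c) :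
    c = Finsupp.single ∅ (c ∅) := by
  ext s
  rw [Finsupp.single_apply]
  split_ifs with h
  · rw [h]
  · by_contra hcon
    exact h (Finset.card_eq_zero.1 (hc s (Finsupp.mem_support_iff.2 hcon)).2).symm

theorem acyc_zero {K : Set (Finset α)} {v : α} (hv : ({v} : Finset α) ∈ K) : Acyc k K 0 := by
  intro c hc _
  refine ⟨Finsupp.single {v} (c ∅), ?_, ?_⟩
  · intro s hs
    have : s = {v} := Finset.mem_singleton.1 (Finsupp.support_single_subset hs)
    subst this
    exact ⟨hv, by simp⟩
  · rw [bd_single, Finset.sum_singleton, sg_singleton, one_smul]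
    conv_rhs => rw [eq_single_empty hc]
    congr 1
    ext w
    simp

/-- The filling of the link of `x` gives a filling of the star part. -/
theorem ChainIn.cone {K : Set (Finset α)} {x : α} {q : ℕ} {y : Finset α →₀ k}
    (hy : ∀ s ∈ y.support, insert x s ∈ K ∧ s.card = q) : ChainIn K (q + 1) (S.cone x y) := by
  intro s hs
  obtain ⟨h1, h2⟩ := mem_support_cone.1 hs
  obtain ⟨h3, h4⟩ := hy _ h2
  rw [Finset.insert_erase h1] at h3
  refine ⟨h3, ?_⟩
  have := Finset.card_erase_add_one h1
  omega

theorem exists_bd_of_cone {K : Set (Finset α)} {x : α} {q : ℕ} {c : Finset α →₀ k}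
    (hc : ∀ s ∈ c.support, insert x s ∈ K ∧ s.card = q) (hbd : S.bd c = 0) :
    ∃ y : Finset α →₀ k, ChainIn K (q + 1) y ∧ S.bd y = c :=
  ⟨S.cone x c, ChainIn.cone hc, by rw [bd_cone, hbd, map_zero, sub_zero]⟩

/-- Linear extension of a function on simplices. -/
noncomputable def linExt (cf : Finset α → (Finset α →₀ k)) :
    (Finset α →₀ k) →ₗ[k] (Finset α →₀ k) := Finsupp.linearCombination k cf

theorem linExt_single (cf : Finset α → (Finset α →₀ k)) (s : Finset α) (a : k) :
    linExt cf (Finsupp.single s a) = a • cf s := by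
  simp [linExt]

theorem linExt_bd_single (cf : Finset α → (Finset α →₀ k)) (s : Finset α) (a : k) :
    linExt cf (bd (Finsupp.single s a)) = a • ∑ v ∈ s, sg s v • cf (s.erase v) := by
  rw [bd_single, map_sum, smul_sum]
  exact sum_congr rfl (fun v _ => by rw [map_us, linExt_single, us_comm])

theorem chainIn_single {K : Set (Finset α)} {q : ℕ} {s : Finset α} (hs : s ∈ K) (hq : s.card = q)
    (a : k) : ChainIn K q (Finsupp.single s a) := by
  intro t ht
  have := Finsupp.support_single_subset ht
  rw [mem_singleton] at this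
  subst this
  exact ⟨hs, hq⟩

theorem ChainIn.linExt {K : Set (Finset α)} {q : ℕ} {cf : Finset α → (Finset α →₀ k)}
    (hcf : ∀ ρ ∈ K, ρ.card = q → ChainIn K (q + 1) (cf ρ)) {c : Finset α →₀ k}
    (hc : ChainIn K q c) : ChainIn K (q + 1) (linExt cf c) := by
  have h : S.linExt cf c = ∑ s ∈ c.support, c s • cf s := by
    rw [S.linExt, Finsupp.linearCombination_apply, Finsupp.sum]
  rw [h]
  exact ChainIn.sum (fun s hs => (hcf s (hc s hs).1 (hc s hs).2).smul _)

theorem bd_linExt {K : Set (Finset α)} {q : ℕ} {cf : Finset α → (Finset α →₀ k)}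
    (hcf : ∀ ρ ∈ K, ρ.card = q → S.bd (cf ρ) =
      Finsupp.single ρ 1 - ∑ v ∈ ρ, sg ρ v • cf (ρ.erase v))
    {c : Finset α →₀ k} (hc : ChainIn K q c) :
    S.bd (linExt cf c) = c - linExt cf (S.bd c) := by
  have h : linExt cf c = ∑ s ∈ c.support, c s • cf s := by
    rw [S.linExt, Finsupp.linearCombination_apply, Finsupp.sum]
  have h2 : c = ∑ s ∈ c.support, Finsupp.single s (c s) := (Finsupp.sum_single c).symm
  rw [h, map_sum]
  conv_rhs => rw [h2]
  rw [map_sum, map_sum, ← sum_sub_distrib]
  refine sum_congr rfl (fun s hs => ?_)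
  rw [map_smul, hcf s (hc s hs).1 (hc s hs).2, linExt_bd_single, smul_sub, Finsupp.smul_single,
    smul_eq_mul, mul_one]

theorem card_support_sum_le {ι : Type*} (t : Finset ι) (c : ι → (Finset α →₀ k)) (n : ℕ)
    (h : ∀ i ∈ t, (c i).support.card ≤ n) : (∑ i ∈ t, c i).support.card ≤ t.card * n := by
  induction t using Finset.induction_on with
  | empty => simp
  | insert i t hi ih =>
    rw [sum_insert hi, card_insert_of_notMem hi, Nat.succ_mul]
    refine (card_support_add_le _ _).trans ?_
    have h1 := h i (mem_insert_self _ _)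
    have h2 := ih (fun j hj => h j (mem_insert_of_mem hj))
    omega

/-- Chain map induced by a vertex map. -/
noncomputable def mapC (f : α → β) : (Finset α →₀ k) →ₗ[k] (Finset β →₀ k) :=
  Finsupp.lsum k (fun s => ps f s • Finsupp.lsingle (s.image f))

theorem mapC_single (f : α → β) (s : Finset α) (a : k) :
    mapC f (Finsupp.single s a) = ps f s • Finsupp.single (s.image f) a := by
  simp only [mapC, Finsupp.lsum_single, LinearMap.smul_apply, Finsupp.lsingle_apply]

/-- every chain is the sum of its simplices; induction principle on the support. -/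
theorem linMap_congr {M : Type*} [AddCommMonoid M] [Module k M] (φ ψ : (Finset α →₀ k) →ₗ[k] M)
    (c : Finset α →₀ k)
    (h : ∀ s ∈ c.support, φ (Finsupp.single s (c s)) = ψ (Finsupp.single s (c s))) :
    φ c = ψ c := by
  conv_lhs => rw [← Finsupp.sum_single c]
  conv_rhs => rw [← Finsupp.sum_single c]
  unfold Finsupp.sum
  rw [map_sum, map_sum]
  exact Finset.sum_congr rfl h

theorem bd_mapC (f : α → β) (c : Finset α →₀ k)
    (hf : ∀ s ∈ c.support, Set.InjOn f (s : Set α)) : bd (mapC f c) = mapC f (bd c) := by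
  have h := linMap_congr ((bd (k := k)) ∘ₗ mapC f) (mapC f ∘ₗ bd (k := k)) c (by
    intro s hs
    have hinj := hf s hs
    simp only [LinearMap.comp_apply, mapC_single, bd_single, map_sum, map_us, Finset.smul_sum]
    rw [Finset.sum_image (fun x hx y hy hxy => hinj hx hy hxy)]
    apply Finset.sum_congr rfl
    intro v hv
    rw [image_erase_of_injOn f s hinj hv, smul_smul, smul_smul, ps_erase f hinj hv])
  exact h

theorem eq_sum_single (c : Finset α →₀ k) : c = ∑ s ∈ c.support, Finsupp.single s (c s) := by
  conv_lhs => rw [← Finsupp.sum_single c]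
  rfl

theorem support_mapC (f : α → β) (c : Finset α →₀ k) :
    ∀ t ∈ (mapC f c).support, ∃ s ∈ c.support, s.image f = t := by
  intro t ht
  rw [eq_sum_single c, map_sum] at ht
  obtain ⟨s, hs, hst⟩ := Finsupp.mem_support_finset_sum t ht
  rw [mapC_single, support_us] at hst
  exact ⟨s, hs, (mem_singleton.1 (Finsupp.support_single_subset hst)).symm⟩

theorem card_support_mapC_le (f : α → β) (c : Finset α →₀ k) :
    (mapC f c).support.card ≤ c.support.card := by
  refine le_trans (card_le_card ?_) (card_image_le (f := fun s : Finset α => s.image f))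
  intro t ht
  exact mem_image.2 (support_mapC f c t ht)

theorem mapC_mapC {γ : Type*} (g : β → γ) (f : α → β) (c : Finset α →₀ k)
    (h : ∀ s ∈ c.support, Set.InjOn (fun x => g (f x)) (s : Set α)) :
    mapC g (mapC f c) = mapC (fun x => g (f x)) c := by
  have h1 := linMap_congr (mapC (k := k) g ∘ₗ mapC f) (mapC (fun x => g (f x))) c (by
    intro s hs
    have h1 : Set.InjOn f (s : Set α) := fun x hx y hy e => h s hs hx hy (congrArg g e)
    have h2 : Set.InjOn g ((s.image f : Finset β) : Set β) := by
      intro x hx y hy e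
      obtain ⟨x, hx', rfl⟩ := mem_image.1 (mem_coe.1 hx)
      obtain ⟨y, hy', rfl⟩ := mem_image.1 (mem_coe.1 hy)
      rw [h s hs hx' hy' e]
    simp only [LinearMap.comp_apply, mapC_single, map_us]
    rw [ps_comp g f s h1 h2, smul_smul, mul_comm, image_image]
    rfl)
  exact h1

theorem mapC_of_fix (f : α → α) (c : Finset α →₀ k) (h : ∀ s ∈ c.support, ∀ x ∈ s, f x = x) :
    mapC f c = c := by
  have h1 := linMap_congr (mapC (k := k) f) LinearMap.id c (by
    intro s hs
    rw [mapC_single, LinearMap.id_apply, ps_of_fix f s (h s hs), one_smul]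
    congr 1
    conv_rhs => rw [← Finset.image_id (s := s)]
    exact Finset.image_congr fun x hx => h s hs x hx)
  exact h1

theorem mapC_congr {f g : α → β} (c : Finset α →₀ k) (h : ∀ s ∈ c.support, ∀ x ∈ s, f x = g x) :
    mapC f c = mapC g c :=
  linMap_congr (mapC (k := k) f) (mapC g) c (by
    intro s hs
    rw [mapC_single, mapC_single, ps_congr (h s hs), Finset.image_congr fun x hx => h s hs x hx])

theorem mapC_mapC_of_leftInv (f : α → β) (g : β → α) (c : Finset α →₀ k)
    (h : ∀ s ∈ c.support, ∀ x ∈ s, g (f x) = x) : mapC g (mapC f c) = c := by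
  rw [mapC_mapC g f c, mapC_of_fix _ c h]
  intro s hs x hx y hy e
  rw [← h s hs x hx, ← h s hs y hy]
  exact e

theorem mapC_apply {e : α → β} (he : Function.Injective e) (c : Finset α →₀ k) (s : Finset α) :
    mapC e c (s.image e) = ps e s • c s := by
  induction c using Finsupp.induction_linear with
  | zero => simp
  | add f g hf hg => rw [map_add, Finsupp.add_apply, hf, hg, Finsupp.add_apply, smul_add]
  | single t a =>
    rw [mapC_single, Finsupp.smul_apply, Finsupp.single_apply, Finsupp.single_apply]
    by_cases h : t = s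
    · rw [h, if_pos rfl, if_pos rfl]
    · rw [if_neg h, if_neg (fun h' => h (image_injective he h')), smul_zero, smul_zero]

/-- Transport of `ChainIn` along an injective vertex map. -/
theorem ChainIn.mapC {K : Set (Finset α)} {K' : Set (Finset β)} {q : ℕ} (f : α → β)
    (hf : ∀ s ∈ K, s.card = q → s.image f ∈ K' ∧ Set.InjOn f (s : Set α)) {c : Finset α →₀ k}
    (hc : ChainIn K q c) : ChainIn K' q (mapC f c) := by
  intro t ht
  obtain ⟨s, hs, rfl⟩ := support_mapC f c t ht
  obtain ⟨h1, h2⟩ := hc s hs
  refine ⟨(hf s h1 h2).1, ?_⟩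
  rw [Finset.card_image_of_injOn (hf s h1 h2).2, h2]

/-- Acyclicity is transported along isomorphisms of complexes. -/
theorem acyc_of_iso {K : Set (Finset α)} {K' : Set (Finset β)} (f : α → β) (g : β → α) {q : ℕ}
    (hf : ∀ s ∈ K, s.image f ∈ K' ∧ ∀ x ∈ s, g (f x) = x)
    (hg : ∀ r ∈ K', r.image g ∈ K ∧ ∀ y ∈ r, f (g y) = y)
    (h : Acyc k K' q) : Acyc k K q := by
  intro c hc hbd
  have hinj : ∀ s ∈ K, Set.InjOn f (s : Set α) := by
    intro s hs x hx y hy hxy
    rw [← (hf s hs).2 x hx, ← (hf s hs).2 y hy, hxy]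
  have hinj' : ∀ r ∈ K', Set.InjOn g (r : Set β) := by
    intro r hr x hx y hy hxy
    rw [← (hg r hr).2 x hx, ← (hg r hr).2 y hy, hxy]
  have hc' : ChainIn K' q (mapC f c) := hc.mapC f (fun s hs _ => ⟨(hf s hs).1, hinj s hs⟩)
  have hbd' : bd (mapC f c) = 0 := by
    rw [bd_mapC f c (fun s hs => hinj s (hc s hs).1), hbd, map_zero]
  obtain ⟨y, hy, hyb⟩ := h _ hc' hbd'
  refine ⟨mapC g y, hy.mapC g (fun r hr _ => ⟨(hg r hr).1, hinj' r hr⟩), ?_⟩
  rw [bd_mapC g y (fun r hr => hinj' r (hy r hr).1), hyb]
  exact mapC_mapC_of_leftInv f g c (fun s hs => (hf s (hc s hs).1).2)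

theorem ChainIn.single {K : Set (Finset α)} {q : ℕ} {s : Finset α} (hs : s ∈ K)
    (hq : s.card = q) (a : k) : ChainIn K q (Finsupp.single s a) := by
  intro t ht
  have : t = s := by
    have := Finsupp.support_single_subset ht
    simpa using this
  subst this
  exact ⟨hs, hq⟩

/-- Acyclicity of a subcomplex from acyclicity of the complex and of the pair one size up. -/
theorem acyc_of_relAcyc {K K₀ : Set (Finset α)} (hK : DownClosed K)
    (hsub : K₀ ⊆ K) {q : ℕ} (h : Acyc k K q) (hrel : RelAcyc k K K₀ (q + 1)) :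
    Acyc k K₀ q := by
  intro c hc hbd
  obtain ⟨y, hy, hyc⟩ := h c (hc.mono hsub) hbd
  obtain ⟨w, hw, hws⟩ := hrel y hy (by rw [hyc]; exact fun s hs => (hc s hs).1)
  refine ⟨y + S.bd w, ?_, ?_⟩
  · intro s hs
    refine ⟨hws s hs, ?_⟩
    exact ((hy.add (ChainIn.bd hK hw)) s hs).2
  · rw [map_add, bd_bd, add_zero, hyc]

theorem homologous_of_relAcyc {K K₀ : Set (Finset α)} (hK : DownClosed K)
    {q : ℕ} (hrel : RelAcyc k K K₀ q) {c : Finset α →₀ k} (hc : ChainIn K q c)
    (hbd : S.bd c = 0) :
    ∃ a y : Finset α →₀ k, ChainIn K₀ q a ∧ S.bd a = 0 ∧ ChainIn K (q + 1) y ∧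
      c = a + S.bd y := by
  obtain ⟨y, hy, hys⟩ := hrel c hc (by rw [hbd]; simp)
  refine ⟨c + S.bd y, -y, ?_, ?_, hy.neg, ?_⟩
  · intro s hs
    exact ⟨hys s hs, ((hc.add (ChainIn.bd hK hy)) s hs).2⟩
  · rw [map_add, bd_bd, hbd, add_zero]
  · rw [map_neg, add_neg_cancel_right]

/-- The chain map induced by an injective vertex map. -/
noncomputable abbrev vmap (e : α → β) : (Finset α →₀ k) →ₗ[k] (Finset β →₀ k) := mapC e

theorem vmap_single (e : α → β) (s : Finset α) (a : k) :
    vmap e (Finsupp.single s a) = ps e s • Finsupp.single (s.image e) a := mapC_single e s a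

theorem bd_vmap {e : α → β} (he : Function.Injective e) (c : Finset α →₀ k) :
    bd (vmap e c) = vmap e (bd c) := bd_mapC e c fun _ _ => he.injOn

theorem mem_support_vmap {e : α → β} (he : Function.Injective e) {c : Finset α →₀ k}
    {s : Finset α} : s.image e ∈ (vmap e c).support ↔ s ∈ c.support := by
  rw [Finsupp.mem_support_iff, Finsupp.mem_support_iff, mapC_apply he, Ne, us_eq_zero]

theorem vmap_injective {e : α → β} (he : Function.Injective e) :
    Function.Injective (vmap (k := k) e) := by
  rw [injective_iff_map_eq_zero]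
  intro c hc
  ext s
  by_contra h
  have := (mem_support_vmap he).2 (Finsupp.mem_support_iff.2 h)
  rw [hc] at this
  simp at this

theorem ChainIn.vmap {e : α → β} (he : Function.Injective e) {K : Set (Finset α)}
    {K' : Set (Finset β)} (h : ∀ s ∈ K, s.image e ∈ K') {q : ℕ} {c : Finset α →₀ k}
    (hc : ChainIn K q c) : ChainIn K' q (S.vmap e c) :=
  hc.mapC e fun s hs _ => ⟨h s hs, he.injOn⟩

theorem exists_vmap {e : α → β} (he : Function.Injective e) {K : Set (Finset α)} {q : ℕ}
    {c : Finset β →₀ k} (hc : ChainIn ((fun s : Finset α => s.image e) '' K) q c) :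
    ∃ d : Finset α →₀ k, ChainIn K q d ∧ vmap e d = c := by
  classical
  have hex : ∀ s ∈ c.support, ∃ t ∈ K, t.image e = s := fun s hs => (hc s hs).1
  choose! g hg1 hg2 using hex
  refine ⟨∑ s ∈ c.support, ps e (g s) • Finsupp.single (g s) (c s), ?_, ?_⟩
  · refine ChainIn.sum fun s hs => (ChainIn.single (hg1 s hs) ?_ _).us _
    rw [← (hc s hs).2, ← hg2 s hs, Finset.card_image_of_injective _ he, hg2 s hs]
  · rw [map_sum]
    conv_rhs => rw [eq_sum_single c]
    refine Finset.sum_congr rfl fun s hs => ?_
    rw [map_us, vmap_single, us_us, hg2 s hs]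

theorem RelAcyc.image {e : α → β} (he : Function.Injective e) {K K₀ : Set (Finset α)}
    {q : ℕ} (h : RelAcyc k K K₀ q) :
    RelAcyc k ((fun s : Finset α => s.image e) '' K) ((fun s : Finset α => s.image e) '' K₀) q := by
  intro c hc hs
  obtain ⟨d, hd, rfl⟩ := exists_vmap he hc
  obtain ⟨y, hy, hys⟩ := h d hd (by
    intro s hs'
    have h1 : s.image e ∈ (bd (vmap e d)).support := by
      rw [bd_vmap he, mem_support_vmap he]
      exact hs'
    obtain ⟨t, ht, hts⟩ := hs _ h1
    have := image_injective he hts
    subst this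
    exact ht)
  refine ⟨vmap e y, ChainIn.vmap he (fun s hs => Set.mem_image_of_mem _ hs) hy, ?_⟩
  intro s hs'
  rw [bd_vmap he, ← map_add] at hs'
  obtain ⟨t, ht, rfl⟩ := support_mapC e _ s hs'
  exact ⟨t, hys t ht, rfl⟩

theorem Acyc.image {e : α → β} (he : Function.Injective e) {K : Set (Finset α)}
    {q : ℕ} (h : Acyc k K q) :
    Acyc k ((fun s : Finset α => s.image e) '' K) q := by
  intro c hc hbd
  obtain ⟨d, hd, rfl⟩ := exists_vmap he hc
  rw [bd_vmap he] at hbd
  have : bd d = 0 := vmap_injective he (by rw [hbd, map_zero])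
  obtain ⟨y, hy, hyd⟩ := h d hd this
  exact ⟨vmap e y, ChainIn.vmap he (fun s hs => Set.mem_image_of_mem _ hs) hy, by rw [bd_vmap he, hyd]⟩

end Vale.Agent.P067.S
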