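import Mathlib.AlgebraicTopology.SimplicialComplex.Basic
import Mathlib.Combinatorics.SimpleGraph.Connectivity.Connected
import Mathlib.Algebra.Order.Archimedean.Real.Basic
import Mathlib.Data.ZMod.Basic

/-! Coboundary expanders with coefficients in an abelian group: definitions.  A finite simplicial
complex with `n` vertices is an `AbstractSimplicialComplex (Fin n)` of Mathlib. -/

set_option autoImplicit false

open Finset

namespace Vale.Agent.N067S

attribute [local instance] Classical.propDecidable

variable {n : ℕ} (X : AbstractSimplicialComplex (Fin n)) {A : Type} [AddCommGroup A]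

/-- `X(i)`: the faces with `i + 1` vertices. -/
abbrev Face (i : ℕ) : Type := {s : Finset (Fin n) // s ∈ X ∧ s.card = i + 1}

/-- `X` is connected, pure of dimension `d`, and every vertex lies in at most `D` `d`-faces. -/
def Bounded (d D : ℕ) : Prop :=
  (SimpleGraph.fromRel fun u v => {u, v} ∈ X).Connected ∧ (∀ s ∈ X, ∃ t : Face X d, s ⊆ t.1) ∧
    ∀ v, Nat.card {t : Face X d // v ∈ t.1} ≤ D

/-- The weight `w_i`. -/
noncomputable def wt (d : ℕ) {i : ℕ} (s : Face X i) : ℝ :=
  Nat.card {t : Face X d // s.1 ⊆ t.1} / ((d + 1).choose (i + 1) * Nat.card (Face X d))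

/-- The norm of a cochain: the weight of its support. -/
noncomputable def cnorm (d : ℕ) {i : ℕ} (f : Face X i → A) : ℝ := ∑ s with f s ≠ 0, wt X d s

/-- The coboundary over `F_2`, without signs. -/
noncomputable def cob₂ (i : ℕ) (f : Face X i → ZMod 2) (t : Face X (i + 1)) : ZMod 2 :=
  ∑ s with s.1 ⊆ t.1, f s

/-- The simplicial coboundary over `A`: the face `s = t \ {v}` of `t` has the sign `(-1) ^ j`,
where `j` is the number of vertices of `s` smaller than `v`. -/
noncomputable def cob (i : ℕ) (f : Face X i → A) (t : Face X (i + 1)) : A :=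
  ∑ s with s.1 ⊆ t.1, (-1 : ℤ) ^ (s.1.filter fun u => ∃ v ∈ t.1 \ s.1, u < v).card • f s

/-- `B^0` is the set of constants, `B^(i+1)` the image of `δ_i`. -/
def cobs (δ : ∀ i, (Face X i → A) → Face X (i + 1) → A) : (i : ℕ) → Set (Face X i → A)
  | 0 => {f | ∃ c, ∀ s, f s = c}
  | i + 1 => Set.range (δ i)

/-- `X` is an `ε`-coboundary expander for the coboundary `δ`. -/
def IsExpander (δ : ∀ i, (Face X i → A) → Face X (i + 1) → A) (d : ℕ) (ε : ℝ) : Prop :=
  ∀ i < d, ∀ f : Face X i → A,
    ε * sInf ((fun b => cnorm X d (f - b)) '' cobs X δ i) ≤ cnorm X d (δ i f)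

end Vale.Agent.N067S
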