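import Vale.Agent.N067S.Chain

/-! Bounded fillings and cone functions over a commutative ring. -/

set_option autoImplicit false
set_option linter.all false

open Finset

namespace Vale.Agent.P067.S

attribute [local instance] Classical.propDecidable

universe u

section steps

variable {α : Type u} [Lattice α] {k : Type} [CommRing k] {C : Set α} {B T : α}
  {rk : α → ℕ} {N : ℕ}

/-- Step 1: eliminate the vertices of the top rank. -/
theorem fill_step1 (hG : GenExt C B T rk N) {T' : α} {τ : Finset α} (q s C' : ℕ)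
    (hfill : 1 ≤ q → ∀ H ∈ C, H < T' → H ∉ τ → IsChain (· ≤ ·) ((insert H τ : Finset α) : Set α) →
      ∀ c : Finset α →₀ k, ChainIn (LkC C T' (insert H τ)) (q - 1) c → bd c = 0 →
        c.support.card ≤ s → ∃ y : Finset α →₀ k, ChainIn (LkC C T' (insert H τ)) q y ∧ bd y = c ∧
          y.support.card ≤ C') (n : ℕ) :
    ∀ c : Finset α →₀ k, ChainIn (LkC C T' τ) q c → bd c = 0 →
      (c.support.filter (fun σ => ∃ x ∈ σ, rk x + 1 = rk T')).card ≤ n → n ≤ s →
      ∃ y : Finset α →₀ k, ChainIn (LkC C T' τ) (q + 1) y ∧ y.support.card ≤ n * C' ∧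
        (c + bd y).support.card ≤ c.support.card + n * C' ∧
        ∀ σ ∈ (c + bd y).support, ∀ x ∈ σ, rk x + 1 ≠ rk T' := by
  induction n with
  | zero =>
    intro c hc _ hn _
    refine ⟨0, chainIn_zero _ _, by simp, by simp, ?_⟩
    rw [Nat.le_zero, card_eq_zero] at hn
    intro σ hσ x hx hr
    rw [map_zero, add_zero] at hσ
    have : σ ∈ c.support.filter (fun σ => ∃ x ∈ σ, rk x + 1 = rk T') :=
      mem_filter.2 ⟨hσ, x, hx, hr⟩
    rw [hn] at this
    exact absurd this (notMem_empty _)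
  | succ n ih =>
    intro c hc hbd hn hns
    by_cases hex : ∃ σ ∈ c.support, ∃ x ∈ σ, rk x + 1 = rk T'
    swap
    · refine ⟨0, chainIn_zero _ _, by simp, by simp only [map_zero, add_zero, le_add_iff_nonneg_right, zero_le], ?_⟩
      intro σ hσ x hx hr
      rw [map_zero, add_zero] at hσ
      exact hex ⟨σ, hσ, x, hx, hr⟩
    obtain ⟨σ, hσ, H, hH, hrH⟩ := hex
    have hσK := hc σ hσ
    have hq : 1 ≤ q := by
      rw [← hσK.2]
      exact card_pos.2 ⟨H, hH⟩
    have hHC : H ∈ C := (hσK.1.1 H hH).1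
    have hHT : H < T' := (hσK.1.1 H hH).2
    have hHτ : H ∉ τ := fun h => disjoint_left.1 hσK.1.2.1 hH h
    have hchain : IsChain (· ≤ ·) ((insert H τ : Finset α) : Set α) := by
      refine hσK.1.2.2.mono ?_
      intro x hx
      simp only [coe_insert, Set.mem_insert_iff, mem_coe] at hx
      simp only [coe_union, Set.mem_union, mem_coe]
      rcases hx with rfl | hx
      · exact Or.inl hH
      · exact Or.inr hx
    have hLcard : (lk H c).support.card ≤ s := by
      rw [card_support_lk_eq]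
      refine le_trans (card_le_card ?_) (hn.trans hns)
      intro t ht
      rw [mem_filter] at ht ⊢
      exact ⟨ht.1, H, ht.2, hrH⟩
    have hLin : ChainIn (LkC C T' (insert H τ)) (q - 1) (lk H c) := by
      intro t ht
      rw [mem_support_lk] at ht
      have h2 := hc _ ht.2
      refine ⟨mem_link_of_insert_mem ht.1 h2.1, ?_⟩
      rw [card_insert_of_notMem ht.1] at h2
      omega
    have hLbd : bd (lk H c) = 0 := by rw [bd_lk, hbd, map_zero, neg_zero]
    obtain ⟨y, hy1, hy2, hy3⟩ := hfill hq H hHC hHT hHτ hchain (lk H c) hLin hLbd hLcard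
    -- new chain
    have helim : c + bd (cone H y) = del H c + y := elim_vertex H c y hy2
    set c1 : Finset α →₀ k := del H c + y with hc1
    have hHy : ∀ t ∈ y.support, H ∉ t := by
      intro t ht h
      exact disjoint_left.1 (hy1 t ht).1.2.1 h (mem_insert_self _ _)
    have hcone : ChainIn (LkC C T' τ) (q + 1) (cone H y) := by
      intro t ht
      obtain ⟨t', ht', hn', rfl⟩ := exists_of_mem_support_cone ht
      refine ⟨insert_mem_LkC_of_link hHC hHT hHτ (hy1 t' ht').1, ?_⟩
      rw [card_insert_of_notMem hn', (hy1 t' ht').2]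
    have hc1in : ChainIn (LkC C T' τ) q c1 := by
      refine ChainIn.add ?_ ?_
      · intro t ht
        exact hc t (mem_support_del.1 ht).2
      · intro t ht
        exact ⟨mem_LkC_of_mem_link (hy1 t ht).1, (hy1 t ht).2⟩
    have hc1bd : bd c1 = 0 := by
      rw [← helim, map_add, hbd, bd_bd, add_zero]
    have hsub : c1.support.filter (fun σ => ∃ x ∈ σ, rk x + 1 = rk T') ⊆
        (c.support.filter (fun σ => ∃ x ∈ σ, rk x + 1 = rk T')).erase σ := by
      intro t ht
      rw [mem_filter] at ht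
      obtain ⟨ht, x, hx, hrx⟩ := ht
      rcases mem_union.1 (Finsupp.support_add ht) with h | h
      · rw [mem_support_del] at h
        rw [mem_erase, mem_filter]
        refine ⟨?_, h.2, x, hx, hrx⟩
        rintro rfl
        exact h.1 hH
      · exfalso
        have h1 := (hy1 t h).1
        have hcmp : x ≤ H ∨ H ≤ x := comparable_of_LkC h1 (mem_union_left _ hx)
          (mem_union_right _ (mem_insert_self _ _))
        have : x = H := eq_of_rk_eq hG (h1.1 x hx).1 hHC hcmp (by omega)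
        subst this
        exact hHy t h hx
    have hcard1 : (c1.support.filter (fun σ => ∃ x ∈ σ, rk x + 1 = rk T')).card ≤ n := by
      have hmem : σ ∈ c.support.filter (fun σ => ∃ x ∈ σ, rk x + 1 = rk T') :=
        mem_filter.2 ⟨hσ, H, hH, hrH⟩
      have := card_le_card hsub
      rw [card_erase_of_mem hmem] at this
      omega
    obtain ⟨z, hz1, hz2, hz3, hz4⟩ := ih c1 hc1in hc1bd hcard1 (by omega)
    have hsum : c + bd (cone H y + z) = c1 + bd z := by
      rw [map_add, ← add_assoc, helim]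
    refine ⟨cone H y + z, hcone.add hz1, ?_, ?_, ?_⟩
    · refine (card_support_add_le _ _).trans ?_
      have := card_support_cone_le H y
      rw [Nat.succ_mul]
      omega
    · rw [hsum]
      refine hz3.trans ?_
      have h1 : c1.support.card ≤ (del H c).support.card + y.support.card :=
        card_support_add_le _ _
      have h2 := card_support_lk_add_del H c
      rw [Nat.succ_mul]
      omega
    · rw [hsum]
      exact hz4

/-- Step 2: eliminate the vertices above `Sl` which do not contain `v`. -/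
theorem fill_step2 {T' Sl v : α} {τ : Finset α} (q : ℕ) (A : Finset α)
    (hτ : ∀ x ∈ τ, x ≤ Sl)
    (hA : ∀ S ∈ A, S ⊔ v ∈ C ∧ S < S ⊔ v ∧ S ⊔ v < T') (n : ℕ) :
    ∀ c : Finset α →₀ k, ChainIn (LkC C T' τ) q c → bd c = 0 →
      (∀ σ ∈ c.support, ∀ x ∈ σ, Sl < x → ¬ v ≤ x → x ∈ A) →
      (A.filter (fun x => Sl < x ∧ ¬ v ≤ x ∧ ∃ σ ∈ c.support, x ∈ σ)).card ≤ n →
      ∃ y : Finset α →₀ k, ChainIn (LkC C T' τ) (q + 1) y ∧
        y.support.card ≤ n * c.support.card ∧
        (c + bd y).support.card ≤ c.support.card ∧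
        ∀ σ ∈ (c + bd y).support, ∀ x ∈ σ, Sl < x → v ≤ x := by
  induction n with
  | zero =>
    intro c hc _ hcA hn
    refine ⟨0, chainIn_zero _ _, by simp, by simp only [map_zero, add_zero, Std.le_refl], ?_⟩
    rw [Nat.le_zero, card_eq_zero] at hn
    intro σ hσ x hx hSx
    rw [map_zero, add_zero] at hσ
    by_contra hv
    have : x ∈ A.filter (fun x => Sl < x ∧ ¬ v ≤ x ∧ ∃ σ ∈ c.support, x ∈ σ) :=
      mem_filter.2 ⟨hcA σ hσ x hx hSx hv, hSx, hv, σ, hσ, hx⟩
    rw [hn] at this
    exact absurd this (notMem_empty _)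
  | succ n ih =>
    intro c hc hbd hcA hn
    by_cases hex : (A.filter (fun x => Sl < x ∧ ¬ v ≤ x ∧ ∃ σ ∈ c.support, x ∈ σ)).Nonempty
    swap
    · rw [not_nonempty_iff_eq_empty] at hex
      refine ⟨0, chainIn_zero _ _, by simp, by simp, ?_⟩
      intro σ hσ x hx hSx
      rw [map_zero, add_zero] at hσ
      by_contra hv
      have : x ∈ A.filter (fun x => Sl < x ∧ ¬ v ≤ x ∧ ∃ σ ∈ c.support, x ∈ σ) :=
        mem_filter.2 ⟨hcA σ hσ x hx hSx hv, hSx, hv, σ, hσ, hx⟩
      rw [hex] at this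
      exact absurd this (notMem_empty _)
    obtain ⟨S, hSmax⟩ := exists_maximal hex
    have hSmem : S ∈ A.filter (fun x => Sl < x ∧ ¬ v ≤ x ∧ ∃ σ ∈ c.support, x ∈ σ) := hSmax.1
    rw [mem_filter] at hSmem
    obtain ⟨hSA, hSlS, hvS, σ0, hσ0, hSσ0⟩ := hSmem
    obtain ⟨hSv1, hSv2, hSv3⟩ := hA S hSA
    set a := S ⊔ v with ha
    have hSτ : S ∉ τ := fun h => absurd (hτ S h) (not_le_of_gt hSlS)
    have haτ : a ∉ τ := fun h => absurd (hτ a h) (not_le_of_gt (hSlS.trans hSv2))
    have hLbd : bd (lk S c) = 0 := by rw [bd_lk, hbd, map_zero, neg_zero]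
    set y : Finset α →₀ k := cone a (lk S c) with hy
    have hybd : bd y = lk S c := by
      rw [hy, bd_cone, hLbd, map_zero, sub_zero]
    have helim : c + bd (cone S y) = del S c + y := elim_vertex S c y hybd
    -- comparability of `a` with the elements of simplices in the star of `S`
    have hcmp : ∀ t ∈ (lk S c).support, ∀ x ∈ (insert S t) ∪ τ, a ≤ x ∨ x ≤ a := by
      intro t ht x hx
      have h2 := (mem_support_lk.1 ht).2
      have hK := (hc _ h2).1
      rcases mem_union.1 hx with hx' | hx'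
      · rcases comparable_of_LkC hK (mem_union_left _ (mem_insert_self S t)) hx with h | h
        · rcases eq_or_lt_of_le h with rfl | hlt
          · exact Or.inr hSv2.le
          · left
            have hvx : v ≤ x := by
              by_contra hv
              have hSlx : Sl < x := hSlS.trans hlt
              have hxm : x ∈ A.filter (fun x => Sl < x ∧ ¬ v ≤ x ∧ ∃ σ ∈ c.support, x ∈ σ) :=
                mem_filter.2 ⟨hcA _ h2 x hx' hSlx hv, hSlx, hv, _, h2, hx'⟩
              exact absurd (hSmax.2 hxm h) (not_le_of_gt hlt)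
            exact sup_le h hvx
        · exact Or.inr (h.trans hSv2.le)
      · exact Or.inr ((hτ x hx').trans (hSlS.le.trans hSv2.le))
    have hyin : ChainIn (LkC C T' τ) q y := by
      intro t ht
      obtain ⟨t', ht', hn', rfl⟩ := exists_of_mem_support_cone ht
      have h2 := mem_support_lk.1 ht'
      have h3 := hc _ h2.2
      refine ⟨insert_mem_LkC (downClosed_LkC T' τ _ h3.1 _ (subset_insert _ _)) hSv1 hSv3 haτ
        ?_, ?_⟩
      · intro x hx
        refine hcmp t' ht' x ?_
        rcases mem_union.1 hx with h | h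
        · exact mem_union_left _ (mem_insert_of_mem h)
        · exact mem_union_right _ h
      · rw [card_insert_of_notMem hn']
        rw [card_insert_of_notMem h2.1] at h3
        exact h3.2
    have hconein : ChainIn (LkC C T' τ) (q + 1) (cone S y) := by
      intro t ht
      obtain ⟨t1, ht1, hn1, rfl⟩ := exists_of_mem_support_cone ht
      obtain ⟨t', ht', hn', rfl⟩ := exists_of_mem_support_cone ht1
      have h2 := mem_support_lk.1 ht'
      have h3 := hc _ h2.2
      constructor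
      · rw [Finset.insert_comm]
        exact insert_mem_LkC h3.1 hSv1 hSv3 haτ (hcmp t' ht')
      · rw [card_insert_of_notMem hn1, card_insert_of_notMem hn']
        rw [card_insert_of_notMem h2.1] at h3
        rw [h3.2]
    set c1 : Finset α →₀ k := del S c + y with hc1
    have hc1in : ChainIn (LkC C T' τ) q c1 :=
      ChainIn.add (fun t ht => hc t (mem_support_del.1 ht).2) hyin
    have hc1bd : bd c1 = 0 := by
      rw [← helim, map_add, hbd, bd_bd, add_zero]
    have hc1card : c1.support.card ≤ c.support.card := by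
      have h1 : c1.support.card ≤ (del S c).support.card + y.support.card :=
        card_support_add_le _ _
      have h2 := card_support_lk_add_del S c
      have h3 : y.support.card ≤ (lk S c).support.card := card_support_cone_le a (lk S c)
      omega
    -- vertices of c1
    have hvert : ∀ t ∈ c1.support, ∀ x ∈ t, x = a ∨ (x ≠ S ∧ ∃ σ ∈ c.support, x ∈ σ) := by
      intro t ht x hx
      rcases mem_union.1 (Finsupp.support_add ht) with h | h
      · rw [mem_support_del] at h
        right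
        refine ⟨?_, t, h.2, hx⟩
        rintro rfl
        exact h.1 hx
      · obtain ⟨t', ht', hn', rfl⟩ := exists_of_mem_support_cone h
        rcases mem_insert.1 hx with rfl | hx'
        · exact Or.inl rfl
        · right
          have h2 := mem_support_lk.1 ht'
          refine ⟨?_, _, h2.2, mem_insert_of_mem hx'⟩
          rintro rfl
          exact h2.1 hx'
    have hva : v ≤ a := le_sup_right
    have hc1A : ∀ σ ∈ c1.support, ∀ x ∈ σ, Sl < x → ¬ v ≤ x → x ∈ A := by
      intro t ht x hx hSx hv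
      rcases hvert t ht x hx with rfl | ⟨_, σ, hσ, hxσ⟩
      · exact absurd hva hv
      · exact hcA σ hσ x hxσ hSx hv
    have hcard1 : (A.filter (fun x => Sl < x ∧ ¬ v ≤ x ∧ ∃ σ ∈ c1.support, x ∈ σ)).card ≤ n := by
      have hsub : A.filter (fun x => Sl < x ∧ ¬ v ≤ x ∧ ∃ σ ∈ c1.support, x ∈ σ) ⊆
          (A.filter (fun x => Sl < x ∧ ¬ v ≤ x ∧ ∃ σ ∈ c.support, x ∈ σ)).erase S := by
        intro x hx
        rw [mem_filter] at hx
        obtain ⟨hxA, hSx, hvx, t, ht, hxt⟩ := hx
        rcases hvert t ht x hxt with rfl | ⟨hne, σ, hσ, hxσ⟩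
        · exact absurd hva hvx
        · exact mem_erase.2 ⟨hne, mem_filter.2 ⟨hxA, hSx, hvx, σ, hσ, hxσ⟩⟩
      have := card_le_card hsub
      rw [card_erase_of_mem hSmax.1] at this
      omega
    obtain ⟨z, hz1, hz2, hz3, hz4⟩ := ih c1 hc1in hc1bd hc1A hcard1
    have hsum : c + bd (cone S y + z) = c1 + bd z := by
      rw [map_add, ← add_assoc, helim]
    refine ⟨cone S y + z, hconein.add hz1, ?_, ?_, ?_⟩
    · refine (card_support_add_le _ _).trans ?_
      have h1 := card_support_cone_le S y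
      have h2 : y.support.card ≤ (lk S c).support.card := card_support_cone_le a (lk S c)
      have h3 := card_support_lk_add_del S c
      have h4 : n * c1.support.card ≤ n * c.support.card := Nat.mul_le_mul_left _ hc1card
      rw [Nat.succ_mul]
      omega
    · rw [hsum]
      exact hz3.trans hc1card
    · rw [hsum]
      exact hz4

end steps

section main

variable {α : Type u} [Lattice α] {k : Type} [CommRing k] {C : Set α} {B T : α}
  {rk : α → ℕ}


/-- The main step, when the top element `Sl` of `insert B τ` has corank at least two in `T'`. -/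
theorem fill_main {T' Sl : α} {τ : Finset α} (q s C' : ℕ) {N : ℕ}
    (hG : GenExt C B T rk N) (hN : 1 + (s + s * C') * q ≤ N)
    (hT' : T' ∈ insert T C) (hSl : Sl ∈ insert B C)
    (hSlT : Sl < T') (hrk : rk Sl + 2 ≤ rk T') (hτ : ∀ x ∈ τ, x ≤ Sl)
    (hSlτ : Sl = B ∨ Sl ∈ τ)
    (hfill : 1 ≤ q → ∀ H ∈ C, H < T' → H ∉ τ → IsChain (· ≤ ·) ((insert H τ : Finset α) : Set α) →
      ∀ c : Finset α →₀ k, ChainIn (LkC C T' (insert H τ)) (q - 1) c → bd c = 0 →
        c.support.card ≤ s → ∃ y : Finset α →₀ k, ChainIn (LkC C T' (insert H τ)) q y ∧ bd y = c ∧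
          y.support.card ≤ C')
    (c : Finset α →₀ k) (hc : ChainIn (LkC C T' τ) q c) (hbd : bd c = 0)
    (hcs : c.support.card ≤ s) :
    ∃ y : Finset α →₀ k, ChainIn (LkC C T' τ) (q + 1) y ∧ bd y = c ∧
      y.support.card ≤ s * C' + (1 + (s + s * C') * q) * (s + s * C') + (s + s * C') := by
  obtain ⟨y1, hy1, hy1s, hc1s, hc1r⟩ := fill_step1 hG q s C' hfill s c hc hbd
    ((card_filter_le _ _).trans hcs) le_rfl
  set c1 := c + bd y1 with hc1
  have hbdin : ∀ y : Finset α →₀ k, ChainIn (LkC C T' τ) (q + 1) y →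
      ChainIn (LkC C T' τ) q (bd y) := by
    intro y hy
    exact ChainIn.bd (downClosed_LkC T' τ) hy
  have hc1in : ChainIn (LkC C T' τ) q c1 := hc.add (hbdin y1 hy1)
  have hc1bd : bd c1 = 0 := by rw [hc1, map_add, hbd, bd_bd, add_zero]
  have hc1s' : c1.support.card ≤ s + s * C' := by omega
  -- the set of conditions
  set V : Finset α := c1.support.biUnion id with hV
  set A : Finset α := insert Sl (V.filter (fun x => Sl < x)) with hA
  have hVcard : V.card ≤ (s + s * C') * q := by
    calc V.card ≤ c1.support.card * q := card_biUnion_le_card_mul _ _ _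
          (fun t ht => (hc1in t ht).2.le)
      _ ≤ _ := Nat.mul_le_mul_right _ hc1s'
  have hAcard : A.card ≤ 1 + (s + s * C') * q := by
    have h1 : A.card ≤ (V.filter (fun x => Sl < x)).card + 1 := card_insert_le Sl _
    have h2 := card_filter_le V (fun x => Sl < x)
    omega
  obtain ⟨v, hvT, hv⟩ := hG.gen T' hT' A (hAcard.trans hN) (by
    intro S hS
    rcases mem_insert.1 hS with rfl | hS
    · exact ⟨hSl, hSlT, hrk⟩
    · rw [mem_filter] at hS
      obtain ⟨t, ht, hSt⟩ := mem_biUnion.1 hS.1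
      have h1 := (hc1in t ht).1.1 S hSt
      refine ⟨Set.mem_insert_of_mem _ h1.1, h1.2, ?_⟩
      have h2 := hG.rk_mono S (by simp [h1.1]) T' (by
          rcases hT' with rfl | h
          · simp
          · simp [h]) h1.2
      have h3 := hc1r t ht S hSt
      omega)
  obtain ⟨y2, hy2, hy2s, hc2s, hc2v⟩ := fill_step2 (k := k) (C := C) (T' := T') (Sl := Sl) (v := v)
    (τ := τ) q A hτ hv (1 + (s + s * C') * q) c1 hc1in hc1bd
    (fun t ht x hx hSx _ => mem_insert_of_mem (mem_filter.2 ⟨mem_biUnion.2 ⟨t, ht, hx⟩, hSx⟩))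
    ((card_filter_le _ _).trans hAcard)
  set c2 := c1 + bd y2 with hc2
  have hc2in : ChainIn (LkC C T' τ) q c2 := hc1in.add (hbdin y2 hy2)
  have hc2bd : bd c2 = 0 := by rw [hc2, map_add, hc1bd, bd_bd, add_zero]
  obtain ⟨haC, haSl, haT⟩ := hv Sl (mem_insert_self _ _)
  set a := Sl ⊔ v with ha
  have haτ : a ∉ τ := fun h => absurd (hτ a h) (not_le_of_gt haSl)
  have hy3 : ChainIn (LkC C T' τ) (q + 1) (cone a c2) := by
    intro t ht
    obtain ⟨t', ht', hn', rfl⟩ := exists_of_mem_support_cone ht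
    have hK := hc2in t' ht'
    refine ⟨insert_mem_LkC hK.1 haC haT haτ ?_, ?_⟩
    · intro x hx
      rcases mem_union.1 hx with hx' | hx'
      · have hxC := (hK.1.1 x hx').1
        have hcmp : x ≤ Sl ∨ Sl ≤ x := by
          rcases hSlτ with h | h
          · right
            rw [h]
            exact (hG.mem_lt x hxC).1.le
          · exact comparable_of_LkC hK.1 hx (mem_union_right _ h)
        rcases hcmp with h | h
        · exact Or.inr (h.trans haSl.le)
        · rcases eq_or_lt_of_le h with rfl | hlt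
          · exact Or.inr haSl.le
          · exact Or.inl (sup_le h (hc2v t' ht' x hx' hlt))
      · exact Or.inr ((hτ x hx').trans haSl.le)
    · rw [card_insert_of_notMem hn', hK.2]
  have hy3bd : bd (cone a c2) = c2 := by rw [bd_cone, hc2bd, map_zero, sub_zero]
  refine ⟨cone a c2 - (y1 + y2), hy3.sub (hy1.add hy2), ?_, ?_⟩
  · rw [map_sub, hy3bd, map_add, hc2, hc1]
    abel
  · have h1 := card_support_sub_le (cone a c2) (y1 + y2)
    have h2 := card_support_add_le y1 y2
    have h3 := card_support_cone_le a c2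
    have h4 : (1 + (s + s * C') * q) * c1.support.card ≤
        (1 + (s + s * C') * q) * (s + s * C') := Nat.mul_le_mul_left _ hc1s'
    omega

end main

/-- THEOREM M2: bounded fillings. `e = rk T' - 1 - |τ|` is the number of free ranks. -/
theorem fill (e : ℕ) : ∀ q s : ℕ, q + 1 ≤ e → ∃ C0 N0 : ℕ,
    ∀ (α : Type u) [Lattice α] (k : Type) [CommRing k] (C : Set α) (B T : α)
      (rk : α → ℕ), GenExt C B T rk N0 → ∀ T' ∈ insert T C, ∀ τ : Finset α,
      (∀ x ∈ τ, x ∈ C ∧ x < T') → IsChain (· ≤ ·) (τ : Set α) → rk T' = e + 1 + τ.card →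
      ∀ c : Finset α →₀ k, ChainIn (LkC C T' τ) q c → bd c = 0 → c.support.card ≤ s →
        ∃ y : Finset α →₀ k, ChainIn (LkC C T' τ) (q + 1) y ∧ bd y = c ∧
          y.support.card ≤ C0 := by
  induction e with
  | zero =>
    intro q s h
    omega
  | succ e ih =>
    intro q s hqe
    -- constants from the induction hypothesis
    have hIH : ∃ C' N' : ℕ, 1 ≤ q → ∀ (α : Type u) [Lattice α] (k : Type) [CommRing k]
        (C : Set α) (B T : α) (rk : α → ℕ), GenExt C B T rk N' → ∀ T' ∈ insert T C,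
        ∀ τ : Finset α, (∀ x ∈ τ, x ∈ C ∧ x < T') → IsChain (· ≤ ·) (τ : Set α) →
        rk T' = e + 1 + τ.card → ∀ c : Finset α →₀ k, ChainIn (LkC C T' τ) (q - 1) c → bd c = 0 →
        c.support.card ≤ s → ∃ y : Finset α →₀ k, ChainIn (LkC C T' τ) q y ∧ bd y = c ∧
          y.support.card ≤ C' := by
      by_cases hq : 1 ≤ q
      · obtain ⟨C', N', h⟩ := ih (q - 1) s (by omega)
        refine ⟨C', N', fun _ => ?_⟩
        rwa [Nat.sub_add_cancel hq] at h
      · exact ⟨0, 0, fun h => absurd h hq⟩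
    obtain ⟨C', N', hC'⟩ := hIH
    refine ⟨s * C' + (1 + (s + s * C') * q) * (s + s * C') + (s + s * C'),
      max N' (1 + (s + s * C') * q), ?_⟩
    intro α _ k _ C B T rk hG T' hT' τ
    -- induction on the cardinality of τ
    induction hn : τ.card generalizing T' τ with
    | zero =>
      intro hτ hch hrk c hc hbd hcs
      rw [card_eq_zero] at hn
      subst hn
      refine fill_main (Sl := B) q s C' hG (le_max_right _ _) hT' (Set.mem_insert _ _) ?_ ?_
        (by simp) (Or.inl rfl) ?_ c hc hbd hcs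
      · rcases hT' with rfl | h
        · exact hG.B_lt_T
        · exact (hG.mem_lt _ h).1
      · rw [hG.rk_B, hrk]
        omega
      · intro hq H hH hHT hHτ hchH
        refine hC' hq α k C B T rk (hG.mono (le_max_left _ _)) T' hT' _ ?_ hchH ?_
        · intro x hx
          rcases mem_insert.1 hx with rfl | hx
          · exact ⟨hH, hHT⟩
          · exact hτ x hx
        · rw [card_insert_of_notMem hHτ, hrk]
          simp
    | succ n ihn =>
      intro hτ hch hrk c hc hbd hcs
      have hne : τ.Nonempty := by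
        rw [← card_pos]
        omega
      obtain ⟨m, hm, hmmax⟩ := exists_max_image τ rk hne
      have hle : ∀ x ∈ τ, x ≤ m := by
        intro x hx
        rcases hch.total (mem_coe.2 hx) (mem_coe.2 hm) with h | h
        · exact h
        · rcases eq_or_lt_of_le h with h' | h'
          · exact h'.symm.le
          · have := hG.rk_mono m (by simp [(hτ m hm).1]) x (by simp [(hτ x hx).1]) h'
            have := hmmax x hx
            omega
      have hmC := (hτ m hm).1
      have hmT := (hτ m hm).2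
      have hrkm : rk m < rk T' := hG.rk_mono m (by simp [hmC]) T' (by
          rcases hT' with rfl | h
          · simp
          · simp [h]) hmT
      by_cases hcase : rk m + 1 = rk T'
      · rw [LkC_eq_of_coatom hG hT' hm hτ hle hcase] at hc ⊢
        have hcard : (τ.erase m).card = n := by
          rw [card_erase_of_mem hm, hn]
          rfl
        refine ihn m (Set.mem_insert_of_mem _ hmC) (τ.erase m) hcard ?_ ?_ ?_ c hc hbd hcs
        · intro x hx
          rw [mem_erase] at hx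
          exact ⟨(hτ x hx.2).1, lt_of_le_of_ne (hle x hx.2) hx.1⟩
        · refine hch.mono ?_
          intro x hx
          simp only [mem_coe, mem_erase] at hx ⊢
          exact hx.2
        · omega
      · refine fill_main (Sl := m) q s C' hG (le_max_right _ _) hT'
          (Set.mem_insert_of_mem _ hmC) hmT (by omega) hle (Or.inr hm) ?_ c hc hbd hcs
        intro hq H hH hHT hHτ hchH
        refine hC' hq α k C B T rk (hG.mono (le_max_left _ _)) T' hT' _ ?_ hchH ?_
        · intro x hx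
          rcases mem_insert.1 hx with rfl | hx
          · exact ⟨hH, hHT⟩
          · exact hτ x hx
        · rw [card_insert_of_notMem hHτ, hn, hrk]
          omega

/-- Bounded cone function on simplices with less than `m` vertices. -/
theorem exists_cone_fun_aux (e m : ℕ) : ∃ C0 N0 : ℕ,
    ∀ (α : Type u) [Lattice α] (k : Type) [CommRing k] (C : Set α) (B T : α)
      (rk : α → ℕ), GenExt C B T rk N0 → ∀ T' ∈ insert T C, ∀ τ : Finset α,
      (∀ x ∈ τ, x ∈ C ∧ x < T') → IsChain (· ≤ ·) (τ : Set α) → rk T' = e + 1 + τ.card →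
      ∃ cf : Finset α → (Finset α →₀ k), ∀ ρ ∈ LkC C T' τ, ρ.card < m → ρ.card + 1 ≤ e →
        ChainIn (LkC C T' τ) (ρ.card + 1) (cf ρ) ∧ (cf ρ).support.card ≤ C0 ∧
          bd (cf ρ) = Finsupp.single ρ 1 - ∑ v ∈ ρ, sg ρ v • cf (ρ.erase v) := by
  induction m with
  | zero =>
    refine ⟨0, 0, ?_⟩
    intro α _ k _ C B T rk hG T' hT' τ hτ hch hrk
    exact ⟨fun _ => 0, fun ρ _ h => absurd h (Nat.not_lt_zero _)⟩
  | succ m ih =>
    obtain ⟨C0, N0, h0⟩ := ih
    by_cases hm : m + 1 ≤ e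
    swap
    · refine ⟨C0, N0, ?_⟩
      intro α _ k _ C B T rk hG T' hT' τ hτ hch hrk
      obtain ⟨cf, hcf⟩ := h0 α k C B T rk hG T' hT' τ hτ hch hrk
      exact ⟨cf, fun ρ hρ h1 h2 => hcf ρ hρ (by omega) h2⟩
    obtain ⟨C1, N1, h1⟩ := fill.{u} e m (1 + m * C0) hm
    refine ⟨max C0 C1, max N0 N1, ?_⟩
    intro α _ k _ C B T rk hG T' hT' τ hτ hch hrk
    obtain ⟨cf, hcf⟩ := h0 α k C B T rk (hG.mono (le_max_left _ _)) T' hT' τ hτ hch hrk
    set K := LkC C T' τ with hK
    have hKd : DownClosed K := downClosed_LkC T' τ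
    have hex : ∀ ρ : Finset α, ∃ y : Finset α →₀ k, ρ ∈ K → ρ.card = m →
        ChainIn K (m + 1) y ∧ bd y = Finsupp.single ρ 1 - ∑ v ∈ ρ, sg ρ v • cf (ρ.erase v) ∧
          y.support.card ≤ C1 := by
      intro ρ
      by_cases hρ : ρ ∈ K ∧ ρ.card = m
      swap
      · exact ⟨0, fun h1 h2 => absurd ⟨h1, h2⟩ hρ⟩
      obtain ⟨hρK, hρm⟩ := hρ
      have hcard : ∀ v ∈ ρ, (ρ.erase v).card + 1 = m := by
        intro v hv
        rw [card_erase_of_mem hv, hρm]
        have : 0 < ρ.card := card_pos.2 ⟨v, hv⟩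
        omega
      have hsub : ∀ v ∈ ρ, ChainIn K m (cf (ρ.erase v)) ∧ (cf (ρ.erase v)).support.card ≤ C0 := by
        intro v hv
        have h := hcf (ρ.erase v) (hKd ρ hρK _ (erase_subset _ _)) (by have := hcard v hv; omega)
          (by have := hcard v hv; omega)
        rw [hcard v hv] at h
        exact ⟨h.1, h.2.1⟩
      have hz : ChainIn K m (Finsupp.single ρ (1:k) - ∑ v ∈ ρ, sg ρ v • cf (ρ.erase v)) :=
        (chainIn_single hρK hρm 1).sub (ChainIn.sum (fun v hv => (hsub v hv).1.us _))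
      have hzs : (Finsupp.single ρ (1:k) - ∑ v ∈ ρ, sg ρ v • cf (ρ.erase v)).support.card ≤ 1 + m * C0 := by
        refine (card_support_sub_le _ _).trans ?_
        have h2 := card_support_sum_le ρ (fun v => sg ρ v • cf (ρ.erase v)) C0
          (fun v hv => by rw [support_us]; exact (hsub v hv).2)
        have h3 : (Finsupp.single ρ (1:k)).support.card ≤ 1 :=
          (card_le_card Finsupp.support_single_subset).trans (by simp)
        rw [hρm] at h2
        omega
      have hzb : bd (Finsupp.single ρ (1:k) - ∑ v ∈ ρ, sg ρ v • cf (ρ.erase v)) = 0 := by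
        have h3 : ∑ v ∈ ρ, sg ρ v • cf (ρ.erase v) = linExt cf (bd (Finsupp.single ρ (1:k))) := by
          rw [linExt_bd_single, one_smul]
        rw [h3, map_sub]
        rcases Nat.eq_zero_or_pos m with hm0 | hm0
        · have : ρ = ∅ := by
            rw [← card_eq_zero, hρm, hm0]
          subst this
          simp [bd_single]
        obtain ⟨m', rfl⟩ : ∃ m', m = m' + 1 := ⟨m - 1, by omega⟩
        rw [bd_linExt (K := K) (q := m') (fun ρ' hρ' hc' => ?_)
          (ChainIn.bd hKd (chainIn_single hρK hρm 1)), bd_bd, map_zero, sub_zero, sub_self]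
        exact (hcf ρ' hρ' (by omega) (by omega)).2.2
      obtain ⟨y, hy1, hy2, hy3⟩ := h1 α k C B T rk (hG.mono (le_max_right _ _)) T' hT' τ hτ hch hrk
        _ hz hzb hzs
      exact ⟨y, fun _ _ => ⟨hy1, hy2, hy3⟩⟩
    choose g hg using hex
    refine ⟨fun ρ => if ρ.card = m then g ρ else cf ρ, ?_⟩
    intro ρ hρ hρm hρe
    have herase : ∀ v ∈ ρ,
        sg ρ v • (if (ρ.erase v).card = m then g (ρ.erase v) else cf (ρ.erase v)) =
        sg ρ v • cf (ρ.erase v) := by
      intro v hv
      rw [if_neg]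
      have h2 : (ρ.erase v).card < ρ.card := card_erase_lt_of_mem hv
      omega
    rw [sum_congr rfl herase]
    beta_reduce
    by_cases hc : ρ.card = m
    · rw [if_pos hc, hc]
      obtain ⟨h2, h3, h4⟩ := hg ρ hρ hc
      exact ⟨h2, h4.trans (le_max_right _ _), h3⟩
    · rw [if_neg hc]
      obtain ⟨h2, h3, h4⟩ := hcf ρ hρ (by omega) hρe
      exact ⟨h2, h3.trans (le_max_left _ _), h4⟩

/-- Bounded cone function. -/
theorem exists_cone_fun (e : ℕ) : ∃ C0 N0 : ℕ,
    ∀ (α : Type u) [Lattice α] (k : Type) [CommRing k] (C : Set α) (B T : α)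
      (rk : α → ℕ), GenExt C B T rk N0 → ∀ T' ∈ insert T C, ∀ τ : Finset α,
      (∀ x ∈ τ, x ∈ C ∧ x < T') → IsChain (· ≤ ·) (τ : Set α) → rk T' = e + 1 + τ.card →
      ∃ cf : Finset α → (Finset α →₀ k), ∀ ρ ∈ LkC C T' τ, ρ.card + 1 ≤ e →
        ChainIn (LkC C T' τ) (ρ.card + 1) (cf ρ) ∧ (cf ρ).support.card ≤ C0 ∧
          bd (cf ρ) = Finsupp.single ρ 1 - ∑ v ∈ ρ, sg ρ v • cf (ρ.erase v) := by
  obtain ⟨C0, N0, h⟩ := exists_cone_fun_aux.{u} e e
  refine ⟨C0, N0, ?_⟩
  intro α _ k _ C B T rk hG T' hT' τ hτ hch hrk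
  obtain ⟨cf, hcf⟩ := h α k C B T rk hG T' hT' τ hτ hch hrk
  exact ⟨cf, fun ρ hρ h1 => hcf ρ hρ (by omega) h1⟩

/-- Acyclicity below the top dimension. -/
theorem acyc_LkC (e : ℕ) : ∃ N0 : ℕ,
    ∀ (α : Type u) [Lattice α] (k : Type) [CommRing k] (C : Set α) (B T : α)
      (rk : α → ℕ), GenExt C B T rk N0 → ∀ T' ∈ insert T C, ∀ τ : Finset α,
      (∀ x ∈ τ, x ∈ C ∧ x < T') → IsChain (· ≤ ·) (τ : Set α) → rk T' = e + 1 + τ.card →
      ∀ q, q + 1 ≤ e → Acyc k (LkC C T' τ) q := by
  obtain ⟨C0, N0, h⟩ := exists_cone_fun.{u} e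
  refine ⟨N0, ?_⟩
  intro α _ k _ C B T rk hG T' hT' τ hτ hch hrk q hq c hc hbd
  obtain ⟨cf, hcf⟩ := h α k C B T rk hG T' hT' τ hτ hch hrk
  refine ⟨linExt cf c, ChainIn.linExt (fun ρ hρ hc => ?_) hc, ?_⟩
  · have := (hcf ρ hρ (by omega)).1
    rwa [hc] at this
  · rw [bd_linExt (fun ρ hρ hc => (hcf ρ hρ (by omega)).2.2) hc, hbd, map_zero, sub_zero]

attribute [-instance] Submodule.decidableEq

open scoped Pointwise


/-- Uniform version of `exists_cone_fun`. -/
theorem exists_cone_fun_le (n : ℕ) : ∃ C0 N0 : ℕ, ∀ e : ℕ, e ≤ n →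
    ∀ (α : Type) [Lattice α] (k : Type) [CommRing k] (C : Set α) (B T : α)
      (rk : α → ℕ), GenExt C B T rk N0 → ∀ T' ∈ insert T C, ∀ τ : Finset α,
      (∀ x ∈ τ, x ∈ C ∧ x < T') → IsChain (· ≤ ·) (τ : Set α) → rk T' = e + 1 + τ.card →
      ∃ cf : Finset α → (Finset α →₀ k), ∀ ρ ∈ LkC C T' τ, ρ.card + 1 ≤ e →
        ChainIn (LkC C T' τ) (ρ.card + 1) (cf ρ) ∧ (cf ρ).support.card ≤ C0 ∧
          bd (cf ρ) = Finsupp.single ρ 1 - ∑ v ∈ ρ, sg ρ v • cf (ρ.erase v) := by
  choose C0 N0 h using exists_cone_fun.{0}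
  refine ⟨(range (n + 1)).sup C0, (range (n + 1)).sup N0, ?_⟩
  intro e he α _ k _ C B T rk hG T' hT' τ hτ hch hrk
  have hmem : e ∈ range (n + 1) := mem_range.2 (by omega)
  obtain ⟨cf, hcf⟩ := h e α k C B T rk (hG.mono (le_sup (f := N0) hmem)) T' hT' τ hτ hch hrk
  refine ⟨cf, fun ρ hρ h1 => ?_⟩
  obtain ⟨h2, h3, h4⟩ := hcf ρ hρ h1
  exact ⟨h2, h3.trans (le_sup (f := C0) hmem), h4⟩

/-- Transport of a cone function along an isomorphism of complexes. -/
theorem cone_fun_of_iso {α β : Type*} {k : Type*} [CommRing k] {K : Set (Finset α)}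
    {K' : Set (Finset β)} (hK : DownClosed K) (f : α → β) (g : β → α)
    (hf : ∀ s ∈ K, s.image f ∈ K' ∧ ∀ x ∈ s, g (f x) = x)
    (hg : ∀ r ∈ K', r.image g ∈ K ∧ ∀ y ∈ r, f (g y) = y) (e C0 : ℕ)
    (cf : Finset β → (Finset β →₀ k)) (hcf : ∀ ρ ∈ K', ρ.card + 1 ≤ e →
        ChainIn K' (ρ.card + 1) (cf ρ) ∧ (cf ρ).support.card ≤ C0 ∧
          bd (cf ρ) = Finsupp.single ρ 1 - ∑ v ∈ ρ, sg ρ v • cf (ρ.erase v)) :
    ∃ cf' : Finset α → (Finset α →₀ k), ∀ ρ ∈ K, ρ.card + 1 ≤ e →
        ChainIn K (ρ.card + 1) (cf' ρ) ∧ (cf' ρ).support.card ≤ C0 ∧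
          bd (cf' ρ) = Finsupp.single ρ 1 - ∑ v ∈ ρ, sg ρ v • cf' (ρ.erase v) := by
  have hinj : ∀ s ∈ K, Set.InjOn f (s : Set α) := by
    intro s hs x hx y hy hxy
    rw [← (hf s hs).2 x hx, ← (hf s hs).2 y hy, hxy]
  have hinj' : ∀ r ∈ K', Set.InjOn g (r : Set β) := by
    intro r hr x hx y hy hxy
    rw [← (hg r hr).2 x hx, ← (hg r hr).2 y hy, hxy]
  refine ⟨fun ρ => ps f ρ • mapC g (cf (ρ.image f)), fun ρ hρ he => ?_⟩
  have hcard : (ρ.image f).card = ρ.card := card_image_of_injOn (hinj ρ hρ)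
  obtain ⟨h1, h2, h3⟩ := hcf (ρ.image f) (hf ρ hρ).1 (by omega)
  rw [hcard] at h1
  refine ⟨?_, ?_, ?_⟩
  · exact (h1.mapC g (fun r hr _ => ⟨(hg r hr).1, hinj' r hr⟩)).us _
  · show (ps f ρ • mapC g (cf (ρ.image f))).support.card ≤ C0
    rw [support_us]
    exact (card_support_mapC_le _ _).trans h2
  · show bd (ps f ρ • mapC g (cf (ρ.image f))) = _
    rw [map_us, bd_mapC g _ (fun s hs => hinj' s (h1 s hs).1), h3, map_sub, smul_sub, map_sum]
    congr 1
    · rw [← map_us, ← mapC_single]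
      refine mapC_mapC_of_leftInv f g _ fun s hs x hx => ?_
      rw [mem_singleton.1 (Finsupp.support_single_subset hs)] at hx
      exact (hf ρ hρ).2 x hx
    · rw [sum_image (fun x hx y hy hxy => hinj ρ hρ hx hy hxy), smul_sum]
      refine sum_congr rfl fun v hv => ?_
      show _ = sg ρ v • ps f (ρ.erase v) • mapC g (cf ((ρ.erase v).image f))
      rw [image_erase_of_injOn f ρ (hinj ρ hρ) hv, map_us, smul_smul, smul_smul,
        ps_erase f (hinj ρ hρ) hv]

variable {p m : ℕ} [Fact p.Prime] {ι : Type} [Fintype ι] [DecidableEq ι]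

/-- Cone functions on the links of nonempty simplices. -/
theorem exists_cone_link (n : ℕ) : ∃ C0 p0 : ℕ, ∀ (p m : ℕ) [Fact p.Prime] (ι : Type) [Fintype ι]
    [DecidableEq ι], Fintype.card ι = n → p0 ≤ p → 3 ≤ m →
    ∀ (k : Type) [CommRing k] (σ : Finset (Sb ι p m)), σ.Nonempty →
      0 < W (topX ι p m) σ →
      ∃ cf : Finset (Sb ι p m) → (Finset (Sb ι p m) →₀ k), ∀ ρ ∈ linkK (topX ι p m) σ,
        ρ.card + σ.card + 1 ≤ n →
        ChainIn (linkK (topX ι p m) σ) (ρ.card + 1) (cf ρ) ∧ (cf ρ).support.card ≤ C0 ∧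
          bd (cf ρ) = Finsupp.single ρ 1 - ∑ v ∈ ρ, sg ρ v • cf (ρ.erase v) := by
  obtain ⟨C0, N0, h⟩ := exists_cone_fun_le n
  refine ⟨C0, 3 * N0, ?_⟩
  intro p m _ ι _ _ hn hp hm k _ σ hσ hW
  obtain ⟨L, hL⟩ := hσ
  have hσX : σ ∈ XX ι p m := (W_topX_pos_iff hm σ).1 hW
  have hL1 : ({L} : Finset (Sb ι p m)) ∈ XX ι p m :=
    downClosed_XX σ hσX _ (singleton_subset_iff.2 hL)
  obtain ⟨f1, f2, f3, f4, f5⟩ := finrank_vertex hm hL1
  have hG := genExt_CL hm hL1 (by omega) N0 hp
  obtain ⟨c1, c2⟩ := chain_of_link hm (notMem_erase L σ)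
    (by rwa [insert_erase hL] : insert L (σ.erase L) ∈ XX ι p m)
  have hcardσ : ((σ.erase L).image (zz L)).card + 1 = σ.card := by
    rw [card_image_of_injOn, card_erase_add_one hL]
    intro x hx y hy hxy
    rw [← (c1 x hx).2, ← (c1 y hy).2, hxy]
  have hσn : σ.card ≤ n := by
    obtain ⟨C, hC, hs⟩ := W_pos_iff.1 hW
    have := (mem_topX.1 hC).2
    have := card_le_card hs
    omega
  obtain ⟨cf, hcf⟩ := h (n - σ.card) (by omega) (Sb ι p m) k (CL L) (Sp L) L (rkS (Sp L)) hG L
    (Set.mem_insert _ _) ((σ.erase L).image (zz L)) (by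
      intro x hx
      obtain ⟨y, hy, rfl⟩ := mem_image.1 hx
      exact ⟨(c1 y hy).1, (c1 y hy).1.2.1⟩) c2 (by
      unfold rkS
      omega)
  have hdown : DownClosed (linkK (topX ι p m) σ) := linkK_down _ _
  obtain ⟨cf', hcf'⟩ := cone_fun_of_iso (K := linkK (topX ι p m) σ) hdown (zz L) (yy L)
    (by
      intro s hs
      rw [linkK_topX hm] at hs
      exact link_to_LkC hm hL hs.1 hs.2)
    (by
      intro r hr
      rw [linkK_topX hm]
      exact LkC_to_link hm hσX hL hr) (n - σ.card) C0 cf hcf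
  exact ⟨cf', fun ρ hρ hc => hcf' ρ hρ (by omega)⟩

/-- Links of nonempty simplices of `X` are acyclic below the top dimension. -/
theorem acyc_linkK (n : ℕ) : ∃ p0 : ℕ, ∀ (p m : ℕ) [Fact p.Prime] (ι : Type) [Fintype ι]
    [DecidableEq ι], Fintype.card ι = n → p0 ≤ p → 3 ≤ m →
    ∀ (k : Type) [CommRing k] (σ : Finset (Sb ι p m)), σ.Nonempty →
      0 < W (topX ι p m) σ → ∀ q : ℕ, q + σ.card + 1 ≤ n →
      Acyc k (linkK (topX ι p m) σ) q := by
  obtain ⟨C0, p0, h⟩ := exists_cone_link n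
  refine ⟨p0, ?_⟩
  intro p m _ ι _ _ hn hp hm k _ σ hσ hW q hq c hc hbd
  obtain ⟨cf, hcf⟩ := h p m ι hn hp hm k σ hσ hW
  refine ⟨linExt cf c, ChainIn.linExt (fun ρ hρ hc => ?_) hc, ?_⟩
  · have := (hcf ρ hρ (by omega)).1
    rwa [hc] at this
  · rw [bd_linExt (fun ρ hρ hc => (hcf ρ hρ (by omega)).2.2) hc, hbd, map_zero, sub_zero]

end Vale.Agent.P067.S
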