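import Vale.Agent.N067S.Main

/-! Special coefficient groups. -/

set_option autoImplicit false

open Filter

namespace Vale.Agent.N067S

theorem finite_group (d : ℕ) (hd : 1 ≤ d) (A : Type) [AddCommGroup A] [Finite A] :
    ∃ (D : ℕ) (ε : ℝ), 0 < ε ∧ ∃ (n : ℕ → ℕ) (X : ∀ m, AbstractSimplicialComplex (Fin (n m))),
      Tendsto n atTop atTop ∧ ∀ m, Bounded (X m) d D ∧ IsExpander (X m) (cob (A := A) (X m)) d ε := by
  obtain ⟨p0, h⟩ := P067.S.main d hd
  obtain ⟨p, hp, hprime⟩ := Nat.exists_infinite_primes (p0 + Nat.card A + 1)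
  obtain ⟨D, ε, hε, n, X, hn, hX⟩ := h p hprime (by omega)
  exact ⟨D, ε, hε, n, X, hn, fun m => ⟨(hX m).1, (hX m).2 A
    (Nat.coprime_of_lt_prime Nat.card_pos.ne' (by omega) hprime).symm.nsmul_right_bijective⟩⟩

theorem weaken {n d D D' : ℕ} {ε ε' : ℝ} {X : AbstractSimplicialComplex (Fin n)} {A : Type}
    [AddCommGroup A] (hD : D ≤ D') (hε : ε' ≤ ε) (h1 : Bounded X d D)
    (h2 : IsExpander X (cob (A := A) X) d ε) :
    Bounded X d D' ∧ IsExpander X (cob (A := A) X) d ε' := by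
  refine ⟨⟨h1.1, h1.2.1, fun v => (h1.2.2 v).trans hD⟩, fun i hi f =>
    (mul_le_mul_of_nonneg_right hε (Real.sInf_nonneg ?_)).trans (h2 i hi f)⟩
  rintro _ ⟨b, -, rfl⟩
  refine Finset.sum_nonneg fun s _ => ?_
  unfold wt
  positivity

theorem bijective_of_ne {K A : Type} [Field K] [AddCommGroup A] [Module K A] {p : ℕ}
    (h : (p : K) ≠ 0) : Function.Bijective fun a : A => p • a := by
  simp only [← Nat.cast_smul_eq_nsmul K]
  exact (MulAction.toPerm (Units.mk0 _ h)).bijective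

theorem field (d : ℕ) (hd : 1 ≤ d) : ∃ (D : ℕ) (ε : ℝ), 0 < ε ∧ ∀ (K : Type) [Field K],
    ∃ (n : ℕ → ℕ) (X : ∀ m, AbstractSimplicialComplex (Fin (n m))),
      Tendsto n atTop atTop ∧ ∀ m, Bounded (X m) d D ∧
        ∀ (A : Type) [AddCommGroup A] [Module K A], IsExpander (X m) (cob (A := A) (X m)) d ε := by
  obtain ⟨p0, h⟩ := P067.S.main d hd
  obtain ⟨p, hp, hprime⟩ := Nat.exists_infinite_primes p0
  obtain ⟨q, hq, hqprime⟩ := Nat.exists_infinite_primes (p + 1)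
  obtain ⟨D, ε, hε, n, X, hn, hX⟩ := h p hprime hp
  obtain ⟨D', ε', hε', n', X', hn', hX'⟩ := h q hqprime (by omega)
  refine ⟨max D D', min ε ε', lt_min hε hε', fun K _ => ?_⟩
  by_cases h0 : (p : K) = 0
  · have h1 : (q : K) ≠ 0 := by
      intro h1
      rw [ringChar.spec] at h0 h1
      have h2 := Nat.dvd_gcd h0 h1
      rw [(Nat.coprime_primes hprime hqprime).2 (by omega), Nat.dvd_one] at h2
      exact CharP.ringChar_ne_one h2
    exact ⟨n', X', hn', fun m =>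
      ⟨(weaken (le_max_right D D') le_rfl (hX' m).1 ((hX' m).2 K (bijective_of_ne h1))).1,
        fun A _ _ => (weaken le_rfl (min_le_right ε ε') (hX' m).1
          ((hX' m).2 A (bijective_of_ne h1))).2⟩⟩
  · exact ⟨n, X, hn, fun m =>
      ⟨(weaken (le_max_left D D') le_rfl (hX m).1 ((hX m).2 K (bijective_of_ne h0))).1,
        fun A _ _ => (weaken le_rfl (min_le_left ε ε') (hX m).1
          ((hX m).2 A (bijective_of_ne h0))).2⟩⟩

theorem cob_two {n : ℕ} (X : AbstractSimplicialComplex (Fin n)) : cob₂ X = cob X := by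
  funext i f t
  refine Finset.sum_congr rfl fun s _ => ?_
  rcases neg_one_pow_eq_or ℤ _ with h | h
  · rw [h, one_smul]
  · rw [h, neg_smul, one_smul, ZMod.neg_eq_self_mod_two]

theorem question (d : ℕ) (hd : 1 ≤ d) :
    ∃ (D : ℕ) (ε : ℝ), 0 < ε ∧ ∃ (n : ℕ → ℕ) (X : ∀ m, AbstractSimplicialComplex (Fin (n m))),
      Tendsto n atTop atTop ∧ ∀ m, Bounded (X m) d D ∧ IsExpander (X m) (cob₂ (X m)) d ε := by
  simp only [cob_two]
  exact finite_group d hd (ZMod 2)

end Vale.Agent.N067S
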