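import Vale.Agent.N067S.Loc
import Mathlib.RingTheory.Nakayama

/-! From acyclicity over the prime fields `F_l`, `l ≠ p`, to coefficients in every abelian group
on which `p` acts invertibly. -/

set_option autoImplicit false
set_option linter.all false

open Finset

namespace Vale.Agent.P067.S

attribute [local instance] Classical.propDecidable

variable {α : Type*}

theorem bd_mapRange {k k' : Type*} [CommRing k] [CommRing k'] (φ : k →+ k')
    (x : Finset α →₀ k) :
    bd (Finsupp.mapRange.addMonoidHom φ x) = Finsupp.mapRange.addMonoidHom φ (bd x) := by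
  have : (bd (k := k') (α := α)).toAddMonoidHom.comp (Finsupp.mapRange.addMonoidHom φ)
      = (Finsupp.mapRange.addMonoidHom φ).comp (bd (k := k) (α := α)).toAddMonoidHom := by
    apply Finsupp.addHom_ext
    intro s a
    change bd (Finsupp.mapRange.addMonoidHom φ (Finsupp.single s a)) =
      Finsupp.mapRange.addMonoidHom φ (bd (Finsupp.single s a))
    rw [bd_single, map_sum]
    simp only [Units.smul_def, map_zsmul]
    simp only [Finsupp.mapRange.addMonoidHom_apply, Finsupp.mapRange_single]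
    rw [bd_single]
    simp only [Units.smul_def]
  exact DFunLike.congr_fun this x

/-- Integral chains of size `q` in `K`. -/
def chains (K : Set (Finset α)) (q : ℕ) : Submodule ℤ (Finset α →₀ ℤ) where
  carrier := {c | ChainIn K q c}
  add_mem' := fun h h' => ChainIn.add h h'
  zero_mem' := ChainIn.zero K q
  smul_mem' := fun a _ h => ChainIn.smul a h

theorem cycles_le {K : Set (Finset α)} (hK : DownClosed K) {q l : ℕ} [Fact l.Prime]
    (h : Acyc (ZMod l) K q) :
    chains K q ⊓ LinearMap.ker bd ≤ (chains K (q + 1)).map bd ⊔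
      Ideal.span {(l : ℤ)} • (chains K q ⊓ LinearMap.ker bd) := by
  rintro z ⟨hz, hz0⟩
  have hz : ChainIn K q z := hz
  have hz0 : bd z = 0 := hz0
  let red : (Finset α →₀ ℤ) →+ (Finset α →₀ ZMod l) :=
    Finsupp.mapRange.addMonoidHom (Int.castAddHom (ZMod l))
  have hred : ∀ (x : Finset α →₀ ℤ) s, red x s = (x s : ZMod l) := fun _ _ => rfl
  obtain ⟨y, hy, hyz⟩ := h (red z) (by
    intro s hs
    refine hz s ?_
    rw [Finsupp.mem_support_iff] at hs ⊢
    intro h0
    exact hs (by rw [hred, h0, Int.cast_zero])) (by rw [bd_mapRange, hz0, map_zero])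
  let y' : Finset α →₀ ℤ := Finsupp.mapRange (fun a : ZMod l => (a.val : ℤ)) (by simp) y
  have hy' : ChainIn K (q + 1) y' := fun s hs => hy s (Finsupp.support_mapRange hs)
  have hyy : red y' = y := by
    ext s
    rw [hred]
    simp [y']
  have hdiv : ∀ s, (l : ℤ) ∣ (z - bd y') s := by
    intro s
    rw [← ZMod.intCast_zmod_eq_zero_iff_dvd, ← hred, map_sub, ← bd_mapRange, hyy, hyz, sub_self]
    rfl
  let w : Finset α →₀ ℤ := Finsupp.mapRange (fun a : ℤ => a / l) (by simp) (z - bd y')
  have hw : (l : ℤ) • w = z - bd y' := by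
    ext s
    exact Int.mul_ediv_cancel' (hdiv s)
  have hwK : ChainIn K q w := fun s hs => (hz.sub (hy'.bd hK)) s (Finsupp.support_mapRange hs)
  have hw0 : bd w = 0 := by
    have h1 : (l : ℤ) • bd w = 0 := by rw [← map_smul, hw, map_sub, bd_bd, hz0, sub_zero]
    ext s
    have h2 : (l : ℤ) * bd w s = 0 := DFunLike.congr_fun h1 s
    exact (mul_eq_zero.1 h2).resolve_left (by exact_mod_cast (Fact.out : l.Prime).ne_zero)
  have e : z = bd y' + (l : ℤ) • w := by rw [hw, add_sub_cancel]
  rw [e]
  exact Submodule.add_mem_sup ⟨y', hy', rfl⟩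
    (Submodule.smul_mem_smul (Ideal.mem_span_singleton_self _) ⟨hwK, hw0⟩)

theorem pow_bound [Finite α] {K : Set (Finset α)} (hK : DownClosed K) {q p : ℕ}
    (h : ∀ (l : ℕ) [Fact l.Prime], l ≠ p → Acyc (ZMod l) K q) :
    ∃ j : ℕ, ∀ z : Finset α →₀ ℤ, ChainIn K q z → bd z = 0 →
      ∃ y, ChainIn K (q + 1) y ∧ bd y = (p : ℤ) ^ j • z := by
  set Z : Submodule ℤ (Finset α →₀ ℤ) := chains K q ⊓ LinearMap.ker bd with hZ
  set B : Submodule ℤ (Finset α →₀ ℤ) := (chains K (q + 1)).map bd with hB
  let I : Ideal ℤ :=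
    { carrier := {r | ∀ z ∈ Z, r • z ∈ B}
      add_mem' := fun ha hb z hz => by rw [add_smul]; exact B.add_mem (ha z hz) (hb z hz)
      zero_mem' := fun z _ => by rw [zero_smul]; exact B.zero_mem
      smul_mem' := fun c a ha z hz => by
        rw [smul_eq_mul, mul_smul]; exact B.smul_mem c (ha z hz) }
  obtain ⟨g, hg⟩ := (IsPrincipalIdealRing.principal I).principal
  have hl : ∀ l : ℕ, l.Prime → l ≠ p → ¬ (l : ℤ) ∣ g := by
    intro l hl hlp hd
    have : Fact l.Prime := ⟨hl⟩
    obtain ⟨r, hr1, hr⟩ := Submodule.exists_sub_one_mem_and_smul_le_of_fg_of_le_sup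
      (IsNoetherian.noetherian Z) le_rfl (cycles_le hK (h l hlp))
    have hrI : r ∈ I := fun z hz => hr (Submodule.smul_mem_pointwise_smul z r Z hz)
    rw [hg] at hrI
    have h1 : (l : ℤ) ∣ r := hd.trans (Ideal.mem_span_singleton.1 hrI)
    have h2 : (l : ℤ) ∣ r - 1 := Ideal.mem_span_singleton.1 hr1
    have h3 : (l : ℤ) ∣ 1 := by
      have := dvd_sub h1 h2
      rwa [sub_sub_cancel] at this
    exact hl.one_lt.ne' (by exact_mod_cast Int.eq_one_of_dvd_one (by positivity) h3)
  have hg0 : g.natAbs ≠ 0 := by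
    obtain ⟨l, hl1, hl2⟩ := Nat.exists_infinite_primes (p + 1)
    intro h0
    rw [Int.natAbs_eq_zero] at h0
    exact hl l hl2 (by omega) (by rw [h0]; exact dvd_zero _)
  have hpow := Nat.eq_prime_pow_of_unique_prime_dvd (p := p) hg0 (fun {d} hd hdg => by
    by_contra hne
    exact hl d hd hne (Int.natCast_dvd.2 hdg))
  refine ⟨g.natAbs.primeFactorsList.length, fun z hz hz0 => ?_⟩
  have hmem : ((g.natAbs : ℕ) : ℤ) ∈ I := by
    rw [hg]
    exact Ideal.mem_span_singleton.2 (Int.dvd_natAbs.2 dvd_rfl)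
  obtain ⟨y, hy, hyz⟩ := hmem z ⟨hz, hz0⟩
  refine ⟨y, hy, ?_⟩
  rw [hyz, ← Nat.cast_pow, ← hpow]

/-- An integral cone function up to powers of `P`. -/
theorem exists_cone_pow {K : Set (Finset α)} (hK : DownClosed K) (P : ℤ) (m : ℕ)
    (h : ∀ q < m, ∀ z : Finset α →₀ ℤ, ChainIn K q z → bd z = 0 →
      ∃ y, ChainIn K (q + 1) y ∧ bd y = P • z) :
    ∃ cf : Finset α → (Finset α →₀ ℤ), ∀ ρ ∈ K, ρ.card < m → ChainIn K (ρ.card + 1) (cf ρ) ∧
      bd (cf ρ) = P ^ (ρ.card + 1) • Finsupp.single ρ 1 -
        P • linExt cf (bd (Finsupp.single ρ 1)) := by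
  induction m with
  | zero => exact ⟨fun _ => 0, fun ρ _ h => absurd h (Nat.not_lt_zero _)⟩
  | succ m ih =>
    obtain ⟨cf, hcf⟩ := ih fun q hq => h q (by omega)
    have hex : ∀ ρ : Finset α, ∃ y : Finset α →₀ ℤ, ρ ∈ K → ρ.card = m →
        ChainIn K (m + 1) y ∧ bd y = P ^ (m + 1) • Finsupp.single ρ 1 -
          P • linExt cf (bd (Finsupp.single ρ 1)) := by
      intro ρ
      by_cases hρ : ρ ∈ K ∧ ρ.card = m
      swap
      · exact ⟨0, fun h1 h2 => absurd ⟨h1, h2⟩ hρ⟩
      obtain ⟨hρK, hρm⟩ := hρ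
      have hs := chainIn_single hρK hρm (1 : ℤ)
      have hz : ChainIn K m (P ^ m • Finsupp.single ρ 1 - linExt cf (bd (Finsupp.single ρ 1))) ∧
          bd (P ^ m • Finsupp.single ρ 1 - linExt cf (bd (Finsupp.single ρ 1))) = 0 := by
        rcases m with _ | m
        · have : ρ = ∅ := card_eq_zero.1 hρm
          subst this
          have e : bd (Finsupp.single (∅ : Finset α) (1 : ℤ)) = 0 := by simp [bd_single]
          rw [e, map_zero, sub_zero, map_smul, e, smul_zero]
          exact ⟨hs.smul _, rfl⟩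
        · have hb := hs.bd hK
          refine ⟨(hs.smul _).sub (ChainIn.linExt (fun r hr hc => ?_) hb), ?_⟩
          · have := (hcf r hr (by omega)).1
            rwa [hc] at this
          · have key : bd (linExt cf (bd (Finsupp.single ρ 1))) =
                P ^ (m + 1) • bd (Finsupp.single ρ 1) -
                  P • linExt cf (bd (bd (Finsupp.single ρ 1))) :=
              linMap_congr (bd ∘ₗ linExt cf)
                (P ^ (m + 1) • LinearMap.id - P • (linExt cf ∘ₗ bd)) _ (by
                  intro s hs'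
                  obtain ⟨h1, h2⟩ := hb s hs'
                  have h3 := (hcf s h1 (by omega)).2
                  rw [h2] at h3
                  have e : ∀ a : ℤ, Finsupp.single s a = a • Finsupp.single s (1 : ℤ) := by
                    intro a
                    rw [Finsupp.smul_single, smul_eq_mul, mul_one]
                  rw [e, map_smul, map_smul, LinearMap.comp_apply, linExt_single, one_smul, h3]
                  rfl)
            rw [map_sub, map_smul, key, bd_bd, map_zero, smul_zero, sub_zero, sub_self]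
      obtain ⟨y, hy1, hy2⟩ := h m (by omega) _ hz.1 hz.2
      exact ⟨y, fun _ _ => ⟨hy1, by rw [hy2, smul_sub, smul_smul, ← pow_succ']⟩⟩
    choose g hg using hex
    refine ⟨fun ρ => if ρ.card = m then g ρ else cf ρ, ?_⟩
    intro ρ hρ hρm
    have herase : linExt (fun ρ => if ρ.card = m then g ρ else cf ρ) (bd (Finsupp.single ρ 1)) =
        linExt cf (bd (Finsupp.single ρ 1)) := by
      rw [linExt_bd_single, linExt_bd_single]
      congr 1
      refine sum_congr rfl fun v hv => ?_
      have h2 : (ρ.erase v).card < ρ.card := card_erase_lt_of_mem hv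
      rw [if_neg (by omega)]
    rw [herase]
    beta_reduce
    by_cases hc : ρ.card = m
    · rw [if_pos hc, hc]
      exact hg ρ hρ hc
    · rw [if_neg hc]
      exact hcf ρ hρ (by omega)

/-- Cocycles with values in a group on which `p` acts invertibly are coboundaries. -/
theorem cocycle_eq_coboundary [Finite α] {K : Set (Finset α)} (hK : DownClosed K) {p : ℕ}
    (s : ℕ) (h : ∀ q ≤ s, ∀ (l : ℕ) [Fact l.Prime], l ≠ p → Acyc (ZMod l) K q)
    {A : Type*} [AddCommGroup A] (hA : Function.Bijective fun a : A => p • a)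
    (f : Finset α → A) (hf : ∀ ρ ∈ K, ρ.card = s + 1 → dd f ρ = 0) :
    ∃ e : Finset α → A, ∀ τ ∈ K, τ.card = s → f τ = dd e τ := by
  choose! j hj using fun q (hq : q ≤ s) => pow_bound hK (h q hq)
  set J := (range (s + 1)).sup j with hJ
  obtain ⟨cf, hcf⟩ := exists_cone_pow hK ((p : ℤ) ^ J) (s + 1) (by
    intro q hq z hz hz0
    obtain ⟨y, hy, hyz⟩ := hj q (by omega) z hz hz0
    have hle : j q ≤ J := le_sup (f := j) (mem_range.2 hq)
    refine ⟨(p : ℤ) ^ (J - j q) • y, hy.smul _, ?_⟩
    rw [map_smul, hyz, smul_smul, ← pow_add, Nat.sub_add_cancel hle])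
  have hpow : ∀ n : ℕ, Function.Bijective fun a : A => (p : ℤ) ^ n • a := by
    intro n
    induction n with
    | zero => simp only [pow_zero, one_smul]; exact Function.bijective_id
    | succ n ih =>
      have : (fun a : A => (p : ℤ) ^ (n + 1) • a) = (fun a : A => (p : ℤ) ^ n • a) ∘
          fun a : A => p • a := by
        funext a
        rw [Function.comp_apply, pow_succ, mul_smul, natCast_zsmul]
      rw [this]
      exact ih.comp hA
  choose e he using fun σ => (hpow (J * (s + 1))).2 ((p : ℤ) ^ J • ev f (cf σ))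
  refine ⟨e, fun τ hτ hc => (hpow (J * (s + 1))).1 ?_⟩
  obtain ⟨h1, h2⟩ := hcf τ hτ (by omega)
  have h3 : ev f (bd (cf τ)) = 0 := by
    rw [ev_bd]
    by_contra hne
    obtain ⟨π, hπ, hπ'⟩ := exists_of_ev_ne_zero hne
    exact hπ' (hf π (h1 π hπ).1 (by rw [(h1 π hπ).2, hc]))
  rw [h2, map_sub, sub_eq_zero, map_smul, ev_single, one_smul, hc, ← pow_mul, map_smul,
    linExt_bd_single, one_smul, map_sum, smul_sum] at h3
  show (p : ℤ) ^ (J * (s + 1)) • f τ = (p : ℤ) ^ (J * (s + 1)) • dd e τ
  rw [h3, dd, smul_sum]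
  refine sum_congr rfl fun v _ => ?_
  have h4 : (p : ℤ) ^ (J * (s + 1)) • e (τ.erase v) = _ := he (τ.erase v)
  rw [map_us, ← us_comm, ← us_comm, h4]

end Vale.Agent.P067.S
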