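import Vale.Agent.N067S.Fill

/-! Cochains with values in an abelian group: local to global. -/

set_option autoImplicit false
set_option linter.all false

open Finset

namespace Vale.Agent.P067.S

attribute [local instance] Classical.propDecidable

section Basic

variable {α : Type*} {A : Type*} [AddCommGroup A]

/-- Coboundary of a cochain. -/
noncomputable def dd (f : Finset α → A) (ρ : Finset α) : A :=
  ∑ v ∈ ρ, sg ρ v • f (ρ.erase v)

noncomputable def nrmL [Fintype α] (top : Finset (Finset α)) (σ : Finset α) (q : ℕ)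
    (g : Finset α → A) : ℕ :=
  ∑ τ ∈ (univ : Finset (Finset α)).filter
    (fun τ => τ.card = q ∧ Disjoint τ σ ∧ g τ ≠ 0), W top (σ ∪ τ)

noncomputable def nrm [Fintype α] (top : Finset (Finset α)) (q : ℕ)
    (g : Finset α → A) : ℕ :=
  ∑ τ ∈ (univ : Finset (Finset α)).filter
    (fun τ => τ.card = q ∧ g τ ≠ 0), W top τ

/-- The sign of the join of `σ` and `τ`. -/
noncomputable def cs (σ τ : Finset α) : ℤˣ := ∏ v ∈ τ, sg σ v

/-- Localization of a cochain at `σ`. -/
noncomputable def loc (f : Finset α → A) (σ : Finset α) (τ : Finset α) : A := cs σ τ • f (σ ∪ τ)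

def MinAt [Fintype α] (top : Finset (Finset α)) (σ : Finset α) (q : ℕ)
    (g : Finset α → A) : Prop :=
  ∀ h : Finset α → A, nrmL top σ q g ≤ nrmL top σ q (fun τ => g τ + dd h τ)

def LocMin [Fintype α] (top : Finset (Finset α)) (s : ℕ) (f : Finset α → A) : Prop :=
  ∀ σ : Finset α, σ.Nonempty → 0 < W top σ → σ.card < s → MinAt top σ (s - σ.card) (loc f σ)

def LinkExp (A : Type*) [AddCommGroup A] [Fintype α] (top : Finset (Finset α)) (N : ℕ) (β : ℝ) :
    Prop :=
  ∀ σ : Finset α, σ.Nonempty → 0 < W top σ → ∀ q : ℕ, 1 ≤ q → q + σ.card + 1 ≤ N →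
    ∀ g : Finset α → A, ∃ h : Finset α → A,
      β * (nrmL top σ q (fun τ => g τ + dd h τ) : ℝ) ≤ (nrmL top σ (q + 1) (dd g) : ℝ)

theorem cs_erase {σ τ : Finset α} (h : Disjoint τ σ) {v : α} (hv : v ∈ τ) :
    sg τ v * cs σ (τ.erase v) = cs σ τ * sg (σ ∪ τ) v := by
  have h1 : cs σ τ = sg σ v * cs σ (τ.erase v) := (Finset.mul_prod_erase τ _ hv).symm
  rw [h1, sg_union h.symm]
  calc sg τ v * cs σ (τ.erase v) = (sg σ v * sg σ v) * (sg τ v * cs σ (τ.erase v)) := by
        rw [uu, one_mul]
    _ = _ := by simp only [mul_comm, mul_left_comm, mul_assoc]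

theorem loc_ne {f : Finset α → A} {σ τ : Finset α} : loc f σ τ ≠ 0 ↔ f (σ ∪ τ) ≠ 0 := by
  rw [loc, Ne, us_eq_zero]

theorem dd_add (f g : Finset α → A) : dd (f + g) = dd f + dd g := by
  funext ρ
  simp [dd, sum_add_distrib]

theorem dd_zero : dd (0 : Finset α → A) = 0 := by
  funext ρ
  simp [dd]

theorem dd_neg (f : Finset α → A) (ρ : Finset α) : dd (fun τ => -f τ) ρ = -dd f ρ := by
  simp [dd]

/-- Evaluation of a cochain on an integral chain. -/
noncomputable def ev (f : Finset α → A) : (Finset α →₀ ℤ) →ₗ[ℤ] A :=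
  Finsupp.linearCombination ℤ f

theorem ev_single (f : Finset α → A) (s : Finset α) (a : ℤ) :
    ev f (Finsupp.single s a) = a • f s := by
  simp [ev]

theorem ev_bd (f : Finset α → A) (c : Finset α →₀ ℤ) : ev f (bd c) = ev (dd f) c := by
  have : (ev f ∘ₗ bd : (Finset α →₀ ℤ) →ₗ[ℤ] A) = ev (dd f) := by
    apply Finsupp.lhom_ext
    intro s a
    rw [LinearMap.comp_apply, bd_single, map_sum, ev_single, dd, smul_sum]
    exact sum_congr rfl (fun v _ => by rw [map_us, ev_single, us_comm])
  exact LinearMap.congr_fun this c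

theorem dd_dd (f : Finset α → A) : dd (dd f) = 0 := by
  funext ρ
  have h := ev_single (dd (dd f)) ρ 1
  rw [one_smul, ← ev_bd, ← ev_bd, bd_bd, map_zero] at h
  exact h.symm

theorem exists_of_ev_ne_zero {f : Finset α → A} {c : Finset α →₀ ℤ} (h : ev f c ≠ 0) :
    ∃ π ∈ c.support, f π ≠ 0 := by
  by_contra hcon
  push Not at hcon
  apply h
  rw [ev, Finsupp.linearCombination_apply, Finsupp.sum]
  exact sum_eq_zero (fun π hπ => by rw [hcon π hπ, smul_zero])

/-- Indicator of the support. -/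
noncomputable def ind (f : Finset α → A) (τ : Finset α) : ZMod 2 := if f τ = 0 then 0 else 1

theorem ind_ne {f : Finset α → A} {τ : Finset α} : ind f τ ≠ 0 ↔ f τ ≠ 0 := by
  unfold ind
  split_ifs with h
  · simp [h]
  · simp [h]

end Basic

/-- Coboundary inequality from a bounded cone function and a group action. -/
theorem cone_expansion {α : Type} [Fintype α] {A : Type*} [AddCommGroup A] (K : Set (Finset α)) (hK : DownClosed K)
    {H : Type} [Group H] [Fintype H] [MulAction H α]
    (hHK : ∀ (h : H) (σ : Finset α), σ ∈ K → σ.image (fun x => h • x) ∈ K)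
    (w : Finset α → ℕ) (hw : ∀ (h : H) (σ : Finset α), w (σ.image (fun x => h • x)) = w σ)
    (Wtot q C0 : ℕ) (hq : 1 ≤ q)
    (horb : ∀ π ∈ K, π.card = q + 1 →
      w π * ((univ : Finset H).image (fun h : H => π.image (fun x => h • x))).card = Wtot)
    (cf : Finset α → (Finset α →₀ ℤ))
    (hcf : ∀ ρ ∈ K, ρ.card ≤ q → ChainIn K (ρ.card + 1) (cf ρ) ∧ (cf ρ).support.card ≤ C0 ∧
      bd (cf ρ) = Finsupp.single ρ 1 - ∑ v ∈ ρ, sg ρ v • cf (ρ.erase v))
    (f : Finset α → A) :
    ∃ g : Finset α → A,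
      Wtot * (∑ τ ∈ (univ : Finset (Finset α)).filter
          (fun τ => τ ∈ K ∧ τ.card = q ∧ f τ + dd g τ ≠ 0), w τ) ≤
        C0 * (∑ τ ∈ (univ : Finset (Finset α)).filter (fun τ => τ ∈ K ∧ τ.card = q), w τ) *
          (∑ τ ∈ (univ : Finset (Finset α)).filter
            (fun τ => τ ∈ K ∧ τ.card = q + 1 ∧ dd f τ ≠ 0), w τ) := by
  have hHK' : ∀ (h : H) (σ : Finset α), σ ∈ K → actF h σ ∈ K := hHK
  have hw' : ∀ (h : H) (σ : Finset α), w (actF h σ) = w σ := hw
  set Kq : Finset (Finset α) := (univ : Finset (Finset α)).filter (fun τ => τ ∈ K ∧ τ.card = q)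
    with hKq
  set S : ℕ := ∑ τ ∈ Kq, w τ with hS
  set D : ℕ := ∑ τ ∈ (univ : Finset (Finset α)).filter
            (fun τ => τ ∈ K ∧ τ.card = q + 1 ∧ dd f τ ≠ 0), w τ with hD
  -- the candidate cochains
  let cfh : H → Finset α → (Finset α →₀ ℤ) := fun h τ =>
    ps (fun x => h⁻¹ • x) τ • mapC (fun x => h • x) (cf (actF h⁻¹ τ))
  let g : H → Finset α → A := fun h τ => -ev f (cfh h τ)
  -- key identity
  have hkey : ∀ (h : H) (σ : Finset α), σ ∈ K → σ.card = q → f σ + dd (g h) σ ≠ 0 →
      ∃ π ∈ (cf (actF h⁻¹ σ)).support, dd f (actF h π) ≠ 0 := by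
    intro h σ hσ hσq hne
    have h2 := (hcf (actF h⁻¹ σ) (hHK' _ _ hσ) (by rw [card_act, hσq])).2.2
    have hi : Set.InjOn (fun x => h⁻¹ • x) (σ : Set α) := (MulAction.injective h⁻¹).injOn
    have h3 : bd (cfh h σ) = Finsupp.single σ 1 - ∑ v ∈ σ, sg σ v • cfh h (σ.erase v) := by
      show bd (ps (fun x => h⁻¹ • x) σ • mapC (fun x => h • x) (cf (actF h⁻¹ σ))) = _
      rw [map_us, bd_mapC _ _ (fun s _ => (MulAction.injective h).injOn), h2, map_sub, smul_sub,
        map_sum]
      congr 1
      · rw [← map_us, actF, ← mapC_single]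
        exact mapC_mapC_of_leftInv _ _ _ fun s _ x _ => smul_inv_smul h x
      · rw [sum_act, smul_sum]
        refine sum_congr rfl fun v hv => ?_
        show _ = sg σ v • ps (fun x => h⁻¹ • x) (σ.erase v) •
          mapC (fun x => h • x) (cf (actF h⁻¹ (σ.erase v)))
        rw [act_erase, map_us, smul_smul, smul_smul, ← ps_erase _ hi hv]
        rfl
    have h4 : f σ + dd (g h) σ = ev (dd f) (cfh h σ) := by
      rw [← ev_bd, h3, map_sub, ev_single, one_smul, map_sum, sub_eq_add_neg, dd,
        ← sum_neg_distrib]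
      congr 1
      refine sum_congr rfl fun v _ => ?_
      rw [map_us, ← smul_neg]
    rw [h4] at hne
    obtain ⟨π', hπ', hπ⟩ := exists_of_ev_ne_zero hne
    rw [support_us] at hπ'
    obtain ⟨π, h5, rfl⟩ := support_mapC _ _ π' hπ'
    exact ⟨π, h5, hπ⟩
  -- bound for one simplex
  have horbit : ∀ π ∈ K, π.card = q + 1 →
      Wtot * ((univ : Finset H).filter (fun h => dd f (actF h π) ≠ 0)).card ≤
        Fintype.card H * D := by
    intro π hπ hπq
    have h1 : ((univ : Finset H).filter (fun h => dd f (actF h π) ≠ 0)).card *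
        ((univ : Finset H).image (fun h : H => actF h π)).card =
      Fintype.card H *
        (((univ : Finset H).image (fun h : H => actF h π)).filter
          (fun τ => dd f τ ≠ 0)).card := by
      convert orbit_count (H := H) (fun τ => dd f τ ≠ 0) π
    have h2 : w π * ((univ : Finset H).image (fun h : H => actF h π)).card = Wtot :=
      horb π hπ hπq
    rw [← h2, mul_assoc, mul_comm (((univ : Finset H).image (fun h : H => actF h π)).card), h1,
      mul_left_comm]
    refine Nat.mul_le_mul_left _ ?_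
    calc w π * (((univ : Finset H).image (fun h : H => actF h π)).filter
            (fun τ => dd f τ ≠ 0)).card
        = ∑ τ ∈ ((univ : Finset H).image (fun h : H => actF h π)).filter
            (fun τ => dd f τ ≠ 0), w π := by rw [sum_const, smul_eq_mul, mul_comm]
      _ = ∑ τ ∈ ((univ : Finset H).image (fun h : H => actF h π)).filter
            (fun τ => dd f τ ≠ 0), w τ := by
          refine sum_congr rfl (fun τ hτ => ?_)
          obtain ⟨h, _, rfl⟩ := mem_image.1 (mem_filter.1 hτ).1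
          rw [hw']
      _ ≤ D := by
          refine sum_le_sum_of_subset ?_
          intro τ hτ
          rw [mem_filter] at hτ
          obtain ⟨h, _, rfl⟩ := mem_image.1 hτ.1
          rw [mem_filter]
          exact ⟨mem_univ _, hHK' _ _ hπ, by rw [card_act, hπq], hτ.2⟩
  -- sum over the group
  let nh : H → ℕ := fun h => ∑ τ ∈ (univ : Finset (Finset α)).filter
          (fun τ => τ ∈ K ∧ τ.card = q ∧ f τ + dd (g h) τ ≠ 0), w τ
  have hnh : ∀ h : H, nh h ≤
      ∑ ρ ∈ Kq, w ρ * ((cf ρ).support.filter (fun π => dd f (actF h π) ≠ 0)).card := by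
    intro h
    calc nh h = ∑ τ ∈ Kq.filter (fun τ => f τ + dd (g h) τ ≠ 0), w τ := by
          refine sum_congr ?_ (fun _ _ => rfl)
          ext τ
          simp only [hKq, mem_filter, mem_univ, true_and]
          (clear * -; tauto)
      _ ≤ ∑ τ ∈ Kq.filter (fun τ => f τ + dd (g h) τ ≠ 0),
            w τ * ((cf (actF h⁻¹ τ)).support.filter (fun π => dd f (actF h π) ≠ 0)).card := by
          refine sum_le_sum (fun τ hτ => ?_)
          rw [mem_filter, hKq, mem_filter] at hτ
          obtain ⟨π, hπ, hπ'⟩ := hkey h τ hτ.1.2.1 hτ.1.2.2 hτ.2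
          have : 1 ≤ ((cf (actF h⁻¹ τ)).support.filter (fun π => dd f (actF h π) ≠ 0)).card :=
            card_pos.2 ⟨π, mem_filter.2 ⟨hπ, hπ'⟩⟩
          calc w τ = w τ * 1 := (mul_one _).symm
            _ ≤ _ := Nat.mul_le_mul_left _ this
      _ ≤ ∑ τ ∈ Kq,
            w τ * ((cf (actF h⁻¹ τ)).support.filter (fun π => dd f (actF h π) ≠ 0)).card :=
          sum_le_sum_of_subset (filter_subset _ _)
      _ = _ := by
          refine sum_bij' (fun τ _ => actF h⁻¹ τ) (fun ρ _ => actF h ρ) ?_ ?_ ?_ ?_ ?_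
          · intro τ hτ
            rw [hKq, mem_filter] at hτ ⊢
            exact ⟨mem_univ _, hHK' _ _ hτ.2.1, by rw [card_act, hτ.2.2]⟩
          · intro τ hτ
            rw [hKq, mem_filter] at hτ ⊢
            exact ⟨mem_univ _, hHK' _ _ hτ.2.1, by rw [card_act, hτ.2.2]⟩
          · intro τ _
            exact act_act_inv h τ
          · intro τ _
            exact act_inv_act h τ
          · intro τ _
            rw [hw']
  have hsum : Wtot * ∑ h : H, nh h ≤ Fintype.card H * (C0 * S * D) := by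
    calc Wtot * ∑ h : H, nh h
        ≤ Wtot * ∑ h : H, ∑ ρ ∈ Kq,
            w ρ * ((cf ρ).support.filter (fun π => dd f (actF h π) ≠ 0)).card :=
          Nat.mul_le_mul_left _ (sum_le_sum (fun h _ => hnh h))
      _ = ∑ ρ ∈ Kq, w ρ * ∑ π ∈ (cf ρ).support,
            (Wtot * ((univ : Finset H).filter (fun h => dd f (actF h π) ≠ 0)).card) := by
          rw [sum_comm, mul_sum]
          refine sum_congr rfl (fun ρ _ => ?_)
          rw [← mul_sum, mul_left_comm, ← mul_sum]
          congr 2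
          simp only [card_filter]
          rw [sum_comm]
      _ ≤ ∑ ρ ∈ Kq, w ρ * (C0 * (Fintype.card H * D)) := by
          refine sum_le_sum (fun ρ hρ => Nat.mul_le_mul_left _ ?_)
          rw [hKq, mem_filter] at hρ
          obtain ⟨h1, h2, _⟩ := hcf ρ hρ.2.1 hρ.2.2.le
          calc ∑ π ∈ (cf ρ).support,
                (Wtot * ((univ : Finset H).filter (fun h => dd f (actF h π) ≠ 0)).card)
              ≤ ∑ π ∈ (cf ρ).support, Fintype.card H * D := by
                refine sum_le_sum (fun π hπ => ?_)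
                have h3 := h1 π hπ
                exact horbit π h3.1 (by rw [h3.2, hρ.2.2])
            _ = (cf ρ).support.card * (Fintype.card H * D) := by rw [sum_const, smul_eq_mul]
            _ ≤ _ := Nat.mul_le_mul_right _ h2
      _ = Fintype.card H * (C0 * S * D) := by
          rw [← sum_mul, hS]
          ring
  -- pick a good group element
  have hex : ∃ h : H, Wtot * nh h ≤ C0 * S * D := by
    by_contra hcon
    push Not at hcon
    have : Fintype.card H * (C0 * S * D) < Wtot * ∑ h : H, nh h := by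
      calc Fintype.card H * (C0 * S * D) = ∑ _h : H, C0 * S * D := by
            rw [sum_const, card_univ, smul_eq_mul]
        _ < ∑ h : H, Wtot * nh h := sum_lt_sum_of_nonempty univ_nonempty (fun h _ => hcon h)
        _ = _ := by rw [mul_sum]
    omega
  obtain ⟨h, hh⟩ := hex
  exact ⟨g h, hh⟩

section LE

variable {α : Type} {G : Type} [Group G] [MulAction G α]

/-- Link expansion from bounded cone functions. -/
theorem linkExp_of_cone (A : Type*) [AddCommGroup A] [Fintype α] [Fintype G] (top : Finset (Finset α)) (N : ℕ)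
    (htop : ∀ C ∈ top, C.card = N) (ty : α → ℕ) (hT : TypedTrans G top ty) (C0 : ℕ)
    (hcone : ∀ σ : Finset α, σ.Nonempty → 0 < W top σ →
      ∃ cf : Finset α → (Finset α →₀ ℤ), ∀ ρ ∈ linkK top σ, ρ.card + σ.card + 1 ≤ N →
        ChainIn (linkK top σ) (ρ.card + 1) (cf ρ) ∧ (cf ρ).support.card ≤ C0 ∧
          bd (cf ρ) = Finsupp.single ρ 1 - ∑ v ∈ ρ, sg ρ v • cf (ρ.erase v)) :
    LinkExp A top N (1 / ((C0 + 1 : ℝ) * 2 ^ N)) := by
  intro σ hσ hWσ q hq hqN g
  obtain ⟨cf, hcf⟩ := hcone σ hσ hWσ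
  obtain ⟨h, hh⟩ := cone_expansion (H := stabF G σ) (linkK top σ) (linkK_down top σ)
    (by
      intro h τ hτ
      refine ⟨?_, ?_⟩
      · have hg : σ.image (fun x => (h : G) • x) = σ := h.2
        have : Disjoint (τ.image (fun x => (h : G) • x)) (σ.image (fun x => (h : G) • x)) := by
          rw [Finset.disjoint_image (MulAction.injective (h : G))]
          exact hτ.1
        rw [hg] at this
        exact this
      · rw [union_image_stab, W_smul_of_invariant top hT.inv]
        exact hτ.2)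
    (fun τ => W top (σ ∪ τ))
    (by
      intro h τ
      show W top (σ ∪ τ.image (fun x => h • x)) = W top (σ ∪ τ)
      rw [union_image_stab, W_smul_of_invariant top hT.inv])
    (W top σ) q C0 hq
    (by
      intro π hπ _
      exact orbit_weight top ty hT σ π hπ.2)
    cf
    (by
      intro ρ hρ hρq
      exact hcf ρ hρ (by omega))
    g
  refine ⟨h, ?_⟩
  have hL : ∀ (r : ℕ) (u : Finset α → A), nrmL top σ r u =
      ∑ τ ∈ (univ : Finset (Finset α)).filter
        (fun τ => τ ∈ linkK top σ ∧ τ.card = r ∧ u τ ≠ 0), W top (σ ∪ τ) := by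
    intro r u
    unfold nrmL
    symm
    apply Finset.sum_subset_zero_on_sdiff
    · intro τ hτ
      rw [Finset.mem_filter] at hτ ⊢
      exact ⟨hτ.1, hτ.2.2.1, hτ.2.1.1, hτ.2.2.2⟩
    · intro τ hτ
      rw [Finset.mem_sdiff, Finset.mem_filter, Finset.mem_filter] at hτ
      by_contra hne
      exact hτ.2 ⟨hτ.1.1, ⟨hτ.1.2.2.1, Nat.pos_of_ne_zero hne⟩, hτ.1.2.1, hτ.1.2.2.2⟩
    · intro _ _
      rfl
  rw [hL, hL]
  have hsum := sum_W_union_le top N htop σ q
  set A := ∑ τ ∈ (univ : Finset (Finset α)).filter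
        (fun τ => τ ∈ linkK top σ ∧ τ.card = q ∧ g τ + dd h τ ≠ 0), W top (σ ∪ τ) with hA
  set B := ∑ τ ∈ (univ : Finset (Finset α)).filter
        (fun τ => τ ∈ linkK top σ ∧ τ.card = q + 1 ∧ dd g τ ≠ 0), W top (σ ∪ τ) with hB
  have h1 : W top σ * A ≤ C0 * (2 ^ N * W top σ) * B :=
    le_trans hh (Nat.mul_le_mul_right _ (Nat.mul_le_mul_left _ hsum))
  have h2 : A ≤ C0 * 2 ^ N * B := by
    have : W top σ * A ≤ W top σ * (C0 * 2 ^ N * B) := by
      calc W top σ * A ≤ C0 * (2 ^ N * W top σ) * B := h1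
        _ = W top σ * (C0 * 2 ^ N * B) := by ring
    exact Nat.le_of_mul_le_mul_left this hWσ
  have h3 : (A : ℝ) ≤ (C0 + 1 : ℝ) * 2 ^ N * B := by
    calc (A : ℝ) ≤ ((C0 * 2 ^ N * B : ℕ) : ℝ) := by exact_mod_cast h2
      _ = (C0 : ℝ) * 2 ^ N * B := by push_cast; ring
      _ ≤ (C0 + 1 : ℝ) * 2 ^ N * B := by
          apply mul_le_mul_of_nonneg_right _ (Nat.cast_nonneg _)
          apply mul_le_mul_of_nonneg_right _ (by positivity)
          linarith only []
  rw [one_div, inv_mul_le_iff₀ (by positivity)]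
  exact h3

end LE

section LT

attribute [-instance] Submodule.decidableEq

open scoped Pointwise

/-- Coboundary expansion in the links of `X`, with a constant depending only on `n`. -/
theorem linkExp_topX (n : ℕ) : ∃ (β : ℝ) (p0 : ℕ), 0 < β ∧ ∀ (p m : ℕ) [Fact p.Prime] (ι : Type)
    [Fintype ι] [DecidableEq ι] [Fintype (Sb ι p m)], Fintype.card ι = n → p0 ≤ p → 3 ≤ m →
    ∀ (A : Type) [AddCommGroup A], LinkExp A (topX ι p m) n β := by
  obtain ⟨C0, p0, h⟩ := exists_cone_link n
  refine ⟨1 / ((C0 + 1 : ℝ) * 2 ^ n), p0, by positivity, ?_⟩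
  intro p m _ ι _ _ _ hn hp hm A _
  have := finite_GGL (ι := ι) (p := p) (m := m)
  let _ : Fintype (GG ι p m) := Fintype.ofFinite _
  exact linkExp_of_cone A (topX ι p m) n (fun C hC => by rw [← hn]; exact (mem_topX.1 hC).2)
    _ (typedTrans_topX hm) C0 (fun σ hσ hW => h p m ι hn hp hm ℤ σ hσ hW)

end LT

section C1

variable {α : Type*} [Fintype α] {A : Type*} [AddCommGroup A]

theorem nrmL_add_le (top : Finset (Finset α)) (σ : Finset α) (q : ℕ) (a b : Finset α → A) :
    nrmL top σ q (fun τ => a τ + b τ) ≤ nrmL top σ q a + nrmL top σ q b := by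
  unfold nrmL
  simp only [sum_filter]
  rw [← sum_add_distrib]
  refine sum_le_sum fun τ _ => ?_
  by_cases h1 : τ.card = q ∧ Disjoint τ σ ∧ a τ + b τ ≠ 0
  · rw [if_pos h1]
    obtain ⟨h1, h2, h3⟩ := h1
    by_cases ha : a τ = 0
    · have hb : b τ ≠ 0 := fun hb => h3 (by rw [ha, hb, add_zero])
      rw [if_pos (⟨h1, h2, hb⟩ : τ.card = q ∧ Disjoint τ σ ∧ b τ ≠ 0)]
      exact Nat.le_add_left _ _
    · rw [if_pos (⟨h1, h2, ha⟩ : τ.card = q ∧ Disjoint τ σ ∧ a τ ≠ 0)]
      exact Nat.le_add_right _ _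
  · rw [if_neg h1]
    exact Nat.zero_le _

theorem nrmL_congr (top : Finset (Finset α)) (σ : Finset α) (q : ℕ) {a b : Finset α → A}
    (h : ∀ τ, a τ = b τ) : nrmL top σ q a = nrmL top σ q b := by
  rw [funext h]

/-- A subcochain of a minimal cochain is minimal. -/
theorem MinAt.sub {top : Finset (Finset α)} {σ : Finset α} {q : ℕ} {f g : Finset α → A}
    (hf : MinAt top σ q f) (hg : ∀ τ, g τ ≠ 0 → g τ = f τ) : MinAt top σ q g := by
  intro h
  have h1 := hf h
  have h2 : nrmL top σ q (fun τ => f τ + dd h τ) ≤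
      nrmL top σ q (fun τ => g τ + dd h τ) + nrmL top σ q (fun τ => f τ - g τ) := by
    refine le_trans (le_of_eq (nrmL_congr top σ q fun τ => ?_)) (nrmL_add_le top σ q _ _)
    abel
  have h3 : nrmL top σ q g + nrmL top σ q (fun τ => f τ - g τ) ≤ nrmL top σ q f := by
    unfold nrmL
    simp only [sum_filter]
    rw [← sum_add_distrib]
    refine sum_le_sum fun τ _ => ?_
    by_cases hg0 : g τ = 0
    · simp [hg0]
    · have e := hg τ hg0
      have e2 : f τ - g τ = 0 := by rw [e, sub_self]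
      rw [if_neg (fun h : τ.card = q ∧ Disjoint τ σ ∧ f τ - g τ ≠ 0 => h.2.2 e2), add_zero, e]
  omega

variable (top : Finset (Finset α)) (η : ℕ → ℝ) (f : Finset α → A) (s : ℕ)

/-- Restriction of the localization to the upper ends of the ladders starting in `σ`. -/
noncomputable def ladInd (i : ℕ) (σ x : Finset α) : A :=
  if Lad top η (ind f) s i σ (σ ∪ x) then loc f σ x else 0

theorem ne_of_lad {i : ℕ} {σ τ : Finset α} (h : Lad top η (ind f) s i σ τ) : f τ ≠ 0 :=
  ind_ne.1 ((mem_fat_zero top η (ind f) s).1 (Lad.mem_top top η (ind f) s h)).2.2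

theorem dd_ladInd {i : ℕ} {σ ρ : Finset α}
    (hmin : ∀ v ∈ σ, σ.erase v ∉ fat top η (ind f) s (i + 1))
    (hf : ∀ ρ : Finset α, ρ.card = s + 1 → 0 < W top ρ → dd f ρ = 0)
    (hσρ : σ ⊆ ρ) (hc : ρ.card = s + 1) (hw : 0 < W top ρ) (hρ : ρ ∉ bad top η (ind f) s) :
    dd (ladInd top η f s i σ) (ρ \ σ) = 0 := by
  have h1 : dd (ladInd top η f s i σ) (ρ \ σ) = cs σ (ρ \ σ) •
      ∑ v ∈ ρ \ σ, if Lad top η (ind f) s i σ (ρ.erase v) then sg ρ v • f (ρ.erase v) else 0 := by
    unfold dd ladInd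
    rw [smul_sum]
    refine sum_congr rfl fun v hv => ?_
    have hcs := cs_erase (sdiff_disjoint (s := σ) (t := ρ)) hv
    rw [union_sdiff_of_subset hσρ] at hcs
    rw [mem_sdiff] at hv
    have : σ ∪ (ρ \ σ).erase v = ρ.erase v := by
      ext x
      simp only [mem_union, mem_erase, mem_sdiff]
      constructor
      · rintro (h | h)
        · exact ⟨fun e => hv.2 (e ▸ h), hσρ h⟩
        · exact ⟨h.1, h.2.1⟩
      · rintro ⟨h, h'⟩
        by_cases hx : x ∈ σ
        · exact Or.inl hx
        · exact Or.inr ⟨h, h', hx⟩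
    rw [loc, this]
    split_ifs
    · rw [smul_smul, smul_smul, hcs]
    · rw [smul_zero, smul_zero]
  rw [h1, us_eq_zero]
  by_cases hex : ∃ w ∈ ρ \ σ, Lad top η (ind f) s i σ (ρ.erase w)
  · obtain ⟨w, hw', hlad⟩ := hex
    refine Eq.trans ?_ (hf ρ hc hw)
    rw [dd]
    have h2 : ∀ v ∈ ρ, sg ρ v • f (ρ.erase v) =
        if v ∉ σ ∧ Lad top η (ind f) s i σ (ρ.erase v) then sg ρ v • f (ρ.erase v) else 0 := by
      intro v hv
      by_cases hv0 : f (ρ.erase v) = 0
      · rw [hv0, smul_zero, ite_self]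
      rw [if_pos]
      by_cases hvw : v = w
      · subst hvw
        exact ⟨(mem_sdiff.1 hw').2, hlad⟩
      · have hτ' : ρ.erase v ∈ fat top η (ind f) s 0 := by
          rw [mem_fat_zero]
          refine ⟨by rw [card_erase_of_mem hv, hc]; rfl, ?_, ind_ne.2 hv0⟩
          have := W_anti top (erase_subset v ρ)
          omega
        rcases Lad.move top η (ind f) s hρ hc hw.ne' (Lad.mem_top top η (ind f) s hlad)
          (mem_sdiff.1 hw').1 hv hvw rfl hτ' hlad with h | h
        · exact h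
        · exact absurd h.2.1 (hmin v h.1)
    rw [sum_congr rfl h2, ← sum_filter, ← sum_filter]
    refine sum_congr ?_ fun _ _ => rfl
    ext v
    simp only [mem_filter, mem_sdiff]
    (clear * -; tauto)
  · push Not at hex
    refine sum_eq_zero fun v hv => if_neg (hex v hv)

theorem nrmL_dd_ladInd_le {i : ℕ} {σ : Finset α} (hσ : σ ∈ fat top η (ind f) s i)
    (hmin : ∀ v ∈ σ, σ.erase v ∉ fat top η (ind f) s (i + 1))
    (hf : ∀ ρ : Finset α, ρ.card = s + 1 → 0 < W top ρ → dd f ρ = 0) :
    nrmL top σ (i + 1) (dd (ladInd top η f s i σ)) ≤ badAbove top η (ind f) s σ := by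
  unfold nrmL badAbove
  rw [← sum_filter_ne_zero]
  refine sum_le_sum_inj (fun x => σ ∪ x) ?_ ?_ fun _ _ => le_rfl
  · intro x hx
    simp only [mem_filter, mem_univ, true_and] at hx ⊢
    obtain ⟨⟨h1, h2, h3⟩, h4⟩ := hx
    refine ⟨?_, subset_union_left⟩
    by_contra hb
    have hcard : (σ ∪ x).card = s + 1 := by
      rw [card_union_of_disjoint h2.symm, h1, ← fat_card top η (ind f) s hσ]
      ring
    have h5 := dd_ladInd top η f s hmin hf (subset_union_left (s₂ := x)) hcard
      (Nat.pos_of_ne_zero h4) hb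
    apply h3
    rwa [union_sdiff_cancel_left h2.symm] at h5
  · intro x hx y hy e
    simp only [coe_filter, mem_filter, mem_univ, true_and, Set.mem_ofPred_eq] at hx hy
    have h1 : (σ ∪ x) \ σ = x := union_sdiff_cancel_left hx.1.2.1.symm
    have h2 : (σ ∪ y) \ σ = y := union_sdiff_cancel_left hy.1.2.1.symm
    rw [← h1, ← h2]
    exact congrArg (· \ σ) e

theorem ladW_le_nrmL {i : ℕ} {σ : Finset α} (hσ : σ ∈ fat top η (ind f) s i) :
    ladW top η (ind f) s i σ ≤ nrmL top σ i (ladInd top η f s i σ) := by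
  unfold ladW nrmL
  refine sum_le_sum_inj (fun τ => τ \ σ) ?_ ?_ ?_
  · intro τ hτ
    simp only [mem_filter, mem_univ, true_and] at hτ ⊢
    have hsub := Lad.subset top η (ind f) s hτ
    have h1 := fat_card top η (ind f) s (Lad.mem_top top η (ind f) s hτ)
    have h2 := fat_card top η (ind f) s hσ
    refine ⟨?_, sdiff_disjoint, ?_⟩
    · rw [card_sdiff_of_subset hsub]
      omega
    · rw [ladInd, union_sdiff_of_subset hsub, if_pos hτ, loc_ne, union_sdiff_of_subset hsub]
      exact ne_of_lad top η f s hτ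
  · intro τ hτ τ' hτ' e
    simp only [coe_filter, mem_univ, true_and, Set.mem_ofPred_eq] at hτ hτ'
    rw [← union_sdiff_of_subset (Lad.subset top η (ind f) s hτ),
      ← union_sdiff_of_subset (Lad.subset top η (ind f) s hτ')]
    exact congrArg (σ ∪ ·) e
  · intro τ hτ
    simp only [mem_filter, mem_univ, true_and] at hτ
    rw [union_sdiff_of_subset (Lad.subset top η (ind f) s hτ)]

theorem ladW_le {N : ℕ} {β : ℝ} (hN : ∀ C ∈ top, C.card = N) (hβ : 0 < β) (hβ1 : β ≤ 1)
    (H : LinkExp A top N β) (hsN : s + 1 ≤ N)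
    (hf : ∀ ρ : Finset α, ρ.card = s + 1 → 0 < W top ρ → dd f ρ = 0) (hm : LocMin top s f)
    {i : ℕ} (hi : i < s) {σ : Finset α} (hσ : σ ∈ fat top η (ind f) s i)
    (hmin : ∀ v ∈ σ, σ.erase v ∉ fat top η (ind f) s (i + 1)) :
    β * ladW top η (ind f) s i σ ≤ badAbove top η (ind f) s σ := by
  have hcard := fat_card top η (ind f) s hσ
  have hne : σ.Nonempty := card_pos.1 (by omega)
  have hW := Nat.pos_of_ne_zero (fat_W top η (ind f) s hσ)
  have hA := nrmL_dd_ladInd_le top η f s hσ hmin hf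
  have hB := ladW_le_nrmL top η f s hσ
  rcases Nat.eq_zero_or_pos i with rfl | hi0
  · -- the ladder is trivial
    have h1 : (nrmL top σ 0 (ladInd top η f s 0 σ)) ≤
        nrmL top σ (0 + 1) (dd (ladInd top η f s 0 σ)) := by
      have hL : ladInd top η f s 0 σ ∅ ≠ 0 := by
        have hl : Lad top η (ind f) s 0 σ σ := ⟨rfl, hσ⟩
        rw [ladInd, union_empty, if_pos hl, loc_ne, union_empty]
        exact ne_of_lad top η f s hl
      have e1 : nrmL top σ 0 (ladInd top η f s 0 σ) ≤ W top σ := by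
        unfold nrmL
        refine (sum_le_sum_of_subset (t := {∅}) ?_).trans (by simp)
        intro x hx
        simp only [mem_filter, mem_univ, true_and, card_eq_zero] at hx
        simp [hx.1]
      have e2 : W top σ ≤ (N - σ.card) * W top σ :=
        Nat.le_mul_of_pos_left _ (by omega)
      refine (e1.trans e2).trans ?_
      rw [← sum_W_insert_compl hN]
      unfold nrmL
      refine sum_le_sum_inj (fun v => {v}) ?_ ?_ ?_
      · intro v hv
        simp only [mem_filter, mem_univ, true_and, card_singleton, zero_add,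
          disjoint_singleton_left]
        refine ⟨mem_compl.1 hv, ?_⟩
        rw [dd, sum_singleton, erase_singleton, sg_singleton, one_smul]
        exact hL
      · intro v _ w _ e
        exact singleton_injective e
      · intro v _
        rw [union_comm]
        exact le_rfl
    have h2 : (ladW top η (ind f) s 0 σ : ℝ) ≤ badAbove top η (ind f) s σ := by
      exact_mod_cast hB.trans (h1.trans hA)
    refine le_trans ?_ h2
    exact mul_le_of_le_one_left (Nat.cast_nonneg _) hβ1
  · obtain ⟨h, hh⟩ := H σ hne hW i hi0 (by omega) (ladInd top η f s i σ)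
    have hmσ := hm σ hne hW (by omega)
    rw [show s - σ.card = i by omega] at hmσ
    have hsub : MinAt top σ i (ladInd top η f s i σ) := hmσ.sub fun τ hτ => by
      by_cases hl : Lad top η (ind f) s i σ (σ ∪ τ)
      · rw [ladInd, if_pos hl]
      · exact absurd (if_neg hl) hτ
    have h1 := hB.trans (hsub h)
    calc β * (ladW top η (ind f) s i σ : ℝ)
        ≤ β * (nrmL top σ i (fun τ => ladInd top η f s i σ τ + dd h τ) : ℝ) :=
          mul_le_mul_of_nonneg_left (by exact_mod_cast h1) hβ.le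
      _ ≤ (nrmL top σ (i + 1) (dd (ladInd top η f s i σ)) : ℝ) := hh
      _ ≤ (badAbove top η (ind f) s σ : ℝ) := by exact_mod_cast hA

theorem nrm_eq_mass : nrm top s f = mass top η (ind f) s 0 := by
  unfold nrm mass
  rw [← sum_filter_ne_zero]
  refine sum_congr ?_ fun _ _ => rfl
  ext τ
  rw [mem_fat_zero, ind_ne]
  simp only [mem_filter, mem_univ, true_and]
  tauto

theorem mass_le_bad {N : ℕ} {β : ℝ} (hN : ∀ C ∈ top, C.card = N) (hβ : 0 < β) (hβ1 : β ≤ 1)
    (H : LinkExp A top N β) (hsN : s + 1 ≤ N)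
    (hf : ∀ ρ : Finset α, ρ.card = s + 1 → 0 < W top ρ → dd f ρ = 0) (hm : LocMin top s f)
    (h0 : (∅ : Finset α) ∉ fat top η (ind f) s s) :
    β * mass top η (ind f) s 0 ≤ 2 ^ N * ((∑ ρ ∈ bad top η (ind f) s, W top ρ : ℕ) : ℝ) := by
  set M : Finset (Σ _ : ℕ, Finset α) := (range s).sigma fun i => (fat top η (ind f) s i).filter
    fun σ => ∀ v ∈ σ, σ.erase v ∉ fat top η (ind f) s (i + 1) with hM
  have h1 : mass top η (ind f) s 0 ≤ ∑ x ∈ M, ladW top η (ind f) s x.1 x.2 := by
    unfold mass ladW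
    refine sum_le_of_cover (fun (τ : Finset α) (x : Σ _ : ℕ, Finset α) =>
      Lad top η (ind f) s x.1 x.2 τ) ?_ _
    intro τ hτ
    obtain ⟨i, hi, σ, hl, hmin⟩ := exists_min_ladder top η (ind f) s h0 τ.card (i := 0) (σ := τ) rfl
      ⟨rfl, hτ⟩
    refine ⟨⟨i, σ⟩, ?_, hl⟩
    simp only [hM, mem_sigma, mem_range, mem_filter]
    exact ⟨hi, Lad.mem_fat top η (ind f) s hl, hmin⟩
  have h2 : ∑ x ∈ M, badAbove top η (ind f) s x.2 ≤ 2 ^ N * ∑ ρ ∈ bad top η (ind f) s, W top ρ := by
    unfold badAbove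
    simp only [sum_filter]
    rw [sum_comm, mul_sum]
    refine sum_le_sum fun ρ hρ => ?_
    rw [← sum_filter, sum_const, smul_eq_mul]
    refine Nat.mul_le_mul_right _ ?_
    simp only [bad, mem_filter, mem_univ, true_and] at hρ
    calc (M.filter fun x => x.2 ⊆ ρ).card ≤ ρ.powerset.card := by
          refine card_le_card_of_injOn (fun x => x.2) ?_ ?_
          · intro x hx
            simp only [coe_filter, Set.mem_ofPred_eq] at hx
            exact mem_coe.2 (mem_powerset.2 hx.2)
          · rintro ⟨i, σ⟩ hx ⟨j, σ'⟩ hy e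
            simp only [hM, coe_filter, Set.mem_ofPred_eq, mem_sigma, mem_filter] at hx hy e
            subst e
            have e1 := fat_card top η (ind f) s hx.1.2.1
            have e2 := fat_card top η (ind f) s hy.1.2.1
            have : i = j := by omega
            subst this
            rfl
      _ = 2 ^ (s + 1) := by rw [card_powerset, hρ.1]
      _ ≤ 2 ^ N := Nat.pow_le_pow_right (by norm_num) hsN
  calc β * (mass top η (ind f) s 0 : ℝ) ≤ β * ((∑ x ∈ M, ladW top η (ind f) s x.1 x.2 : ℕ) : ℝ) :=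
        mul_le_mul_of_nonneg_left (by exact_mod_cast h1) hβ.le
    _ ≤ ((∑ x ∈ M, badAbove top η (ind f) s x.2 : ℕ) : ℝ) := by
        rw [Nat.cast_sum, Nat.cast_sum, mul_sum]
        refine sum_le_sum ?_
        rintro ⟨i, σ⟩ hx
        simp only [hM, mem_sigma, mem_range, mem_filter] at hx
        exact ladW_le top η f s hN hβ hβ1 H hsN hf hm hx.1 hx.2.1 hx.2.2
    _ ≤ 2 ^ N * ((∑ ρ ∈ bad top η (ind f) s, W top ρ : ℕ) : ℝ) := by exact_mod_cast h2

end C1


/-- THEOREM C1. Small locally minimal cocycles vanish. -/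
theorem small_locMin_cocycle_zero (N : ℕ) (β : ℝ) (hβ : 0 < β) :
    ∃ lam μ : ℝ, 0 < lam ∧ 0 < μ ∧
      ∀ (A : Type) [AddCommGroup A] (α : Type) [Fintype α] (top : Finset (Finset α)),
        (∀ C ∈ top, C.card = N) → LinkExp A top N β → EdgeMix top N lam →
        ∀ (s : ℕ) (f : Finset α → A), 1 ≤ s → s + 1 ≤ N →
          (∀ ρ : Finset α, ρ.card = s + 1 → 0 < W top ρ → dd f ρ = 0) →
          LocMin top s f → (nrm top s f : ℝ) < μ * top.card → nrm top s f = 0 := by
  set b : ℝ := min β 1 with hb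
  have hb0 : 0 < b := lt_min hβ one_pos
  have hb1 : b ≤ 1 := min_le_right _ _
  set K : ℝ := (N : ℝ) + 1 with hK
  have hK1 : 1 ≤ K := by
    have : (0 : ℝ) ≤ N := Nat.cast_nonneg _
    linarith
  have hKN : (N : ℝ) ≤ K := by linarith
  set c : ℝ := b / (4 * K ^ 3 * 4 ^ N) with hc
  have hc0 : 0 < c := by positivity
  have hcK : c ≤ K := by
    have h1 : c ≤ b := by
      rw [hc]
      refine div_le_self hb0.le ?_
      have h2 : (1 : ℝ) ≤ K ^ 3 := one_le_pow₀ hK1
      have h3 : (1 : ℝ) ≤ 4 ^ N := one_le_pow₀ (by norm_num)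
      nlinarith only [h2, h3]
    linarith
  let P : ℕ → ℝ := fun i => Nat.rec 1 (fun _ x => x ^ 2 * (K / c)) i
  have hP0 : P 0 = 1 := rfl
  have hPs : ∀ i, P (i + 1) = P i ^ 2 * (K / c) := fun i => rfl
  have hKc : 1 ≤ K / c := (one_le_div hc0).2 hcK
  have hP1 : ∀ i, 1 ≤ P i := by
    intro i
    induction i with
    | zero => exact hP0.ge
    | succ i ih =>
      rw [hPs]
      have := one_le_pow₀ ih (n := 2)
      nlinarith only [this, hKc]
  have hPpos : ∀ i, 0 < P i := fun i => lt_of_lt_of_le one_pos (hP1 i)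
  have hPmono : Monotone P := by
    refine monotone_nat_of_le_succ fun i => ?_
    rw [hPs]
    have h1 := hP1 i
    have h2 : P i ≤ P i ^ 2 := by nlinarith only [h1]
    have h3 : P i ^ 2 * 1 ≤ P i ^ 2 * (K / c) := mul_le_mul_of_nonneg_left hKc (by positivity)
    linarith only [h2, h3]
  let η : ℕ → ℝ := fun i => c / P i
  have hη : ∀ i, 0 < η i := fun i => div_pos hc0 (hPpos i)
  refine ⟨c / P N, 1 / P N, div_pos hc0 (hPpos N), div_pos one_pos (hPpos N), ?_⟩
  intro A _ α _ top hN H HE s f hs hsN hf hm hsmall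
  have H' : LinkExp A top N b := by
    intro σ hσ hW q hq hqN g
    obtain ⟨h, hh⟩ := H σ hσ hW q hq hqN g
    refine ⟨h, le_trans ?_ hh⟩
    exact mul_le_mul_of_nonneg_right (min_le_left _ _) (Nat.cast_nonneg _)
  have hsR : (s : ℝ) ≤ K := by
    have : (s : ℝ) + 1 ≤ N := by exact_mod_cast hsN
    linarith only [this]
  have hmass : ∀ i, (mass top η (ind f) s i : ℝ) ≤ P i * mass top η (ind f) s 0 := by
    intro i
    induction i with
    | zero => rw [hP0, one_mul]
    | succ i ih =>
      have h1 := mass_succ_le top η (ind f) s i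
      have h2 : (s : ℝ) * mass top η (ind f) s i ≤ K * (P i * mass top η (ind f) s 0) :=
        mul_le_mul hsR ih (Nat.cast_nonneg _) (by (clear * -; positivity))
      have h3 : c / P i * (mass top η (ind f) s (i + 1) : ℝ) ≤ K * (P i * mass top η (ind f) s 0) :=
        h1.trans h2
      rw [div_mul_eq_mul_div, div_le_iff₀ (hPpos i)] at h3
      rw [hPs]
      have h4 : (mass top η (ind f) s (i + 1) : ℝ) ≤ (K * (P i * mass top η (ind f) s 0) * P i) / c := by
        rw [le_div_iff₀ hc0]
        linarith only [h3]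
      refine h4.trans (le_of_eq ?_)
      ring
  rw [nrm_eq_mass top η f s] at hsmall ⊢
  have h0 : (∅ : Finset α) ∉ fat top η (ind f) s s := by
    intro hmem
    have h1 : (top.card : ℝ) ≤ mass top η (ind f) s s := by
      have h2 : W top ∅ ≤ mass top η (ind f) s s :=
        single_le_sum (f := fun θ => W top θ) (fun _ _ => Nat.zero_le _) hmem
      have h3 : W top ∅ = top.card := by simp [W]
      rw [h3] at h2
      exact_mod_cast h2
    have h2 := (hmass s).trans (mul_le_mul_of_nonneg_right (hPmono (by omega : s ≤ N))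
      (Nat.cast_nonneg _))
    have h3 : P N * (mass top η (ind f) s 0 : ℝ) < P N * (1 / P N * top.card) :=
      mul_lt_mul_of_pos_left hsmall (hPpos N)
    rw [← mul_assoc, mul_one_div_cancel (hPpos N).ne', one_mul] at h3
    linarith only [h1, h2, h3]
  have hA := mass_le_bad top η f s hN hb0 hb1 H' hsN hf hm h0
  have hB := bad_le top η (ind f) s hN (div_pos hc0 (hPpos N)).le HE hη hsN
  have hterm : ∀ i ∈ range s, (2 : ℝ) ^ N * (N * (c / P N + η i) * (s * mass top η (ind f) s i)) ≤
      2 ^ N * (K * K * (2 * c) * mass top η (ind f) s 0) := by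
    intro i hi
    rw [mem_range] at hi
    refine mul_le_mul_of_nonneg_left ?_ (by positivity)
    have h1 : c / P N ≤ c / P i :=
      div_le_div_of_nonneg_left hc0.le (hPpos i) (hPmono (by omega))
    have h2 : c / P N + η i ≤ 2 * (c / P i) := by
      change c / P N + c / P i ≤ 2 * (c / P i)
      linarith only [h1]
    have h3 : (s : ℝ) * mass top η (ind f) s i ≤ K * (P i * mass top η (ind f) s 0) :=
      mul_le_mul hsR (hmass i) (Nat.cast_nonneg _) (by (clear * -; positivity))
    have h4 : (N : ℝ) * (c / P N + η i) ≤ K * (2 * (c / P i)) :=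
      mul_le_mul hKN h2 (by have := hη i; have := div_pos hc0 (hPpos N); (clear hb hK hKN hPmono top hN H HE s f hs hsN hf hm hsmall H' hsR hmass h0 hA hB hi h1 h2 h3; positivity))
        (by (clear * -; positivity))
    refine (mul_le_mul h4 h3 (by (clear * - hs; positivity)) (by have := hPpos i; (clear * - hβ this; positivity))).trans
      (le_of_eq ?_)
    have := (hPpos i).ne'
    (clear * - this hc0 hK1; field_simp)
  have hC := hB.trans (sum_le_sum hterm)
  rw [sum_const, card_range, nsmul_eq_mul] at hC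
  have hD : b * (mass top η (ind f) s 0 : ℝ) ≤
      2 ^ N * (K * (2 ^ N * (K * K * (2 * c) * mass top η (ind f) s 0))) := by
    refine hA.trans (mul_le_mul_of_nonneg_left (hC.trans ?_) (by positivity))
    exact mul_le_mul_of_nonneg_right hsR (by (clear * - hβ; positivity))
  have hE : (2 : ℝ) ^ N * (K * (2 ^ N * (K * K * (2 * c) * mass top η (ind f) s 0))) =
      b / 2 * mass top η (ind f) s 0 := by
    have h1 : (4 : ℝ) ^ N = 2 ^ N * 2 ^ N := by
      rw [← mul_pow]; norm_num
    rw [hc, h1]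
    field_simp
    ring
  rw [hE] at hD
  have hF : (mass top η (ind f) s 0 : ℝ) ≤ 0 := by nlinarith only [hD, hb0]
  exact_mod_cast le_antisymm hF (Nat.cast_nonneg _)

section C2

variable {α : Type*} [Fintype α] {A : Type*} [AddCommGroup A]

theorem nrm_add_le (top : Finset (Finset α)) (q : ℕ) (a b : Finset α → A) :
    nrm top q (a + b) ≤ nrm top q a + nrm top q b := by
  unfold nrm
  simp only [sum_filter]
  rw [← sum_add_distrib]
  refine sum_le_sum fun τ _ => ?_
  by_cases h1 : τ.card = q ∧ (a + b) τ ≠ 0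
  · rw [if_pos h1]
    obtain ⟨h1, h3⟩ := h1
    by_cases ha : a τ = 0
    · have hb : b τ ≠ 0 := fun hb => h3 (by rw [Pi.add_apply, ha, hb, add_zero])
      rw [if_pos (⟨h1, hb⟩ : τ.card = q ∧ b τ ≠ 0)]
      exact Nat.le_add_left _ _
    · rw [if_pos (⟨h1, ha⟩ : τ.card = q ∧ a τ ≠ 0)]
      exact Nat.le_add_right _ _
  · rw [if_neg h1]
    exact Nat.zero_le _

/-- Norms only depend on the values on faces. -/
theorem nrm_congr_faces (top : Finset (Finset α)) (q : ℕ) {a b : Finset α → A}
    (h : ∀ τ : Finset α, τ.card = q → 0 < W top τ → a τ = b τ) : nrm top q a = nrm top q b := by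
  unfold nrm
  simp only [sum_filter]
  refine sum_congr rfl fun τ _ => ?_
  by_cases hq : τ.card = q
  · rcases Nat.eq_zero_or_pos (W top τ) with h0 | h0
    · rw [h0]; simp
    · rw [h τ hq h0]
  · rw [if_neg (fun h => hq h.1), if_neg (fun h => hq h.1)]

/-- The part of the norm supported on the sets which do not contain `σ`. -/
noncomputable def restNrm (top : Finset (Finset α)) (σ : Finset α) (q : ℕ)
    (a : Finset α → A) : ℕ :=
  ∑ τ ∈ univ.filter (fun τ : Finset α => τ.card = q ∧ a τ ≠ 0 ∧ ¬ σ ⊆ τ), W top τ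

theorem nrm_split (top : Finset (Finset α)) (σ : Finset α) (q : ℕ) (a : Finset α → A) :
    nrm top (q + σ.card) a = nrmL top σ q (loc a σ) + restNrm top σ (q + σ.card) a := by
  have h1 : nrmL top σ q (loc a σ) = ∑ τ ∈ univ.filter
      (fun τ : Finset α => τ.card = q + σ.card ∧ a τ ≠ 0 ∧ σ ⊆ τ), W top τ := by
    unfold nrmL
    refine sum_bij' (fun x _ => σ ∪ x) (fun τ _ => τ \ σ) ?_ ?_ ?_ ?_ ?_
    · intro x hx
      simp only [mem_filter, mem_univ, true_and] at hx ⊢
      refine ⟨?_, loc_ne.1 hx.2.2, subset_union_left⟩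
      rw [card_union_of_disjoint hx.2.1.symm, hx.1, add_comm]
    · intro τ hτ
      simp only [mem_filter, mem_univ, true_and] at hτ ⊢
      refine ⟨?_, sdiff_disjoint, ?_⟩
      · rw [card_sdiff_of_subset hτ.2.2, hτ.1, Nat.add_sub_cancel]
      · rw [loc_ne, union_sdiff_of_subset hτ.2.2]
        exact hτ.2.1
    · intro x hx
      simp only [mem_filter, mem_univ, true_and] at hx
      exact union_sdiff_cancel_left hx.2.1.symm
    · intro τ hτ
      simp only [mem_filter, mem_univ, true_and] at hτ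
      exact union_sdiff_of_subset hτ.2.2
    · intro x hx
      rfl
  rw [h1, restNrm, nrm, ← sum_filter_add_sum_filter_not _ (fun τ => σ ⊆ τ), filter_filter,
    filter_filter]
  simp only [and_assoc]

/-- Extension by zero of a cochain on the link of `σ`. -/
noncomputable def extZero (σ : Finset α) (u : Finset α → A) (τ : Finset α) : A :=
  if σ ⊆ τ then cs σ (τ \ σ) • u (τ \ σ) else 0

theorem dd_extend_of_not {σ τ : Finset α} (u : Finset α → A) (h : ¬ σ ⊆ τ) :
    dd (extZero σ u) τ = 0 := by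
  unfold dd extZero
  refine sum_eq_zero fun v _ => ?_
  rw [if_neg fun h' => h (h'.trans (erase_subset _ _)), smul_zero]

theorem dd_extend_union {σ x : Finset α} (u : Finset α → A) (h : Disjoint x σ) :
    cs σ x • dd (extZero σ u) (σ ∪ x) = dd u x := by
  unfold dd extZero
  rw [sum_union h.symm, sum_eq_zero, zero_add, smul_sum]
  · refine sum_congr rfl fun v hv => ?_
    have hvσ : v ∉ σ := disjoint_left.1 h hv
    have e : (σ ∪ x).erase v = σ ∪ x.erase v := by
      rw [erase_union_distrib, erase_eq_of_notMem hvσ]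
    rw [e, if_pos subset_union_left, union_sdiff_cancel_left (h.mono_left (erase_subset _ _)).symm,
      smul_smul, ← cs_erase h hv, smul_smul, mul_assoc, uu, mul_one]
  · intro v hv
    rw [if_neg, smul_zero]
    exact fun h' => notMem_erase v _ (h' hv)

theorem nrm_extend_le {top : Finset (Finset α)} {N : ℕ} (hN : ∀ C ∈ top, C.card = N)
    (σ : Finset α) (s : ℕ) (u : Finset α → A) :
    nrm top s (extZero σ u) ≤ 2 ^ N * W top σ := by
  refine le_trans ?_ (sum_W_superset hN σ)
  unfold nrm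
  refine sum_le_sum_of_subset fun τ hτ => ?_
  simp only [mem_filter, mem_univ, true_and] at hτ ⊢
  by_contra h
  exact hτ.2 (if_neg h)

theorem nrm_le_card {top : Finset (Finset α)} {N : ℕ} (hN : ∀ C ∈ top, C.card = N)
    (s : ℕ) (f : Finset α → A) : nrm top s f ≤ 2 ^ N * top.card := by
  have h3 : W top ∅ = top.card := by simp [W]
  rw [← h3]
  refine le_trans ?_ (sum_W_superset hN ∅)
  unfold nrm
  refine sum_le_sum_of_subset fun τ hτ => ?_
  simp only [empty_subset, filter_true, mem_univ]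

theorem LocMin_of_min {top : Finset (Finset α)} {N D' : ℕ} (hN : ∀ C ∈ top, C.card = N)
    (hD : ∀ v : α, W top {v} ≤ D') (s : ℕ) {κ : ℝ} (hκ0 : 0 < κ) (hκ : κ * (2 ^ N * D') < 1)
    (g h : Finset α → A)
    (hmin : ∀ h', (nrm top (s + 1) (g + dd h) : ℝ) + κ * nrm top s h ≤
      nrm top (s + 1) (g + dd h') + κ * nrm top s h') :
    LocMin top (s + 1) (g + dd h) := by
  intro σ hσ hW hcard u
  by_contra hlt
  rw [not_le] at hlt
  obtain ⟨q, hq⟩ : ∃ q, s + 1 = q + σ.card := ⟨s + 1 - σ.card, by omega⟩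
  have hq' : s + 1 - σ.card = q := by omega
  rw [hq'] at hlt
  have h1 := hmin (h + extZero σ u)
  have e1 : g + dd (h + extZero σ u) = (g + dd h) + dd (extZero σ u) := by
    rw [dd_add, add_assoc]
  rw [e1] at h1
  have h2 : nrm top (s + 1) ((g + dd h) + dd (extZero σ u)) + 1 ≤ nrm top (s + 1) (g + dd h) := by
    rw [hq, nrm_split, nrm_split]
    have e2 : restNrm top σ (q + σ.card) ((g + dd h) + dd (extZero σ u)) =
        restNrm top σ (q + σ.card) (g + dd h) := by
      unfold restNrm
      refine sum_congr ?_ fun _ _ => rfl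
      ext τ
      simp only [mem_filter, mem_univ, true_and]
      by_cases hc : σ ⊆ τ
      · simp only [Pi.add_apply, ne_eq, hc, not_true_eq_false, and_false]
      · rw [Pi.add_apply (g + dd h), dd_extend_of_not u hc, add_zero]
    have e3 : nrmL top σ q (loc ((g + dd h) + dd (extZero σ u)) σ) =
        nrmL top σ q (fun τ => loc (g + dd h) σ τ + dd u τ) := by
      unfold nrmL
      refine sum_congr ?_ fun _ _ => rfl
      ext τ
      simp only [mem_filter, mem_univ, true_and]
      refine and_congr_right fun _ => and_congr_right fun hd => ?_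
      rw [loc, Pi.add_apply (g + dd h), smul_add, dd_extend_union u hd]
      rfl
    rw [e2, e3]
    omega
  have h3 : nrm top s (h + extZero σ u) ≤ nrm top s h + 2 ^ N * D' := by
    refine (nrm_add_le top s _ _).trans (Nat.add_le_add_left ?_ _)
    refine (nrm_extend_le hN σ s u).trans (Nat.mul_le_mul_left _ ?_)
    obtain ⟨v, hv⟩ := hσ
    exact (W_anti top (singleton_subset_iff.2 hv)).trans (hD v)
  have h2' : (nrm top (s + 1) ((g + dd h) + dd (extZero σ u)) : ℝ) + 1 ≤
      nrm top (s + 1) (g + dd h) := by exact_mod_cast h2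
  have h3' : (nrm top s (h + extZero σ u) : ℝ) ≤ nrm top s h + 2 ^ N * D' := by exact_mod_cast h3
  have h4 := mul_le_mul_of_nonneg_left h3' hκ0.le
  rw [mul_add] at h4
  linarith only [hκ, h1, h2', h4]

end C2


/-- THEOREM C2. From vanishing of cohomology and C1 to the global coboundary inequality. -/
theorem coboundary_expansion_of_local (N : ℕ) (β : ℝ) (hβ : 0 < β) :
    ∃ lam : ℝ, 0 < lam ∧ ∀ D' : ℕ, ∃ ε : ℝ, 0 < ε ∧
      ∀ (A : Type) [AddCommGroup A] (α : Type) [Fintype α] (top : Finset (Finset α)),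
        (∀ C ∈ top, C.card = N) →
        (∀ v : α, W top {v} ≤ D') → LinkExp A top N β → EdgeMix top N lam →
        ∀ s : ℕ, 1 ≤ s → s + 2 ≤ N →
          (∀ f : Finset α → A, (∀ ρ : Finset α, ρ.card = s + 1 → 0 < W top ρ → dd f ρ = 0) →
            ∃ e : Finset α → A, ∀ τ : Finset α, τ.card = s → 0 < W top τ → f τ = dd e τ) →
          ∀ f : Finset α → A, ∃ e : Finset α → A,
            ε * (nrm top s (fun τ => f τ + dd e τ) : ℝ) ≤ (nrm top (s + 1) (dd f) : ℝ) := by
  obtain ⟨lam, μ, hlam, hμ, H⟩ := small_locMin_cocycle_zero N β hβ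
  refine ⟨lam, hlam, fun D' => ?_⟩
  set κ : ℝ := 1 / (2 ^ N * D' + 1) with hκ
  have hκ0 : 0 < κ := by positivity
  have hκ1 : κ * (2 ^ N * D') < 1 := by
    rw [hκ, one_div, inv_mul_lt_iff₀ (by positivity)]
    linarith
  refine ⟨min κ (μ / 2 ^ N), lt_min hκ0 (by positivity), ?_⟩
  intro A _ α _ top hN hD hL hE s hs hsN hvan f
  by_cases hsmall : (nrm top (s + 1) (dd f) : ℝ) < μ * top.card
  · obtain ⟨h, hmin⟩ : ∃ h : Finset α → A, ∀ h' : Finset α → A,
        (nrm top (s + 1) (dd f + dd h) : ℝ) + κ * nrm top s h ≤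
          (nrm top (s + 1) (dd f + dd h') : ℝ) + κ * nrm top s h' := by
      have hfin : (Set.range fun h : Finset α → A =>
          (nrm top (s + 1) (dd f + dd h), nrm top s h)).Finite := by
        refine ((Set.finite_Iic (2 ^ N * top.card)).prod (Set.finite_Iic (2 ^ N * top.card))).subset ?_
        rintro _ ⟨h, rfl⟩
        exact ⟨nrm_le_card hN _ _, nrm_le_card hN _ _⟩
      obtain ⟨_, ⟨h, rfl⟩, hm⟩ := Set.exists_min_image _ (fun x : ℕ × ℕ => (x.1 : ℝ) + κ * x.2)
        hfin ⟨_, 0, rfl⟩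
      exact ⟨h, fun h' => hm _ ⟨h', rfl⟩⟩
    have h0 := hmin 0
    have e0 : dd f + dd (0 : Finset α → A) = dd f := by
      funext ρ
      simp [dd]
    have e1 : nrm top s (0 : Finset α → A) = 0 := by simp [nrm]
    simp only [e0, e1, Nat.cast_zero, mul_zero, add_zero] at h0
    have hn1 : (0 : ℝ) ≤ κ * nrm top s h := by (clear * -; positivity)
    have hn2 : (0 : ℝ) ≤ nrm top (s + 1) (dd f + dd h) := Nat.cast_nonneg _
    have hloc := LocMin_of_min hN hD s hκ0 hκ1 (dd f) h hmin
    have hz := H A α top hN hL hE (s + 1) (dd f + dd h) (by omega) (by omega) (fun ρ _ _ => by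
      rw [dd_add, dd_dd, dd_dd, add_zero]; rfl) hloc (by linarith only [hsmall, h0, hn1])
    have hz' : ∀ ρ : Finset α, ρ.card = s + 1 → 0 < W top ρ → (dd f + dd h) ρ = 0 := by
      intro ρ hρ hw
      by_contra hne
      rw [nrm, sum_eq_zero_iff] at hz
      have := hz ρ (by simp only [mem_filter, mem_univ, true_and]; exact ⟨hρ, hne⟩)
      omega
    obtain ⟨e, he⟩ := hvan (f + h) fun ρ hρ hw => by
      rw [dd_add]; exact hz' ρ hρ hw
    refine ⟨fun τ => -e τ, ?_⟩
    have e2 : nrm top s (fun τ => f τ + dd (fun τ => -e τ) τ) = nrm top s h := by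
      have e3 : nrm top s (fun τ => -h τ) = nrm top s h := by simp only [nrm, ne_eq, neg_eq_zero]
      rw [← e3]
      refine nrm_congr_faces top s fun τ hτ hw => ?_
      rw [dd_neg, ← he τ hτ hw, Pi.add_apply]
      abel
    rw [e2]
    refine (mul_le_mul_of_nonneg_right (min_le_left _ _) (Nat.cast_nonneg _)).trans ?_
    linarith only [h0]
  · rw [not_lt] at hsmall
    refine ⟨0, ?_⟩
    have e0 : (fun τ => f τ + dd (0 : Finset α → A) τ) = f := by
      funext ρ
      simp [dd]
    rw [e0]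
    have h1 : (nrm top s f : ℝ) ≤ 2 ^ N * top.card := by exact_mod_cast nrm_le_card hN s f
    calc min κ (μ / 2 ^ N) * (nrm top s f : ℝ)
        ≤ μ / 2 ^ N * (2 ^ N * top.card) :=
          mul_le_mul (min_le_right _ _) h1 (Nat.cast_nonneg _) (by positivity)
      _ = μ * top.card := by (clear * - hμ; field_simp)
      _ ≤ _ := hsmall

end Vale.Agent.P067.S
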