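import Vale.Agent.N067S.Van1

/-! Vanishing of the low homology of `X` over fields of characteristic different from `p`. -/

set_option autoImplicit false
set_option linter.all false

open Finset

namespace Vale.Agent.P067.S

attribute [local instance] Classical.propDecidable

theorem good_of_pow {G k : Type*} [Field k] {p j : ℕ} [Fact p.Prime] (hp2 : p ≠ 2)
    (hpk : (p : k) ≠ 0) (h : Nat.card G = p ^ j) : Good G k := by
  unfold Good
  rw [h]
  exact ⟨((Fact.out : p.Prime).odd_of_ne_two hp2).pow, by rw [Nat.cast_pow]; exact pow_ne_zero _ hpk⟩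

section S2star

open scoped Pointwise

variable {p m : ℕ} [Fact p.Prime]
variable {κ ι' : Type} [Fintype κ] [DecidableEq κ] [Fintype ι'] [DecidableEq ι']

theorem good_QS {k : Type*} [Field k] (hp2 : p ≠ 2) (hpk : (p : k) ≠ 0) :
    Good (QS κ ι' p m) k := by
  have : Fintype (ι' → κ → Rg p m) := Fintype.ofFinite _
  have h1 : Nat.card (QS κ ι' p m) = Nat.card (ι' → κ → Rg p m) := rfl
  have h2 : Nat.card (ι' → κ → Rg p m)
      = p ^ Module.finrank (ZMod p) (ι' → κ → Rg p m) := by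
    rw [Nat.card_eq_fintype_card, Module.card_eq_pow_finrank (K := ZMod p), ZMod.card]
  exact good_of_pow hp2 hpk (h1.trans h2)

/-- The relative acyclicity needed for the averaging lemmas, from (M*). -/
theorem relAcyc_FdX {k : Type*} [Field k] (q : ℕ)
    (hM : ∀ H : Sb ι' p m, H ≠ ⊤ →
      RelAcyc k (XX ι' p m) {σ | σ ∈ XX ι' p m ∧ ∀ L ∈ σ, ¬ L ≤ H} q)
    (ψ : QS κ ι' p m →* kˣ) (hψ : ψ ≠ 1) :
    RelAcyc k (FdX κ ι' p m) {σ | σ ∈ FdX κ ι' p m ∧
      ∃ g : QS κ ι' p m, σ.image (fun x => g • x) = σ ∧ ψ g ≠ 1} q := by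
  obtain ⟨l, hl0, hl⟩ := exists_linear_of_char (p := p) (A := Matrix ι' κ (Rg p m)) ψ hψ
  -- the matrix with column `x` at `i`
  let col : κ → VV ι' p m →ₗ[ZMod p] Matrix ι' κ (Rg p m) := fun i =>
    { toFun := fun x => Matrix.of fun j i' => if i' = i then x j else 0
      map_add' := by
        intro x y
        ext j i'
        simp only [Matrix.of_apply, Matrix.add_apply, Pi.add_apply]
        split_ifs <;> simp
      map_smul' := by
        intro a x
        ext j i'
        simp only [Matrix.of_apply, Matrix.smul_apply, Pi.smul_apply, RingHom.id_apply]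
        split_ifs <;> simp }
  have hcol : ∀ (C : Matrix ι' κ (Rg p m)), C = ∑ i, col i (fun j => C j i) := by
    intro C
    ext j i'
    rw [Matrix.sum_apply]
    simp only [LinearMap.coe_mk, AddHom.coe_mk, Matrix.of_apply, sum_ite_eq, mem_univ, ↓reduceIte, col]
  let H : Sb ι' p m := ⨅ i, LinearMap.ker (l ∘ₗ col i)
  have hmemH : ∀ x, x ∈ H ↔ ∀ i, l (col i x) = 0 := by
    intro x
    simp only [Submodule.mem_iInf, LinearMap.mem_ker, LinearMap.coe_comp, Function.comp_apply, H]
  have hH : H ≠ ⊤ := by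
    intro h
    apply hl0
    ext C
    rw [hcol C, map_sum]
    simp only [LinearMap.zero_apply]
    refine Finset.sum_eq_zero fun i _ => ?_
    have : (fun j => C j i) ∈ H := by rw [h]; exact Submodule.mem_top
    exact (hmemH _).1 this i
  have h1 : RelAcyc k ((fun s : Finset (Sb ι' p m) => s.image (ext κ)) '' XX ι' p m)
      ((fun s : Finset (Sb ι' p m) => s.image (ext κ)) ''
        {σ | σ ∈ XX ι' p m ∧ ∀ L ∈ σ, ¬ L ≤ H}) q := (hM H hH).image (ext_injective (κ := κ))
  have e : (fun s : Finset (Sb ι' p m) => s.image (ext κ)) ''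
      {σ | σ ∈ XX ι' p m ∧ ∀ L ∈ σ, ¬ L ≤ H}
      = {σ | σ ∈ FdX κ ι' p m ∧
        ∃ g : QS κ ι' p m, σ.image (fun x => g • x) = σ ∧ ψ g ≠ 1} := by
    ext σ
    constructor
    · rintro ⟨τ, ⟨hτ, hτH⟩, rfl⟩
      refine ⟨⟨τ, hτ, rfl⟩, ?_⟩
      rcases τ.eq_empty_or_nonempty with rfl | hne
      · obtain ⟨g, hg⟩ : ∃ g, ψ g ≠ 1 := by
          by_contra hcon
          push Not at hcon
          exact hψ (MonoidHom.ext hcon)
        exact ⟨g, by simp, hg⟩
      · obtain ⟨L0, hL0, hmin⟩ := exists_least_of_mem_XX hτ hne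
        have h2 := hτH L0 hL0
        obtain ⟨x, hx, hxH⟩ := Set.not_subset.1 h2
        have hxH' : ¬ x ∈ H := hxH
        rw [hmemH] at hxH'
        push Not at hxH'
        obtain ⟨i, hi⟩ := hxH'
        refine ⟨Multiplicative.ofAdd (col i x), ?_, ?_⟩
        · let C0 : QS κ ι' p m := Multiplicative.ofAdd (col i x)
          change (τ.image (ext κ)).image (fun y => C0 • y) = τ.image (ext κ)
          rw [Finset.image_image]
          refine Finset.image_congr fun L hL => ?_
          refine shear_ext_self fun i' => ?_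
          change (fun j => (col i x) j i') ∈ L
          by_cases hii : i' = i
          · have : (fun j => (col i x) j i') = x := by
              funext j
              simp only [hii, LinearMap.coe_mk, AddHom.coe_mk, Matrix.of_apply, ↓reduceIte, col]
            rw [this]
            exact hmin L hL hx
          · have : (fun j => (col i x) j i') = 0 := by
              funext j
              simp [col, hii]
            rw [this]
            exact zero_mem _
        · intro h3
          exact hi ((hl _).1 h3)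
    · rintro ⟨⟨τ, hτ, rfl⟩, g, hg, hg1⟩
      refine ⟨τ, ⟨hτ, fun L hL hLH => hg1 ?_⟩, rfl⟩
      have h2 : g • ext κ L ∈ (τ.image (ext κ)).image (fun x => g • x) :=
        Finset.mem_image_of_mem _ (Finset.mem_image_of_mem _ hL)
      have hg' : (τ.image (ext κ)).image (fun x => g • x) = τ.image (ext κ) := hg
      rw [hg'] at h2
      obtain ⟨L', _, hL'⟩ := Finset.mem_image.1 h2
      have h3 := (shear_ext_eq hL'.symm).2
      have h4 : l (Multiplicative.toAdd g : Matrix ι' κ (Rg p m)) = 0 := by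
        rw [hcol (Multiplicative.toAdd g : Matrix ι' κ (Rg p m)), map_sum]
        refine Finset.sum_eq_zero fun i _ => ?_
        exact (hmemH _).1 (hLH (h3 i)) i
      exact (hl _).2 h4
  rw [e] at h1
  exact h1

section main

variable {k : Type*} [Field k] [IsAlgClosed k]

/-- (S2*) (i): acyclicity of `Xcal`. -/
theorem S2star_acyc [Nonempty ι'] (hp2 : p ≠ 2) (hpk : (p : k) ≠ 0) (hm : 3 ≤ m) (q : ℕ)
    (hM : ∀ H : Sb ι' p m, H ≠ ⊤ →
      RelAcyc k (XX ι' p m) {σ | σ ∈ XX ι' p m ∧ ∀ L ∈ σ, ¬ L ≤ H} q)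
    (h : Acyc k (XX ι' p m) q) : Acyc k (Xcal κ ι' p m) q :=
  acyc_of_comm_odd (good_QS hp2 hpk) _ _ (strictDom_Xcal hm) q
    (fun ψ hψ => relAcyc_FdX q hM ψ hψ) (h.image ext_injective)

/-- (S2*) (ii): every cycle in `Xcal` is homologous to a cycle in the fundamental domain. -/
theorem S2star_homologous [Nonempty ι'] (hp2 : p ≠ 2) (hpk : (p : k) ≠ 0) (hm : 3 ≤ m) (q : ℕ)
    (hM : ∀ H : Sb ι' p m, H ≠ ⊤ →
      RelAcyc k (XX ι' p m) {σ | σ ∈ XX ι' p m ∧ ∀ L ∈ σ, ¬ L ≤ H} q)
    (c : Finset (Sb (κ ⊕ ι') p m) →₀ k) (hc : ChainIn (Xcal κ ι' p m) q c) (hbd : bd c = 0) :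
    ∃ a y : Finset (Sb (κ ⊕ ι') p m) →₀ k, ChainIn (FdX κ ι' p m) q a ∧ bd a = 0 ∧
      ChainIn (Xcal κ ι' p m) (q + 1) y ∧ c = a + bd y :=
  homologous_of_comm_odd (good_QS hp2 hpk) _ _ (strictDom_Xcal hm) q
    (fun ψ hψ => relAcyc_FdX q hM ψ hψ) c hc hbd

/-- (S2*) (iii): the shears act trivially on the classes of cycles in the fundamental domain. -/
theorem S2star_act [Nonempty ι'] (hp2 : p ≠ 2) (hpk : (p : k) ≠ 0) (hm : 3 ≤ m) (q : ℕ)
    (hM : ∀ H : Sb ι' p m, H ≠ ⊤ →
      RelAcyc k (XX ι' p m) {σ | σ ∈ XX ι' p m ∧ ∀ L ∈ σ, ¬ L ≤ H} q)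
    (a : Finset (Sb (κ ⊕ ι') p m) →₀ k) (ha : ChainIn (FdX κ ι' p m) q a) (hbd : bd a = 0)
    (g : QS κ ι' p m) :
    ∃ y : Finset (Sb (κ ⊕ ι') p m) →₀ k, ChainIn (Xcal κ ι' p m) (q + 1) y ∧
      act g a - a = bd y :=
  act_homologous_of_comm_odd (good_QS hp2 hpk) _ _ (strictDom_Xcal hm) q
    (fun ψ hψ => relAcyc_FdX q hM ψ hψ) a ha hbd g

end main

end S2star

section Rows

open scoped Pointwise
open Matrix

variable {p m : ℕ} [Fact p.Prime]
variable {ι : Type} [Fintype ι] [DecidableEq ι]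

/-- The complex of the independent sets of rows which are constant on a simplex. -/
theorem acyc_rows {k : Type*} [Field k] (hm : 3 ≤ m) {σ : Finset (Sb ι p m)}
    (hσ : σ ∈ XX ι p m) (r q : ℕ) (hr : ∀ L ∈ σ, ty L ≤ r) (hq : q + 1 + r ≤ Fintype.card ι) :
    Acyc k {T | T ∈ K1 ι p m ∧ ∀ u ∈ T, ∀ L ∈ σ, relV u L} q := by
  have hfin := finrank_rows hm hσ r hr
  have h1 := acyc_indep (k := k) (ZMod p)
    (fun u : {u : VV ι p m // ∀ L ∈ σ, relV u L} => cof ι p m 0 u.1) q (by omega)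
  have h2 := h1.image (Subtype.val_injective (p := fun u : VV ι p m => ∀ L ∈ σ, relV u L))
  rw [image_Indep (cof ι p m 0)] at h2
  exact h2

end Rows

/-- The subgroup of elements preserving the homology class of `c` in `K`. -/
noncomputable def classStab {α : Type*} {k : Type*} [Field k] (G : Type*) [Group G]
    [MulAction G α] (K : Set (Finset α))
    (hK : ∀ (g : G), ∀ σ ∈ K, σ.image (fun x => g • x) ∈ K) (q : ℕ) (c : Finset α →₀ k) :
    Subgroup G where
  carrier := {g | ∃ y : Finset α →₀ k, ChainIn K (q + 1) y ∧ S.act g c - c = bd y}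
  one_mem' := ⟨0, ChainIn.zero K _, by rw [act_one, map_zero, sub_self]⟩
  mul_mem' := by
    rintro g h ⟨y, hy, hyc⟩ ⟨z, hz, hzc⟩
    refine ⟨S.act g z + y, (ChainIn.act hK hz g).add hy, ?_⟩
    rw [map_add, bd_act, ← hyc, ← hzc, map_sub, ← act_mul]
    abel
  inv_mem' := by
    rintro g ⟨y, hy, hyc⟩
    refine ⟨-S.act g⁻¹ y, (ChainIn.act hK hy _).neg, ?_⟩
    rw [map_neg, bd_act, ← hyc, map_sub, ← act_mul, inv_mul_cancel, act_one, neg_sub]

section Row

open scoped Pointwise
open Matrix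

variable {p m : ℕ} [Fact p.Prime] {ι' : Type} [Fintype ι'] [DecidableEq ι']

theorem good_Qrow {k : Type*} [Field k] (hp2 : p ≠ 2) (hpk : (p : k) ≠ 0) :
    Good (Qrow ι' p m) k := by
  have h1 : Nat.card (Qrow ι' p m) = Nat.card (VV ι' p m) :=
    Nat.card_congr Multiplicative.toAdd
  rw [Module.natCard_eq_pow_finrank (K := ZMod p) (V := VV ι' p m), Nat.card_zmod] at h1
  exact good_of_pow hp2 hpk h1

/-- Hypothesis (M) for `X(ι')` in size `q`. -/
def HypM (k : Type*) [Field k] (ι' : Type) [Fintype ι'] [DecidableEq ι'] (p m : ℕ)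
    [Fact p.Prime] (q : ℕ) : Prop :=
  ∀ y : VV ι' p m, y ≠ 0 → RelAcyc k (XX ι' p m)
    {σ | σ ∈ XX ι' p m ∧ ∀ L ∈ σ, y ∉ pw (tm ι' p m) L (m - 2)} q

variable {k : Type*} [Field k]

theorem relAcyc_row (hm : 3 ≤ m) {q : ℕ} (hM : HypM k ι' p m q)
    (ψ : Qrow ι' p m →* kˣ) (hψ : ψ ≠ 1) :
    RelAcyc k (FdX Unit ι' p m)
      {σ | σ ∈ FdX Unit ι' p m ∧ ∃ g : Qrow ι' p m, σ.image (fun x => g • x) = σ ∧ ψ g ≠ 1} q := by
  obtain ⟨y, hy0, hy⟩ := char_dom_eq hm ψ hψ
  rw [hy]
  have h := RelAcyc.image (emb_injective (κ := Unit)) (hM y hy0)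
  have e : (fun s : Finset (Sb ι' p m) => s.image (emb Unit)) '' XX ι' p m = FdX Unit ι' p m := by
    ext σ
    rw [mem_FdX_iff]
    rfl
  exact Eq.mp (congrArg (fun K => RelAcyc k K _ q) e) h

/-- (S2) -/
theorem s2_act [IsAlgClosed k] (hp : p ≠ 2) (hpk : (p : k) ≠ 0) (hm : 3 ≤ m) {q : ℕ}
    (hM : HypM k ι' p m q) (a : Finset (Sb (Unit ⊕ ι') p m) →₀ k)
    (ha : ChainIn (FdX Unit ι' p m) q a) (hbd : bd a = 0) (φ : VV ι' p m) :
    ∃ y : Finset (Sb (Unit ⊕ ι') p m) →₀ k,
      ChainIn (XX (Unit ⊕ ι') p m) (q + 1) y ∧ act (rowU φ) a - a = bd y := by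
  obtain ⟨y, hy, hya⟩ := act_homologous_of_comm_odd (k := k) (good_Qrow (ι' := ι') (m := m) hp hpk)
    (KQ ι' p m) (FdX Unit ι' p m) strictDom_row q (fun ψ hψ => relAcyc_row hm hM ψ hψ) a ha hbd
    (Multiplicative.ofAdd φ)
  exact ⟨y, hy.mono KQ_sub, hya⟩

end Row

section Zero

open scoped Pointwise

variable {p m : ℕ} [Fact p.Prime]

section cong

variable {ι : Type} [Fintype ι] [DecidableEq ι]

theorem prime_dvd_redP (hm : 0 < m) {l : ℕ} (hl : l.Prime) (h2 : l ∣ Nat.card (redP ι p m)) :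
    l = p := by
  have : Fact l.Prime := ⟨hl⟩
  obtain ⟨g, hg⟩ := exists_prime_orderOf_dvd_card' l h2
  have hg1 : g ≠ 1 := by
    rintro rfl
    rw [orderOf_one] at hg
    exact hl.one_lt.ne hg
  have hgg : (g : GG ι p m) ^ l = 1 := by
    have := pow_orderOf_eq_one g
    rw [hg] at this
    exact congrArg Subtype.val this
  obtain ⟨x, hx⟩ : ∃ x : VV ι p m, (g : GG ι p m) • x ≠ x := by
    by_contra hcon
    push Not at hcon
    apply hg1
    apply Subtype.ext
    apply SpecialLinearGroup.ext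
    intro x
    exact hcon x
  set y : VV ι p m := (g : GG ι p m) • x - x with hy
  have hy0 : y ≠ 0 := sub_ne_zero.2 hx
  have hgy : ∑ i ∈ range l, (g : GG ι p m) ^ i • y = 0 := by
    have h3 := Finset.sum_range_sub (fun i => (g : GG ι p m) ^ i • x) l
    rw [hgg, pow_zero, sub_self] at h3
    rw [← h3]
    refine sum_congr rfl fun i _ => ?_
    rw [hy, smul_sub, pow_succ, mul_smul]
  have hex : ∃ c, c < m ∧ cof ι p m c y ≠ 0 := by
    by_contra hcon
    push Not at hcon
    exact hy0 (VV_ext fun c hc => by rw [hcon c hc, map_zero])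
  have hc1 := Nat.find_spec hex
  set c := Nat.find hex with hc
  have hmin : ∀ i < c, cof ι p m i y = 0 := by
    intro i hi
    by_contra hne
    exact Nat.find_min hex hi ⟨by omega, hne⟩
  obtain ⟨z, hz⟩ := exists_tm_pow c hc1.1.le y hmin
  have h4 : cof ι p m c y = cof ι p m 0 z := by
    have := cof_add_tm_pow 0 c (by omega) z
    rw [zero_add] at this
    rw [hz, this]
  have h5 : ∀ i : ℕ, cof ι p m c ((g : GG ι p m) ^ i • y) = cof ι p m 0 z := by
    intro i
    have := cof_add_tm_pow 0 c (by omega) ((g : GG ι p m) ^ i • z)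
    rw [zero_add] at this
    rw [hz, smul_tm_pow, this]
    exact (g ^ i).2 z
  have h6 : (l : ZMod p) • cof ι p m 0 z = 0 := by
    have := congrArg (cof ι p m c) hgy
    rw [map_sum, map_zero, sum_congr rfl fun i _ => h5 i, sum_const, card_range] at this
    rw [Nat.cast_smul_eq_nsmul]
    exact this
  rcases smul_eq_zero.1 h6 with h | h
  · rw [ZMod.natCast_eq_zero_iff] at h
    exact ((Nat.prime_dvd_prime_iff_eq Fact.out hl).1 h).symm
  · exact absurd (by rw [h4, h]) hc1.2

theorem good_redP {k : Type*} [Field k] (hp2 : p ≠ 2) (hpk : (p : k) ≠ 0) (hm : 0 < m) :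
    Good (redP ι p m) k :=
  good_of_pow hp2 hpk (Nat.eq_prime_pow_of_unique_prime_dvd Nat.card_pos.ne'
    fun hl h => prime_dvd_redP hm hl h)

theorem acyc_star0 {k : Type*} [Field k] [Nonempty ι] (hm : 0 < m) (q : ℕ) :
    Acyc k (star0 ι p m) q := by
  intro c hc hbd
  apply exists_bd_of_cone (x := vtx (W0 ι p m) ⊥) _ hbd
  intro s hs
  obtain ⟨⟨d, hd, hlt, rfl⟩, hcard⟩ := hc s hs
  refine ⟨⟨insert ⊥ d, ?_, ?_, ?_⟩, hcard⟩
  · rw [Finset.coe_insert]
    exact hd.insert (fun b _ _ => Or.inl bot_le)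
  · intro S hS
    rcases Finset.mem_insert.1 hS with rfl | hS
    · rw [bot_lt_iff_ne_bot]
      intro h0
      have h1 := finrank_form (p := p) (m := m) hm (isForm_W0 (ι := ι))
      rw [h0, finrank_bot] at h1
      have : 0 < Fintype.card ι := Fintype.card_pos
      omega
    · exact hlt S hS
  · ext y
    simp only [Finset.mem_insert, Finset.mem_image, exists_eq_or_imp]
    constructor
    · rintro (h | h)
      · exact Or.inl h.symm
      · exact Or.inr h
    · rintro (h | h)
      · exact Or.inl h.symm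
      · exact Or.inr h

end cong

variable {ι' : Type} [Fintype ι'] [DecidableEq ι']

/-- (ZERO MAP) -/
theorem zero_map_of {k : Type*} [Field k] [IsAlgClosed k] (hp : p ≠ 2) (hpk : (p : k) ≠ 0) (hm : 3 ≤ m)
    {q : ℕ} (hM : HypM k ι' p m q) (a : Finset (Sb (Unit ⊕ ι') p m) →₀ k)
    (ha : ChainIn (FdX Unit ι' p m) q a) (hbd : bd a = 0)
    (hS : ∀ C : QS Unit ι' p m, ∃ y : Finset (Sb (Unit ⊕ ι') p m) →₀ k,
      ChainIn (XX (Unit ⊕ ι') p m) (q + 1) y ∧ act C a - a = bd y) :
    ∃ y : Finset (Sb (Unit ⊕ ι') p m) →₀ k,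
      ChainIn (XX (Unit ⊕ ι') p m) (q + 1) y ∧ bd y = a := by
  have hloc : IsLocalRing (Rg p m) := isLocalRing_Rg (by omega)
  set H : Subgroup (GG (Unit ⊕ ι') p m) :=
    classStab (GG (Unit ⊕ ι') p m) (XX (Unit ⊕ ι') p m) (fun g σ hσ => smul_mem_XX g hσ) q a with hH
  have htop : H.comap (Matrix.SpecialLinearGroup.toLin'_equiv :
      Matrix.SpecialLinearGroup (Unit ⊕ ι') (Rg p m) ≃* GG (Unit ⊕ ι') p m).toMonoidHom = ⊤ := by
    apply eq_top_of_row_col _ (Sum.inl ())
    · rintro (j | j) h b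
      · exact absurd rfl h
      · change toG (Matrix.SpecialLinearGroup.transvection h b) ∈ H
        rw [transvection_row]
        exact s2_act hp hpk hm hM a ha hbd _
    · rintro (j | j) h b
      · exact absurd rfl h
      · change toG (Matrix.SpecialLinearGroup.transvection h b) ∈ H
        obtain ⟨C, hC⟩ := transvection_col (p := p) (m := m) j b h
        rw [hC]
        exact hS C
  have hall : ∀ g : GG (Unit ⊕ ι') p m, g ∈ H := by
    intro g
    obtain ⟨M, rfl⟩ := exists_toG g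
    have : M ∈ H.comap (Matrix.SpecialLinearGroup.toLin'_equiv :
      Matrix.SpecialLinearGroup (Unit ⊕ ι') (Rg p m) ≃* GG (Unit ⊕ ι') p m).toMonoidHom := by
      rw [htop]; exact Subgroup.mem_top _
    exact this
  exact boundary_of_class_invariant (good_redP hp hpk (by omega)) (XX (Unit ⊕ ι') p m)
    (star0 (Unit ⊕ ι') p m) (strictDom_star0 hm) q (acyc_star0 (by omega) q) a
    (ha.mono FdX_sub) hbd (fun g => hall (g : GG (Unit ⊕ ι') p m))

end Zero

section Step

open scoped Pointwise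
open Matrix

variable {p m : ℕ} [Fact p.Prime]
variable {ι : Type} [Fintype ι] [DecidableEq ι]

/-- The induction step of the vanishing theorem. -/
theorem vanish_step {k : Type} [Field k] [IsAlgClosed k] (hp2 : p ≠ 2) (hpk : (p : k) ≠ 0) (hm : 3 ≤ m)
    (i : ℕ) (hn : 2 * i + 3 ≤ Fintype.card ι)
    (hlow : ∀ (ι₁ : Type) [Fintype ι₁] [DecidableEq ι₁], Fintype.card ι₁ ≤ Fintype.card ι →
      ∀ L : Sb ι₁ p m, ({L} : Finset (Sb ι₁ p m)) ∈ XX ι₁ p m → ∀ q, q + 1 ≤ ty L →
      Acyc k (lowLk (XX ι₁ p m) ty L) q)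
    (hH : ∀ (ι₁ : Type) [Fintype ι₁] [DecidableEq ι₁], Fintype.card ι₁ ≤ Fintype.card ι →
      ∀ H : Sb ι₁ p m, H ≠ ⊤ → ∀ q, q + 1 ≤ Fintype.card ι₁ →
      RelAcyc k (XX ι₁ p m) {σ | σ ∈ XX ι₁ p m ∧ ∀ L ∈ σ, ¬ L ≤ H} q)
    (hy : ∀ (ι₁ : Type) [Fintype ι₁] [DecidableEq ι₁], Fintype.card ι₁ ≤ Fintype.card ι →
      ∀ q, q + 1 ≤ Fintype.card ι₁ → HypM k ι₁ p m q)
    (IH : ∀ (ι₁ : Type) [Fintype ι₁] [DecidableEq ι₁], Fintype.card ι₁ < Fintype.card ι →
      ∀ j, 2 * j + 3 ≤ Fintype.card ι₁ → Acyc k (XX ι₁ p m) (j + 1)) :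
    Acyc k (XX ι p m) (i + 1) := by
  have hm0 : 0 < m := by omega
  refine acyc_step (XX ι p m) downClosed_XX ty (K1 ι p m) K1_down empty_mem_K1 relV i (i + 1)
    (by omega) ?_ ?_ ?_ ?_
  · -- push down
    refine relAcyc_types (XX ι p m) downClosed_XX ty (ty_injOn_XX hm) i (i + 1) ?_
    intro L hL hr _
    exact hlow ι le_rfl L hL _ (by omega)
  · -- the rows
    intro σ hσ hcard
    exact acyc_rows hm hσ.1 i (i + 1 - σ.card) hσ.2 (by omega)
  · -- at least two rows
    intro T hT h2 hTc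
    have hTlt : T.card < Fintype.card ι := by omega
    let κ : Type := {u // u ∈ T}
    let ι' : Type := Fin (Fintype.card ι - T.card)
    have hκ : Fintype.card κ = T.card := Fintype.card_coe T
    have hι' : Fintype.card ι' = Fintype.card ι - T.card := Fintype.card_fin _
    have hne : Nonempty ι' := ⟨⟨0, by omega⟩⟩
    have hlin : LinearIndependent (ZMod p) (fun u : κ => cof ι p m 0 u.1) := hT
    obtain ⟨E, hE0, hE1, hE⟩ := exists_std hm0 (κ := κ) (ι' := ι') (fun u => u.1) hlin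
      (by rw [hκ, hι']; omega)
    set q := i + 1 + 1 - T.card with hq
    have hA : Acyc k (XX ι' p m) q := by
      rcases Nat.eq_zero_or_pos q with h0 | h0
      · rw [h0]
        have hbot : (⊥ : Sb ι' p m) < W0 ι' p m := by
          rw [bot_lt_iff_ne_bot]
          intro h
          have h3 := finrank_form hm0 (isForm_W0 (ι := ι') (p := p) (m := m))
          rw [h, finrank_bot] at h3
          omega
        refine acyc_zero (v := vtx (W0 ι' p m) ⊥) ⟨W0 ι' p m, isForm_W0, {⊥}, by simp only [coe_singleton, IsChain.singleton], ?_, by simp⟩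
        intro S hS
        rw [Finset.mem_singleton.1 hS]
        exact hbot
      · obtain ⟨j, hj⟩ : ∃ j, q = j + 1 := ⟨q - 1, by omega⟩
        rw [hj]
        exact IH ι' (by omega) j (by omega)
    have hcal : Acyc k (Xcal κ ι' p m) q :=
      S2star_acyc hp2 hpk hm q (fun H hHt => hH ι' (by omega) H hHt q (by omega)) hA
    have hcard2 : Fintype.card (κ ⊕ ι') ≤ Fintype.card ι := by
      rw [Fintype.card_sum, hκ, hι']
      omega
    have hty : Acyc k (types (Xcal κ ι' p m) ty i) q := by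
      refine acyc_types _ downClosed_Xcal ty (fun σ hσ => ty_injOn_XX hm σ hσ.1) i q ?_ hcal
      intro L hL hr
      rw [lowLk_Xcal hm hL]
      exact hlow (κ ⊕ ι') hcard2 L hL.1 q (by omega)
    refine acyc_of_iso (mE E) (mE E.symm) ?_ ?_ hty
    · intro σ hσ
      exact ⟨image_mem_types E hE0 (fun u : κ => u.1) hE (by omega) hσ.1
        (fun u L hL => hσ.2 u.1 u.2 L hL), fun L _ => mE_symm_mE E L⟩
    · intro σ hσ
      obtain ⟨h3, h4⟩ := image_symm_mem_types E hE1 (fun u : κ => u.1) hE hσ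
      exact ⟨⟨h3, fun u hu L hL => h4 ⟨u, hu⟩ L hL⟩, fun L _ => mE_mE_symm E L⟩
  · -- one row
    intro u hu z hz hbd
    let ι' : Type := Fin (Fintype.card ι - 1)
    have hι' : Fintype.card ι' = Fintype.card ι - 1 := Fintype.card_fin _
    have hne : Nonempty ι' := ⟨⟨0, by omega⟩⟩
    have hlin : LinearIndependent (ZMod p) (fun _ : Unit => cof ι p m 0 u) := by
      have h1 : LinearIndepOn (ZMod p) (cof ι p m 0) (({u} : Finset (VV ι p m)) : Set _) := hu
      rw [Finset.coe_singleton, linearIndepOn_singleton_iff] at h1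
      exact LinearIndependent.of_subsingleton () h1
    obtain ⟨E, hE0, hE1, hE⟩ := exists_std hm0 (κ := Unit) (ι' := ι') (fun _ => u) hlin
      (by rw [hι', Fintype.card_unit]; omega)
    have hz' : ChainIn (Xcal Unit ι' p m) (i + 1) (mapC (mE E) z) := by
      refine hz.mapC (mE E) ?_
      intro σ hσ _
      exact ⟨(image_mem_types E hE0 (fun _ : Unit => u) hE (by omega) hσ.1
        (fun _ L hL => hσ.2 L hL)).1, (mE_injective E).injOn⟩
    have hbd' : bd (mapC (mE E) z) = 0 := by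
      rw [bd_mapC (mE E) z (fun s _ => (mE_injective E).injOn), hbd, map_zero]
    have hHi : ∀ H : Sb ι' p m, H ≠ ⊤ →
        RelAcyc k (XX ι' p m) {σ | σ ∈ XX ι' p m ∧ ∀ L ∈ σ, ¬ L ≤ H} (i + 1) :=
      fun H hHt => hH ι' (by omega) H hHt (i + 1) (by omega)
    obtain ⟨a, y, ha, hbda, hyc, hzay⟩ := S2star_homologous hp2 hpk hm (i + 1) hHi _ hz' hbd'
    obtain ⟨w, hw, hwa⟩ := zero_map_of hp2 hpk hm (hy ι' (by omega) (i + 1) (by omega)) a ha hbda
      (by
        intro C
        obtain ⟨v, hv, hva⟩ := S2star_act hp2 hpk hm (i + 1) hHi a ha hbda C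
        exact ⟨v, hv.mono (fun s hs => hs.1), hva⟩)
    have hsum : ChainIn (XX (Unit ⊕ ι') p m) (i + 1 + 1) (w + y) :=
      hw.add (hyc.mono (fun s hs => hs.1))
    refine ⟨mapC (mE E.symm) (w + y), ?_, ?_⟩
    · refine hsum.mapC (mE E.symm) ?_
      intro σ hσ _
      exact ⟨image_mE_mem_XX E.symm hE1 hσ, (mE_injective E.symm).injOn⟩
    · rw [bd_mapC (mE E.symm) _ (fun s _ => (mE_injective E.symm).injOn), map_add, hwa, ← hzay]
      exact mapC_mapC_of_leftInv (mE E) (mE E.symm) z (fun s _ x _ => mE_symm_mE E x)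

end Step

/-- Acyclicity descends from an extension field to `F₂`. -/
theorem acyc_descend {α : Type*} {F k : Type*} [Field F] [Field k] [Algebra F k]
    (K : Set (Finset α)) (q : ℕ) (h : Acyc k K q) : Acyc F K q := by
  intro c hc hbd
  obtain ⟨ρ, hρ⟩ := LinearMap.exists_leftInverse_of_injective
    (Algebra.linearMap F k) (LinearMap.ker_eq_bot.2 (algebraMap F k).injective)
  have hρ1 : ∀ a : F, ρ (algebraMap F k a) = a := fun a => LinearMap.congr_fun hρ a
  let up : (Finset α →₀ F) →+ (Finset α →₀ k) :=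
    Finsupp.mapRange.addMonoidHom (algebraMap F k).toAddMonoidHom
  let dn : (Finset α →₀ k) →+ (Finset α →₀ F) :=
    Finsupp.mapRange.addMonoidHom ρ.toAddMonoidHom
  have hup : ∀ x : Finset α →₀ F, bd (up x) = up (bd x) := by
    intro x
    have : (bd (k := k) (α := α)).toAddMonoidHom.comp up
        = up.comp (bd (k := F) (α := α)).toAddMonoidHom := by
      apply Finsupp.addHom_ext
      intro s a
      change bd (up (Finsupp.single s a)) = up (bd (Finsupp.single s a))
      rw [bd_single, map_sum]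
      simp only [Units.smul_def, map_zsmul]
      simp only [up, Finsupp.mapRange.addMonoidHom_apply, Finsupp.mapRange_single]
      rw [bd_single]
      simp only [Units.smul_def]
    exact DFunLike.congr_fun this x
  have hdn : ∀ x : Finset α →₀ k, bd (dn x) = dn (bd x) := by
    intro x
    have : (bd (k := F) (α := α)).toAddMonoidHom.comp dn
        = dn.comp (bd (k := k) (α := α)).toAddMonoidHom := by
      apply Finsupp.addHom_ext
      intro s a
      change bd (dn (Finsupp.single s a)) = dn (bd (Finsupp.single s a))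
      rw [bd_single, map_sum]
      simp only [Units.smul_def, map_zsmul]
      simp only [dn, Finsupp.mapRange.addMonoidHom_apply, Finsupp.mapRange_single]
      rw [bd_single]
      simp only [Units.smul_def]
    exact DFunLike.congr_fun this x
  have hdu : ∀ x : Finset α →₀ F, dn (up x) = x := by
    intro x
    ext s
    exact hρ1 (x s)
  have hsup : ∀ x : Finset α →₀ F, (up x).support ⊆ x.support := by
    intro x s hs
    rw [Finsupp.mem_support_iff] at hs ⊢
    intro h0
    apply hs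
    change algebraMap F k (x s) = 0
    rw [h0, map_zero]
  have hsdn : ∀ x : Finset α →₀ k, (dn x).support ⊆ x.support := by
    intro x s hs
    rw [Finsupp.mem_support_iff] at hs ⊢
    intro h0
    apply hs
    change ρ (x s) = 0
    rw [h0, map_zero]
  obtain ⟨y, hy, hyc⟩ := h (up c) (fun s hs => hc s (hsup c hs)) (by rw [hup, hbd, map_zero])
  refine ⟨dn y, fun s hs => hy s (hsdn y hs), ?_⟩
  rw [hdn, hyc, hdu]

/-- Vanishing over algebraically closed fields of characteristic two. -/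
theorem vanish_algClosed (n : ℕ) : ∃ p0 : ℕ, ∀ (p m : ℕ) [Fact p.Prime] (ι : Type) [Fintype ι]
    [DecidableEq ι], Fintype.card ι = n → p0 ≤ p → 3 ≤ m →
    ∀ (k : Type) [Field k] [IsAlgClosed k], (p : k) ≠ 0 → ∀ i, 2 * i + 3 ≤ n →
    Acyc k (XX ι p m) (i + 1) := by
  choose NL hNL using acyc_lowLk_XX
  choose NH hNH using relAcyc_H_XX
  choose NY hNY using relAcyc_y_XX
  induction n using Nat.strong_induction_on with
  | _ n IH =>
    choose! q0 hq0 using IH
    refine ⟨3 + ∑ l ∈ range (n + 1), (NL l + NH l + NY l) + ∑ l ∈ range n, q0 l, ?_⟩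
    intro p m _ ι _ _ hcard hp hm k _ _ hpk i hi
    subst hcard
    have hsum : ∀ l, l ≤ Fintype.card ι → NL l + NH l + NY l ≤ p := by
      intro l hl
      have h1 : NL l + NH l + NY l ≤ ∑ l ∈ range (Fintype.card ι + 1), (NL l + NH l + NY l) :=
        Finset.single_le_sum (f := fun l => NL l + NH l + NY l) (fun _ _ => Nat.zero_le _)
          (Finset.mem_range.2 (by omega))
      omega
    have hsum2 : ∀ l, l < Fintype.card ι → q0 l ≤ p := by
      intro l hl
      have h1 : q0 l ≤ ∑ l ∈ range (Fintype.card ι), q0 l :=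
        Finset.single_le_sum (f := fun l => q0 l) (fun _ _ => Nat.zero_le _)
          (Finset.mem_range.2 hl)
      omega
    refine vanish_step (p := p) (by omega) hpk hm i hi ?_ ?_ ?_ ?_
    · intro ι₁ _ _ h1 L hL q hq
      exact hNL (Fintype.card ι₁) ι₁ p m _ rfl hm (by have := hsum _ h1; omega) L hL q hq
    · intro ι₁ _ _ h1 H hH q hq
      exact hNH (Fintype.card ι₁) ι₁ p m _ rfl hm (by have := hsum _ h1; omega) H hH q hq
    · intro ι₁ _ _ h1 q hq y hy
      exact hNY (Fintype.card ι₁) ι₁ p m _ rfl hm (by have := hsum _ h1; omega) y hy q hq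
    · intro ι₁ _ _ h1 j hj
      exact hq0 (Fintype.card ι₁) h1 p m ι₁ rfl (hsum2 _ h1) hm k hpk j hj

/-- The reduced homology of `X` over every field of characteristic not `p` vanishes in low
dimensions. -/
theorem vanish (n : ℕ) : ∃ p0 : ℕ, ∀ (p m : ℕ) [Fact p.Prime] (ι : Type) [Fintype ι]
    [DecidableEq ι], Fintype.card ι = n → p0 ≤ p → 3 ≤ m →
    ∀ (k : Type) [Field k], (p : k) ≠ 0 → ∀ i, 2 * i + 3 ≤ n →
    Acyc k (XX ι p m) (i + 1) := by
  obtain ⟨p0, h⟩ := vanish_algClosed n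
  refine ⟨p0, fun p m _ ι _ _ hc hp hm k _ hpk i hi =>
    acyc_descend _ _ (h p m ι hc hp hm (AlgebraicClosure k) ?_ i hi)⟩
  rw [← map_natCast (algebraMap k (AlgebraicClosure k))]
  exact (map_ne_zero _).2 hpk

end Vale.Agent.P067.S
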