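import Vale.Agent.N067S.Int
import Vale.Agent.N067S.Van2
import Vale.Agent.N067S.Defs

/-! Assembly: bounded-degree coboundary expanders over abelian groups. -/

set_option autoImplicit false
set_option linter.all false

open Finset Filter

namespace Vale.Agent.P067.S

attribute [local instance] Classical.propDecidable

theorem exists_emb {α : Type} (S : Finset α) : ∃ e : Fin S.card ↪ α,
    (∀ v, v ∈ S ↔ ∃ i, e i = v) ∧ ∀ a b, WellOrderingRel (e a) (e b) ↔ a < b := by
  let _ : LinearOrder α := IsWellOrder.linearOrder WellOrderingRel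
  refine ⟨(S.orderEmbOfFin rfl).toEmbedding, fun v => ?_, fun a b => (S.orderEmbOfFin rfl).lt_iff_lt⟩
  have := Finset.range_orderEmbOfFin S rfl
  rw [← mem_coe, ← this]
  rfl

section Conv

variable {α : Type} [Fintype α] {A : Type} [AddCommGroup A] (top : Finset (Finset α)) (d : ℕ)
  {n : ℕ} (e : Fin n ↪ α) (he : ∀ v, 0 < W top {v} ↔ ∃ i, e i = v)

include he in
theorem exists_up {τ : Finset α} (h : 0 < W top τ) : ∃ s : Finset (Fin n), s.map e = τ := by
  refine ⟨τ.preimage e e.injective.injOn, ?_⟩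
  ext v
  simp only [Finset.mem_map, Finset.mem_preimage]
  constructor
  · rintro ⟨i, hi, rfl⟩
    exact hi
  · intro hv
    obtain ⟨i, rfl⟩ := (he v).1 (lt_of_lt_of_le h (W_anti top (singleton_subset_iff.2 hv)))
    exact ⟨i, hv, rfl⟩

/-- The `d`-skeleton of the complex with top simplices `top`. -/
noncomputable def skelF : AbstractSimplicialComplex (Fin n) where
  faces := {s | s.Nonempty ∧ s.card ≤ d + 1 ∧ 0 < W top (s.map e)}
  isRelLowerSet_faces := by
    rintro s ⟨h1, h2, h3⟩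
    refine ⟨h1, fun t hts ht => ⟨ht, (card_le_card hts).trans h2, ?_⟩⟩
    exact lt_of_lt_of_le h3 (W_anti top (map_subset_map.2 hts))
  singleton_mem v := by
    refine ⟨singleton_nonempty v, by simp, ?_⟩
    rw [map_singleton]
    exact (he _).2 ⟨v, rfl⟩

theorem skelF_pure {N : ℕ} (hN : ∀ C ∈ top, C.card = N) (hdN : d + 2 ≤ N) :
    ∀ s ∈ skelF top d e he, ∃ t : N067S.Face (skelF top d e he) d, s ⊆ t.1 := by
  rintro s ⟨h1, h2, h3⟩
  obtain ⟨C, hC, hsC⟩ := W_pos_iff.1 h3
  obtain ⟨t, hst, htC, ht⟩ := exists_subsuperset_card_eq hsC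
    (by rw [card_map]; exact h2 : (s.map e).card ≤ d + 1) (by rw [hN C hC]; omega)
  have hW : 0 < W top t := W_pos_iff.2 ⟨C, hC, htC⟩
  obtain ⟨t', rfl⟩ := exists_up top e he hW
  rw [card_map] at ht
  rw [map_subset_map] at hst
  exact ⟨⟨t', ⟨h1.mono hst, ht.le, hW⟩, ht⟩, hst⟩

theorem skelF_connected {N : ℕ} (hN : ∀ C ∈ top, C.card = N) (hd : 1 ≤ d) (hdN : d + 2 ≤ N)
    (hne : top.Nonempty) (hconn : LinkConn top ∅) :
    (SimpleGraph.fromRel fun u v => {u, v} ∈ skelF top d e he).Connected := by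
  have hnonempty : Nonempty (Fin n) := by
    obtain ⟨C, hC⟩ := hne
    have hc : 0 < C.card := by rw [hN C hC]; omega
    obtain ⟨v, hv⟩ := card_pos.1 hc
    obtain ⟨i, -⟩ := (he v).1 (W_pos_iff.2 ⟨C, hC, singleton_subset_iff.2 hv⟩)
    exact ⟨i⟩
  refine { preconnected := fun u v => ?_, nonempty := hnonempty }
  have key := hconn {w : α | ∃ i, e i = w ∧
      (SimpleGraph.fromRel fun u v => {u, v} ∈ skelF top d e he).Reachable u i} ?_
    (e u) (e v) (notMem_empty _) (notMem_empty _)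
    (by simpa using (he _).2 ⟨u, rfl⟩) (by simpa using (he _).2 ⟨v, rfl⟩)
  · obtain ⟨i, hi, h⟩ := key.1 ⟨u, rfl, SimpleGraph.Reachable.refl _⟩
    rwa [e.injective hi] at h
  · intro a b _ _ hab hW
    have ha : 0 < W top {a} := lt_of_lt_of_le hW (W_anti top (by simp))
    have hb : 0 < W top {b} := lt_of_lt_of_le hW (W_anti top (by
      intro x hx
      simp only [mem_singleton] at hx
      subst hx
      simp))
    obtain ⟨a, rfl⟩ := (he a).1 ha
    obtain ⟨b, rfl⟩ := (he b).1 hb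
    have hadj : (SimpleGraph.fromRel fun u v => {u, v} ∈ skelF top d e he).Adj a b := by
      refine ⟨fun h => hab (congrArg e h), Or.inl ⟨⟨a, by simp⟩, ?_, ?_⟩⟩
      · refine (card_insert_le _ _).trans ?_
        rw [card_singleton]
        omega
      · have : ({a, b} : Finset (Fin n)).map e = insert (e a) (insert (e b) ∅) := by
          ext x
          simp
        rw [this]
        exact hW
    constructor
    · rintro ⟨i, hi, h⟩
      rw [e.injective hi] at h
      exact ⟨b, rfl, h.trans hadj.reachable⟩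
    · rintro ⟨i, hi, h⟩
      rw [e.injective hi] at h
      exact ⟨a, rfl, h.trans hadj.symm.reachable⟩

theorem card_filter_face (s : Finset (Fin n)) :
    Nat.card {t : N067S.Face (skelF top d e he) d // s ⊆ t.1} = (Tof top d (s.map e)).card := by
  rw [Nat.card_eq_fintype_card, Fintype.card_subtype]
  refine card_bij (fun t _ => t.1.map e) ?_ ?_ ?_
  · intro t ht
    rw [mem_filter] at ht
    simp only [Tof, mem_filter, mem_univ, true_and]
    exact ⟨by rw [card_map]; exact t.2.2, map_subset_map.2 ht.2, t.2.1.2.2⟩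
  · intro t _ t' _ h
    exact Subtype.ext (map_injective e h)
  · intro t ht
    simp only [Tof, mem_filter, mem_univ, true_and] at ht
    obtain ⟨t', rfl⟩ := exists_up top e he ht.2.2
    rw [card_map] at ht
    refine ⟨⟨t', ⟨card_pos.1 (by omega), ht.1.le, ht.2.2⟩, ht.1⟩, ?_, rfl⟩
    rw [mem_filter]
    exact ⟨mem_univ _, map_subset_map.1 ht.2.1⟩

theorem skelF_degree {N D' : ℕ} (hN : ∀ C ∈ top, C.card = N)
    (hD : ∀ v : α, W top {v} ≤ D') (v : Fin n) :
    Nat.card {t : N067S.Face (skelF top d e he) d // v ∈ t.1} ≤ 2 ^ N * D' := by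
  have h1 := card_filter_face top d e he {v}
  simp only [singleton_subset_iff] at h1
  rw [h1, map_singleton]
  exact (card_Tof_le top d hN _).trans (Nat.mul_le_mul_left _ (hD _))

theorem sg_map (ho : ∀ a b, WellOrderingRel (e a) (e b) ↔ a < b) (t : Finset (Fin n)) (v : Fin n)
    (hv : v ∈ t) : ((sg (t.map e) (e v) : ℤˣ) : ℤ) =
      (-1) ^ ((t.erase v).filter fun u => ∃ w ∈ t \ t.erase v, u < w).card := by
  have h1 : ((t.erase v).filter fun u => ∃ w ∈ t \ t.erase v, u < w) = t.filter (· < v) := by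
    ext u
    simp only [Finset.mem_filter, Finset.mem_erase, Finset.mem_sdiff, not_and]
    constructor
    · rintro ⟨⟨-, hu⟩, w, ⟨hw, hw'⟩, huw⟩
      have : w = v := by
        by_contra h
        exact hw' h hw
      exact ⟨hu, this ▸ huw⟩
    · rintro ⟨hu, huv⟩
      exact ⟨⟨huv.ne, hu⟩, v, ⟨hv, fun h => absurd rfl h⟩, huv⟩
  rw [h1, sg, prod_map, ← prod_const, prod_filter, Units.coe_prod]
  refine prod_congr rfl fun u _ => ?_
  unfold tw
  by_cases h : u < v
  · rw [if_pos h, if_pos ((ho u v).2 h)]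
    rfl
  · rw [if_neg h, if_neg (fun h' => h ((ho u v).1 h'))]
    rfl

/-- Comparison of the norms. -/
theorem nrm_eq_sum_face {i : ℕ} (hi : i ≤ d) (g : Finset α → A) :
    nrm top (i + 1) g = ∑ s ∈ (univ : Finset (N067S.Face (skelF top d e he) i)).filter
      (fun s => g (s.1.map e) ≠ 0), W top (s.1.map e) := by
  unfold nrm
  rw [← sum_filter_ne_zero]
  symm
  refine sum_bij (fun s _ => s.1.map e) ?_ ?_ ?_ ?_
  · intro s hs
    rw [mem_filter] at hs
    simp only [mem_filter, mem_univ, true_and]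
    exact ⟨⟨by rw [card_map]; exact s.2.2, hs.2⟩, s.2.1.2.2.ne'⟩
  · intro t _ t' _ h
    exact Subtype.ext (map_injective e h)
  · intro t ht
    simp only [mem_filter, mem_univ, true_and] at ht
    obtain ⟨t', rfl⟩ := exists_up top e he (Nat.pos_of_ne_zero ht.2)
    rw [card_map] at ht
    refine ⟨⟨t', ⟨card_pos.1 (by omega), by omega, Nat.pos_of_ne_zero ht.2⟩, ht.1.1⟩, ?_, rfl⟩
    rw [mem_filter]
    exact ⟨mem_univ _, ht.1.2⟩
  · intro s _
    rfl

theorem dd_up (ho : ∀ a b, WellOrderingRel (e a) (e b) ↔ a < b) {i : ℕ} (g : Finset α → A)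
    (t : N067S.Face (skelF top d e he) (i + 1)) :
    dd g (t.1.map e) = N067S.cob (skelF top d e he) i (fun s => g (s.1.map e)) t := by
  have h1 : dd g (t.1.map e) = ∑ v ∈ t.1, (-1 : ℤ) ^
      ((t.1.erase v).filter fun u => ∃ w ∈ t.1 \ t.1.erase v, u < w).card •
        g ((t.1.erase v).map e) := by
    unfold dd
    rw [sum_map]
    refine sum_congr rfl fun v hv => ?_
    rw [map_erase, Units.smul_def, sg_map e ho t.1 v hv]
  rw [h1, N067S.cob]
  refine sum_bij (fun v hv => ⟨t.1.erase v, ?_, ?_⟩) ?_ ?_ ?_ ?_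
  · have hc : (t.1.erase v).card = i + 1 := by rw [card_erase_of_mem hv, t.2.2]; rfl
    refine ⟨card_pos.1 (by omega), ?_, ?_⟩
    · have := t.2.1.2.1
      rw [t.2.2] at this
      omega
    · exact lt_of_lt_of_le t.2.1.2.2 (W_anti top (map_subset_map.2 (erase_subset _ _)))
  · rw [card_erase_of_mem hv, t.2.2]; rfl
  · intro v hv
    rw [mem_filter]
    exact ⟨mem_univ _, erase_subset _ _⟩
  · intro v hv w hw e0
    have e1 : t.1.erase v = t.1.erase w := congrArg Subtype.val e0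
    by_contra hne
    have : v ∈ t.1.erase w := mem_erase.2 ⟨hne, hv⟩
    rw [← e1] at this
    exact notMem_erase v _ this
  · intro s hs
    rw [mem_filter] at hs
    have hc : (t.1 \ s.1).card = 1 := by
      rw [card_sdiff_of_subset hs.2, t.2.2, s.2.2]
      omega
    obtain ⟨v, hv⟩ := card_eq_one.1 hc
    have hvt : v ∈ t.1 \ s.1 := by rw [hv]; exact mem_singleton_self v
    refine ⟨v, (mem_sdiff.1 hvt).1, ?_⟩
    apply Subtype.ext
    change t.1.erase v = s.1
    rw [← sdiff_singleton_eq_erase, ← hv, Finset.sdiff_sdiff_eq_self hs.2]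
  · intro v _
    rfl

theorem cnorm_le {N : ℕ} (hN : ∀ C ∈ top, C.card = N) {i : ℕ} (hi : i ≤ d)
    (f : N067S.Face (skelF top d e he) i → A) (g : Finset α → A)
    (hg : ∀ s : N067S.Face (skelF top d e he) i, g (s.1.map e) = f s) :
    N067S.cnorm (skelF top d e he) d f ≤
      (Nat.card (N067S.Face (skelF top d e he) d) : ℝ)⁻¹ * (2 ^ N * nrm top (i + 1) g) := by
  rw [nrm_eq_sum_face top d e he hi, N067S.cnorm, Nat.cast_sum, mul_sum, mul_sum]
  have e1 : (univ : Finset (N067S.Face (skelF top d e he) i)).filter (fun s => g (s.1.map e) ≠ 0) =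
      (univ : Finset (N067S.Face (skelF top d e he) i)).filter (fun s => f s ≠ 0) := by
    ext s
    simp only [mem_filter, mem_univ, true_and, hg]
  rw [e1]
  refine sum_le_sum fun s _ => ?_
  rw [N067S.wt, card_filter_face]
  have h1 : ((Tof top d (s.1.map e)).card : ℝ) ≤ 2 ^ N * W top (s.1.map e) := by
    exact_mod_cast card_Tof_le top d hN (s.1.map e)
  have h2 : (1 : ℝ) ≤ (Nat.choose (d + 1) (i + 1) : ℝ) := by
    exact_mod_cast Nat.choose_pos (by omega : i + 1 ≤ d + 1)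
  rw [div_eq_mul_inv, mul_inv, ← mul_assoc, mul_comm _ ((Nat.card _ : ℝ)⁻¹)]
  refine mul_le_mul_of_nonneg_left ?_ (by (clear * -; positivity))
  refine le_trans ?_ h1
  exact mul_le_of_le_one_right (by (clear * -; positivity)) (inv_le_one_of_one_le₀ h2)

theorem le_cnorm {N D' : ℕ} (hN : ∀ C ∈ top, C.card = N) (hdN : d + 2 ≤ N)
    (hD : ∀ v : α, W top {v} ≤ D') {i : ℕ} (hi : i ≤ d)
    (f : N067S.Face (skelF top d e he) i → A) (g : Finset α → A)
    (hg : ∀ s : N067S.Face (skelF top d e he) i, g (s.1.map e) = f s) :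
    (Nat.card (N067S.Face (skelF top d e he) d) : ℝ)⁻¹ * (nrm top (i + 1) g / ((D' + 1) * 2 ^ (d + 1))) ≤
      N067S.cnorm (skelF top d e he) d f := by
  rw [nrm_eq_sum_face top d e he hi, N067S.cnorm, Nat.cast_sum, sum_div, mul_sum]
  have e1 : (univ : Finset (N067S.Face (skelF top d e he) i)).filter (fun s => g (s.1.map e) ≠ 0) =
      (univ : Finset (N067S.Face (skelF top d e he) i)).filter (fun s => f s ≠ 0) := by
    ext s
    simp only [mem_filter, mem_univ, true_and, hg]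
  rw [e1]
  refine sum_le_sum fun s _ => ?_
  rw [N067S.wt, card_filter_face]
  have h1 : (W top (s.1.map e) : ℝ) ≤ D' * (Tof top d (s.1.map e)).card := by
    exact_mod_cast W_le_card_Tof top d hN hdN hD (s.1.map e) (by rw [card_map, s.2.2]; omega)
  have h2 : (0 : ℝ) < (Nat.choose (d + 1) (i + 1) : ℝ) := by
    exact_mod_cast Nat.choose_pos (by omega : i + 1 ≤ d + 1)
  have h3 : (Nat.choose (d + 1) (i + 1) : ℝ) ≤ 2 ^ (d + 1) := by
    exact_mod_cast Nat.choose_le_two_pow (d + 1) (i + 1)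
  rw [div_eq_mul_inv (((Tof top d (s.1.map e)).card : ℝ)), mul_inv, ← mul_assoc,
    mul_comm _ ((Nat.card _ : ℝ)⁻¹)]
  refine mul_le_mul_of_nonneg_left ?_ (by (clear * -; positivity))
  rw [← div_eq_mul_inv, div_le_div_iff₀ (by positivity) h2]
  have h4 : (0 : ℝ) ≤ (Tof top d (s.1.map e)).card := Nat.cast_nonneg _
  have h5 : (0 : ℝ) ≤ D' := Nat.cast_nonneg _
  calc (W top (s.1.map e) : ℝ) * (Nat.choose (d + 1) (i + 1) : ℝ)
      ≤ (D' * (Tof top d (s.1.map e)).card) * 2 ^ (d + 1) :=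
        mul_le_mul h1 h3 h2.le (by (clear * -; positivity))
    _ ≤ (Tof top d (s.1.map e)).card * ((D' + 1) * 2 ^ (d + 1)) := by
        have : (0 : ℝ) ≤ (Tof top d (s.1.map e)).card * 2 ^ (d + 1) := by (clear * -; positivity)
        nlinarith only [this]

theorem cnorm_nonneg {i : ℕ} (f : N067S.Face (skelF top d e he) i → A) :
    0 ≤ N067S.cnorm (skelF top d e he) d f := by
  refine sum_nonneg fun s _ => ?_
  unfold N067S.wt
  (clear * -; positivity)

theorem skelF_expander (ho : ∀ a b, WellOrderingRel (e a) (e b) ↔ a < b) {N D' : ℕ} (hN : ∀ C ∈ top, C.card = N) (hdN : d + 2 ≤ N)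
    (hD : ∀ v : α, W top {v} ≤ D') {ε0 : ℝ} (h0 : 0 < ε0)
    (hexp : ∀ s : ℕ, 1 ≤ s → s ≤ d → ∀ f : Finset α → A, ∃ g : Finset α → A,
        ε0 * (nrm top s (fun τ => f τ + dd g τ) : ℝ) ≤ (nrm top (s + 1) (dd f) : ℝ)) :
    N067S.IsExpander (skelF top d e he) (N067S.cob (A := A) _) d (ε0 / ((D' + 1) * 2 ^ (d + 1) * 2 ^ N)) := by
  intro i hi f
  let F : Finset α → A := fun τ =>
    if h : ∃ s : N067S.Face (skelF top d e he) i, s.1.map e = τ then f h.choose else 0
  have hF : ∀ s : N067S.Face (skelF top d e he) i, F (s.1.map e) = f s := by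
    intro s
    have h : ∃ s' : N067S.Face (skelF top d e he) i, s'.1.map e = s.1.map e := ⟨s, rfl⟩
    change (if h : ∃ s' : N067S.Face (skelF top d e he) i, s'.1.map e = s.1.map e then f h.choose else 0) = _
    rw [dif_pos h]
    congr 1
    exact Subtype.ext (map_injective e h.choose_spec)
  obtain ⟨g, hg⟩ := hexp (i + 1) (by omega) (by omega) F
  set a : N067S.Face (skelF top d e he) i → A := fun s => dd (fun τ => -g τ) (s.1.map e) with ha
  have hmem : a ∈ N067S.cobs (skelF top d e he) (N067S.cob _) i := by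
    cases i with
    | zero =>
      refine ⟨-g ∅, fun s => ?_⟩
      rw [ha]
      obtain ⟨v, hv⟩ := card_eq_one.1 (s.2.2 : s.1.card = 0 + 1)
      simp only [hv, map_singleton]
      rw [dd, sum_singleton, sg_singleton, one_smul, erase_singleton]
    | succ j => exact ⟨fun r => -g (r.1.map e), funext fun t => (dd_up top d e he ho (fun τ => -g τ) t).symm⟩
  have h1 : sInf ((fun b => N067S.cnorm (skelF top d e he) d (f - b)) ''
      N067S.cobs (skelF top d e he) (N067S.cob _) i) ≤ N067S.cnorm (skelF top d e he) d (f - a) := by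
    refine csInf_le ⟨0, ?_⟩ ⟨a, hmem, rfl⟩
    rintro _ ⟨b, _, rfl⟩
    exact cnorm_nonneg top d e he _
  have h2 := cnorm_le top d e he hN hi.le (f - a) (fun τ => F τ + dd g τ) (fun s => by
    rw [hF, Pi.sub_apply, ha]
    beta_reduce
    rw [dd_neg, sub_neg_eq_add])
  have h3 := le_cnorm top d e he hN hdN hD (i := i + 1) hi (N067S.cob (skelF top d e he) i f)
    (dd F) (fun t => by rw [dd_up top d e he ho F t, funext hF])
  refine le_trans ?_ h3
  set c : ℝ := (Nat.card (N067S.Face (skelF top d e he) d) : ℝ)⁻¹ with hc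
  have hc0 : 0 ≤ c := by (clear * -; positivity)
  calc _ ≤ ε0 / ((D' + 1) * 2 ^ (d + 1) * 2 ^ N) *
        (c * (2 ^ N * nrm top (i + 1) fun τ => F τ + dd g τ)) :=
        mul_le_mul_of_nonneg_left (h1.trans h2) (by (clear * - h0; positivity))
    _ = c * ((ε0 * nrm top (i + 1) fun τ => F τ + dd g τ) / ((D' + 1) * 2 ^ (d + 1))) := by
        (clear * - h0; field_simp)
    _ ≤ c * (nrm top (i + 1 + 1) (dd F) / ((D' + 1) * 2 ^ (d + 1))) := by
        refine mul_le_mul_of_nonneg_left ?_ hc0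
        exact div_le_div_of_nonneg_right hg (by (clear * -; positivity))

end Conv

attribute [-instance] Submodule.decidableEq

theorem coboundary_XX (d : ℕ) (hd : 1 ≤ d) : ∃ p0 : ℕ, ∀ (p : ℕ) [Fact p.Prime], p0 ≤ p →
    ∃ (D' : ℕ) (ε0 : ℝ), 0 < ε0 ∧ ∀ m : ℕ, 3 ≤ m → ∀ [Fintype (Sb (Fin (2 * d + 1)) p m)],
      (∀ C ∈ topX (Fin (2 * d + 1)) p m, C.card = 2 * d + 1) ∧
      (topX (Fin (2 * d + 1)) p m).Nonempty ∧
      (∀ v, W (topX (Fin (2 * d + 1)) p m) {v} ≤ D') ∧ LinkConn (topX (Fin (2 * d + 1)) p m) ∅ ∧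
      ∀ (A : Type) [AddCommGroup A], (Function.Bijective fun a : A => p • a) →
      ∀ s : ℕ, 1 ≤ s → s ≤ d → ∀ f : Finset (Sb (Fin (2 * d + 1)) p m) → A,
        ∃ e : Finset (Sb (Fin (2 * d + 1)) p m) → A,
        ε0 * (nrm (topX (Fin (2 * d + 1)) p m) s (fun τ => f τ + dd e τ) : ℝ) ≤
          (nrm (topX (Fin (2 * d + 1)) p m) (s + 1) (dd f) : ℝ) := by
  set n := 2 * d + 1 with hn
  obtain ⟨p0, hvan2⟩ := P067.vanish n
  obtain ⟨p1, hvan⟩ := vanish n
  obtain ⟨β, p2, hβ, hLE⟩ := linkExp_topX n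
  obtain ⟨lam, hlam, hC2⟩ := coboundary_expansion_of_local n β hβ
  obtain ⟨lam0, hlam0, hE⟩ := edgeMix_of_base n lam hlam
  obtain ⟨p3, hLC⟩ := linkConn_topX n
  obtain ⟨p4, hp4⟩ := exists_nat_ge (1 / lam0 ^ 2)
  refine ⟨p0 + p1 + p2 + p3 + p4, fun p _ hp => ?_⟩
  obtain ⟨D', hD'⟩ := W_topX_le (Fin n) p
  obtain ⟨ε0, hε0, hexp⟩ := hC2 D'
  refine ⟨D', ε0, hε0, ?_⟩
  intro m hm _
  have hcardn : Fintype.card (Fin n) = n := Fintype.card_fin n
  have htop : ∀ C ∈ topX (Fin n) p m, C.card = n := fun C hC => by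
    rw [(mem_topX.1 hC).2, hcardn]
  have hne : (topX (Fin n) p m).Nonempty := by
    have h0 : (∅ : Finset (Sb (Fin n) p m)) ∈ XX (Fin n) p m :=
      ⟨W0 (Fin n) p m, isForm_W0, ∅, by simp, by simp, by simp⟩
    obtain ⟨C, hC, _⟩ := exists_topX hm h0
    exact ⟨C, hC⟩
  have hconn0 : LinkConn (topX (Fin n) p m) ∅ := by
    apply linkConn_of_acyc
    have h1 := hvan2 p m (Fin n) hcardn (by omega) hm 0 (by omega)
    have h2 : {τ : Finset (Sb (Fin n) p m) | Disjoint τ ∅ ∧ 0 < W (topX (Fin n) p m) (∅ ∪ τ)} =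
        XX (Fin n) p m := by
      ext τ
      rw [Set.mem_ofPred_eq, empty_union]
      exact ⟨fun h => (W_topX_pos_iff hm τ).1 h.2,
        fun h => ⟨disjoint_empty_right τ, (W_topX_pos_iff hm τ).2 h⟩⟩
    rw [h2]
    exact h1
  have hconn : ∀ θ : Finset (Sb (Fin n) p m), 0 < W (topX (Fin n) p m) θ → θ.card + 2 ≤ n →
      LinkConn (topX (Fin n) p m) θ := by
    intro θ hW hθ
    rcases θ.eq_empty_or_nonempty with h | h
    · rw [h]; exact hconn0
    · exact hLC p m (Fin n) hcardn (by omega) hm θ h hW hθ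
  have hbase : ∀ θ : Finset (Sb (Fin n) p m), 0 < W (topX (Fin n) p m) θ → θ.card + 2 = n →
      SpecGap (topX (Fin n) p m) n θ lam0 := by
    intro θ hW hθ
    have h1 : 1 ≤ lam0 ^ 2 * (p : ℝ) := by
      have h2 : (p4 : ℝ) ≤ p := by exact_mod_cast (by omega : p4 ≤ p)
      have h3 : 1 / lam0 ^ 2 ≤ (p : ℝ) := hp4.trans h2
      rwa [div_le_iff₀' (by positivity)] at h3
    have h2 := specGap_base (ι := Fin n) hm (by rw [hcardn]; omega) hlam0 h1 θ hW
      (by rw [hcardn]; exact hθ)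
    rwa [hcardn] at h2
  have hEM : EdgeMix (topX (Fin n) p m) n lam := hE _ htop hconn hbase
  refine ⟨htop, hne, hD' m hm, hconn0, ?_⟩
  intro A _ hA s hs hsd
  refine hexp A _ (topX (Fin n) p m) htop (hD' m hm) (hLE p m (Fin n) hcardn (by omega) hm A) hEM
    s hs (by omega) ?_
  intro f hf
  obtain ⟨e, he⟩ := cocycle_eq_coboundary (K := XX (Fin n) p m) downClosed_XX s (by
      intro q hq l _ hl
      rcases q with _ | i
      · obtain ⟨C, hC⟩ := hne
        obtain ⟨v, hv⟩ : C.Nonempty := card_pos.1 (by rw [htop C hC]; omega)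
        exact acyc_zero (downClosed_XX C (mem_topX.1 hC).1 {v} (singleton_subset_iff.2 hv))
      · refine hvan p m (Fin n) hcardn (by omega) hm (ZMod l) ?_ i (by omega)
        rw [Ne, ZMod.natCast_eq_zero_iff]
        exact fun h => hl ((Nat.prime_dvd_prime_iff_eq Fact.out Fact.out).1 h)) hA f
    (fun ρ hρ hc => hf ρ hc ((W_topX_pos_iff hm ρ).2 hρ))
  exact ⟨e, fun τ hτ hW => he τ ((W_topX_pos_iff hm τ).1 hW) hτ⟩

/-- One family for all abelian groups on which `p` acts invertibly. -/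
theorem main (d : ℕ) (hd : 1 ≤ d) : ∃ p0 : ℕ, ∀ p : ℕ, p.Prime → p0 ≤ p →
    ∃ (D : ℕ) (ε : ℝ), 0 < ε ∧ ∃ (n : ℕ → ℕ) (X : ∀ m, AbstractSimplicialComplex (Fin (n m))),
      Tendsto n atTop atTop ∧ ∀ m, N067S.Bounded (X m) d D ∧
        ∀ (A : Type) [AddCommGroup A], (Function.Bijective fun a : A => p • a) →
          N067S.IsExpander (X m) (N067S.cob (A := A) (X m)) d ε := by
  obtain ⟨p0, h⟩ := coboundary_XX d hd
  refine ⟨p0, fun p hp hp0 => ?_⟩
  have : Fact p.Prime := ⟨hp⟩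
  obtain ⟨D', ε0, hε0, h⟩ := h p hp0
  refine ⟨2 ^ (2 * d + 1) * D', ε0 / ((D' + 1) * 2 ^ (d + 1) * 2 ^ (2 * d + 1)), by positivity, ?_⟩
  have key : ∀ M : ℕ, ∃ (n : ℕ) (X : AbstractSimplicialComplex (Fin n)), M ≤ n ∧
      N067S.Bounded X d (2 ^ (2 * d + 1) * D') ∧
        ∀ (A : Type) [AddCommGroup A], (Function.Bijective fun a : A => p • a) →
          N067S.IsExpander X (N067S.cob (A := A) X) d
            (ε0 / ((D' + 1) * 2 ^ (d + 1) * 2 ^ (2 * d + 1))) := by
    intro M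
    obtain ⟨m, hm, B, hMB, hB⟩ := many_vertices (ι := Fin (2 * d + 1))
      (by rw [Fintype.card_fin]; omega) p M
    let _ : Fintype (Sb (Fin (2 * d + 1)) p m) := Fintype.ofFinite _
    obtain ⟨h1, h2, h3, h4, h5⟩ := h m hm
    obtain ⟨e, he, ho⟩ := exists_emb
      (univ.filter fun v => 0 < W (topX (Fin (2 * d + 1)) p m) {v})
    have he' : ∀ v, 0 < W (topX (Fin (2 * d + 1)) p m) {v} ↔ ∃ i, e i = v := fun v => by
      rw [← he, mem_filter]
      exact (and_iff_right (mem_univ _)).symm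
    refine ⟨_, skelF _ d e he', hMB.trans (card_le_card fun v hv => ?_),
      ⟨skelF_connected _ d e he' h1 hd (by omega) h2 h4, skelF_pure _ d e he' h1 (by omega),
        skelF_degree _ d e he' h1 h3⟩,
      fun A _ hA => skelF_expander _ d e he' ho h1 (by omega) h3 hε0 (h5 A hA)⟩
    rw [mem_filter]
    exact ⟨mem_univ _, (W_topX_pos_iff hm _).2 (hB v hv)⟩
  choose n X h1 h2 using key
  exact ⟨n, X, tendsto_atTop_mono h1 tendsto_id, h2⟩

end Vale.Agent.P067.S
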