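import Vale.Agent.P067.Bdl.B1

/-! Signs for oriented chains, from a fixed well-order on every type. -/

set_option autoImplicit false

open Finset

namespace Vale.Agent.P067.S

attribute [local instance] Classical.propDecidable

variable {α β γ : Type*}

/-- `-1` if `u` comes before `v`. -/
noncomputable def tw (u v : α) : ℤˣ := if WellOrderingRel u v then -1 else 1

theorem tw_self (v : α) : tw v v = 1 := if_neg (irrefl v)

theorem tw_swap {u v : α} (h : u ≠ v) : tw u v = - tw v u := by
  unfold tw
  rcases trichotomous_of WellOrderingRel u v with h1 | h1 | h1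
  · rw [if_pos h1, if_neg (asymm h1)]
  · exact absurd h1 h
  · rw [if_pos h1, if_neg (asymm h1), neg_neg]

/-- The sign of the vertex `v` in the simplex `s`. -/
noncomputable def sg (s : Finset α) (v : α) : ℤˣ := ∏ u ∈ s, tw u v

theorem sg_empty (v : α) : sg ∅ v = 1 := prod_empty

theorem sg_singleton (v : α) : sg {v} v = 1 := by rw [sg, prod_singleton, tw_self]

theorem sg_insert {s : Finset α} {x : α} (hx : x ∉ s) (v : α) :
    sg (insert x s) v = tw x v * sg s v := prod_insert hx

theorem sg_insert_self (s : Finset α) (x : α) : sg (insert x s) x = sg s x := by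
  by_cases hx : x ∈ s
  · rw [insert_eq_of_mem hx]
  · rw [sg_insert hx, tw_self, one_mul]

theorem sg_erase_self (s : Finset α) (x : α) : sg (s.erase x) x = sg s x := by
  by_cases hx : x ∈ s
  · rw [← sg_insert_self, insert_erase hx]
  · rw [erase_eq_of_notMem hx]

theorem uu (a : ℤˣ) : a * a = 1 := Int.units_mul_self a

theorem sg_erase {s : Finset α} {x : α} (hx : x ∈ s) (v : α) :
    sg (s.erase x) v = tw x v * sg s v := by
  conv_rhs => rw [← insert_erase hx, sg_insert (notMem_erase x s), ← mul_assoc, uu, one_mul]

theorem sg_union {s t : Finset α} (h : Disjoint s t) (v : α) : sg (s ∪ t) v = sg s v * sg t v :=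
  prod_union h

theorem sg_sg {s : Finset α} {v w : α} (hv : v ∈ s) (hw : w ∈ s) (h : v ≠ w) :
    sg s v * sg (s.erase v) w = -(sg s w * sg (s.erase w) v) := by
  rw [sg_erase hv, sg_erase hw, tw_swap h]
  simp only [mul_neg, mul_comm, mul_left_comm]

/-- The sign by which a vertex map changes the orientation of `s`. -/
noncomputable def ps (f : α → β) (s : Finset α) : ℤˣ :=
  ∏ u ∈ s, ∏ w ∈ s, if WellOrderingRel u w then tw (f w) (f u) else 1

theorem ps_empty (f : α → β) : ps f ∅ = 1 := prod_empty

theorem ps_insert (f : α → β) {s : Finset α} {v : α} (hv : v ∉ s)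
    (hf : Set.InjOn f ((insert v s : Finset α) : Set α)) :
    ps f (insert v s) = sg s v * sg (s.image f) (f v) * ps f s := by
  have hs : Set.InjOn f (s : Set α) := hf.mono (by simp)
  unfold ps
  rw [prod_insert hv, prod_insert hv, if_neg (irrefl v), one_mul]
  simp only [prod_insert hv]
  have himg : sg (s.image f) (f v) = ∏ u ∈ s, tw (f u) (f v) :=
    prod_image (fun x hx y hy h => hs hx hy h)
  rw [prod_mul_distrib, ← mul_assoc, himg, sg, ← prod_mul_distrib,
    ← prod_mul_distrib (f := fun u => tw u v)]
  refine congrArg₂ (fun a b : ℤˣ => a * b) (prod_congr rfl fun u hu => ?_) rfl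
  have huv : u ≠ v := fun h => hv (h ▸ hu)
  have hfuv : f u ≠ f v := fun h => huv (hf (by simp [hu]) (by simp) h)
  rcases trichotomous_of WellOrderingRel u v with h1 | h1 | h1
  · rw [if_neg (asymm h1), if_pos h1, one_mul, tw_swap hfuv.symm]
    have : tw u v = -1 := if_pos h1
    rw [this, neg_mul, one_mul]
  · exact absurd h1 huv
  · rw [if_pos h1, if_neg (asymm h1), mul_one]
    have : tw u v = 1 := if_neg (asymm h1)
    rw [this, one_mul]

theorem ps_erase (f : α → β) {s : Finset α} (hf : Set.InjOn f (s : Set α)) {v : α} (hv : v ∈ s) :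
    ps f s * sg (s.image f) (f v) = sg s v * ps f (s.erase v) := by
  have h := ps_insert f (notMem_erase v s) (by rwa [insert_erase hv])
  rw [insert_erase hv, sg_erase_self, image_erase_of_injOn f s hf hv, sg_erase_self] at h
  rw [h, mul_right_comm, mul_assoc (sg s v), uu, mul_one]

theorem ps_comp (g : β → γ) (f : α → β) (s : Finset α) (hf : Set.InjOn f (s : Set α))
    (hg : Set.InjOn g ((s.image f : Finset β) : Set β)) :
    ps (fun x => g (f x)) s = ps g (s.image f) * ps f s := by
  induction s using Finset.induction_on with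
  | empty => simp [ps_empty]
  | insert v s hv ih =>
    have hs : Set.InjOn f (s : Set α) := hf.mono (by simp)
    have hfv : f v ∉ s.image f := by
      intro h
      obtain ⟨x, hx, hxv⟩ := mem_image.1 h
      exact hv (hf (by simp [hx]) (by simp) hxv ▸ hx)
    rw [image_insert] at hg
    have hgs : Set.InjOn g ((s.image f : Finset β) : Set β) := hg.mono (by simp)
    have hgf : Set.InjOn (fun x => g (f x)) ((insert v s : Finset α) : Set α) := by
      intro x hx y hy h
      refine hf hx hy (hg ?_ ?_ h)
      · rw [← image_insert]; exact mem_coe.2 (mem_image_of_mem f (mem_coe.1 hx))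
      · rw [← image_insert]; exact mem_coe.2 (mem_image_of_mem f (mem_coe.1 hy))
    rw [ps_insert _ hv hgf, image_insert, ps_insert g hfv hg, ps_insert f hv hf, ih hs hgs,
      image_image]
    have := uu (sg (s.image f) (f v))
    calc sg s v * sg (image (fun x => g (f x)) s) (g (f v)) * (ps g (image f s) * ps f s)
        = (sg (s.image f) (f v) * sg (s.image f) (f v)) * (sg s v *
          sg (image (fun x => g (f x)) s) (g (f v)) * (ps g (image f s) * ps f s)) := by
          rw [this, one_mul]
      _ = _ := by
          simp only [Function.comp_def, mul_comm, mul_left_comm, mul_assoc]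

theorem ps_of_fix (f : α → α) (s : Finset α) (h : ∀ x ∈ s, f x = x) : ps f s = 1 := by
  unfold ps
  refine prod_eq_one fun u hu => prod_eq_one fun w hw => ?_
  split_ifs with h1
  · rw [h u hu, h w hw]
    exact if_neg (asymm h1)
  · rfl

theorem ps_congr {f g : α → β} {s : Finset α} (h : ∀ x ∈ s, f x = g x) : ps f s = ps g s := by
  unfold ps
  refine prod_congr rfl fun u hu => prod_congr rfl fun w hw => ?_
  rw [h u hu, h w hw]

end Vale.Agent.P067.S
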