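import Vale.Agent.N067S.Fill
import Vale.Agent.N067S.Avg

/-! Morse lemma, double complexes, independence complexes, with signs. -/

set_option autoImplicit false
set_option linter.all false

open Finset

namespace Vale.Agent.P067.S

attribute [local instance] Classical.propDecidable

universe u

section Morse

variable {α : Type*} {k : Type*} [Field k]

theorem relAcyc_morse_aux (K : Set (Finset α)) (hK : DownClosed K) (A : Set α) (level : α → ℕ)
    (q : ℕ)
    (hinj : ∀ σ ∈ K, ∀ x ∈ σ, ∀ y ∈ σ, x ∉ A → y ∉ A → level x = level y → x = y)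
    (hlink : ∀ x, x ∉ A → ({x} : Finset α) ∈ K → 1 ≤ q →
      Acyc k {τ | x ∉ τ ∧ insert x τ ∈ K ∧ ∀ y ∈ τ, y ∈ A ∨ level y < level x} (q - 1)) (n : ℕ) :
    ∀ c : Finset α →₀ k, ChainIn K q c → (∀ s ∈ (bd c).support, ∀ x ∈ s, x ∈ A) →
      (∀ s ∈ c.support, ∀ x ∈ s, x ∈ A ∨ level x < n) →
      ∃ y : Finset α →₀ k, ChainIn K (q + 1) y ∧ ∀ s ∈ (c + bd y).support, ∀ x ∈ s, x ∈ A := by
  induction n with
  | zero =>
    intro c hc hb hlev
    refine ⟨0, ChainIn.zero K _, fun s hs x hx => ?_⟩
    rw [map_zero, add_zero] at hs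
    rcases hlev s hs x hx with h | h
    · exact h
    · exact absurd h (Nat.not_lt_zero _)
  | succ n ih =>
    -- induction on the number of bad vertices at level `n`
    have key : ∀ m : ℕ, ∀ c : Finset α →₀ k, (badAt A level n c).card = m → ChainIn K q c →
        (∀ s ∈ (bd c).support, ∀ x ∈ s, x ∈ A) →
        (∀ s ∈ c.support, ∀ x ∈ s, x ∈ A ∨ level x < n + 1) →
        ∃ y : Finset α →₀ k, ChainIn K (q + 1) y ∧
          ∀ s ∈ (c + bd y).support, ∀ x ∈ s, x ∈ A := by
      intro m
      induction m using Nat.strong_induction_on with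
      | _ m ihm =>
        intro c hcard hc hb hlev
        by_cases hempty : badAt A level n c = ∅
        · refine ih c hc hb fun s hs x hx => ?_
          rcases hlev s hs x hx with h | h
          · exact Or.inl h
          · by_cases hxA : x ∈ A
            · exact Or.inl hxA
            · right
              have : level x ≠ n := by
                intro he
                have : x ∈ badAt A level n c := mem_badAt.2 ⟨⟨s, hs, hx⟩, hxA, he⟩
                rw [hempty] at this
                simp at this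
              omega
        · obtain ⟨x, hx⟩ := Finset.nonempty_iff_ne_empty.2 hempty
          obtain ⟨⟨s0, hs0, hxs0⟩, hxA, hxn⟩ := mem_badAt.1 hx
          have hxK : ({x} : Finset α) ∈ K :=
            hK s0 (hc s0 hs0).1 _ (Finset.singleton_subset_iff.2 hxs0)
          have hq : 1 ≤ q := by
            have := (hc s0 hs0).2
            have h1 : 0 < s0.card := Finset.card_pos.2 ⟨x, hxs0⟩
            omega
          -- the link of `x` in `c` is a cycle
          have hcyc : bd (lk x c) = 0 := by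
            rw [bd_lk, neg_eq_zero]
            refine lk_eq_zero_of fun s hs hxs => hxA (hb s hs x hxs)
          have hlkin : ChainIn {τ | x ∉ τ ∧ insert x τ ∈ K ∧ ∀ y ∈ τ, y ∈ A ∨ level y < level x}
              (q - 1) (lk x c) := by
            intro t ht
            obtain ⟨hxt, hins⟩ := mem_support_lk.1 ht
            obtain ⟨h1, h2⟩ := hc _ hins
            refine ⟨⟨hxt, h1, fun y hy => ?_⟩, ?_⟩
            · rcases hlev _ hins y (Finset.mem_insert_of_mem hy) with h | h
              · exact Or.inl h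
              · by_cases hyA : y ∈ A
                · exact Or.inl hyA
                · right
                  have hne : level y ≠ level x := by
                    intro he
                    have := hinj _ h1 y (Finset.mem_insert_of_mem hy) x
                      (Finset.mem_insert_self x t) hyA hxA he
                    exact hxt (this ▸ hy)
                  omega
            · rw [Finset.card_insert_of_notMem hxt] at h2
              omega
          obtain ⟨y, hy, hby⟩ := hlink x hxA hxK hq (lk x c) hlkin hcyc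
          have hqq : q - 1 + 1 = q := by omega
          rw [hqq] at hy
          have helim := elim_vertex x c y hby
          set c' : Finset α →₀ k := c + bd (cone x y) with hc'
          have hyK : ChainIn K q y := fun s hs =>
            ⟨hK _ (hy s hs).1.2.1 s (Finset.subset_insert x s), (hy s hs).2⟩
          have hc'K : ChainIn K q c' := by
            rw [helim]
            exact (hc.del x).add hyK
          have hsupp : ∀ s ∈ c'.support, (x ∉ s ∧ s ∈ c.support) ∨ s ∈ y.support := by
            intro s hs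
            rw [helim] at hs
            rcases Finset.mem_union.1 (Finsupp.support_add hs) with h | h
            · exact Or.inl (mem_support_del.1 h)
            · exact Or.inr h
          have hb' : ∀ s ∈ (bd c').support, ∀ x ∈ s, x ∈ A := by
            have : bd c' = bd c := by rw [hc', map_add, bd_bd, add_zero]
            rw [this]; exact hb
          have hlev' : ∀ s ∈ c'.support, ∀ z ∈ s, z ∈ A ∨ level z < n + 1 := by
            intro s hs z hz
            rcases hsupp s hs with h | h
            · exact hlev s h.2 z hz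
            · rcases (hy s h).1.2.2 z hz with h1 | h1
              · exact Or.inl h1
              · right; omega
          have hbadsub : badAt A level n c' ⊆ (badAt A level n c).erase x := by
            intro z hz
            obtain ⟨⟨s, hs, hzs⟩, hzA, hzn⟩ := mem_badAt.1 hz
            rcases hsupp s hs with h | h
            · refine Finset.mem_erase.2 ⟨?_, mem_badAt.2 ⟨⟨s, h.2, hzs⟩, hzA, hzn⟩⟩
              rintro rfl
              exact h.1 hzs
            · exfalso
              rcases (hy s h).1.2.2 z hzs with h1 | h1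
              · exact hzA h1
              · omega
          have hlt : (badAt A level n c').card < m := by
            refine lt_of_le_of_lt (Finset.card_le_card hbadsub) ?_
            rw [← hcard]
            exact Finset.card_erase_lt_of_mem hx
          obtain ⟨y', hy', hys'⟩ := ihm _ hlt c' rfl hc'K hb' hlev'
          refine ⟨cone x y + y', (ChainIn.cone fun s hs => ⟨(hy s hs).1.2.1, (hy s hs).2⟩).add hy',
            fun s hs => hys' s ?_⟩
          have : c + bd (cone x y + y') = c' + bd y' := by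
            rw [hc', map_add]; abel
          rwa [← this]
    exact fun c hc hb hlev => key _ c rfl hc hb hlev

/-- M9b, Morse lemma: relative acyclicity by elimination of bad vertices. -/
theorem relAcyc_morse (K : Set (Finset α)) (hK : DownClosed K) (A : Set α) (level : α → ℕ) (q : ℕ)
    (hinj : ∀ σ ∈ K, ∀ x ∈ σ, ∀ y ∈ σ, x ∉ A → y ∉ A → level x = level y → x = y)
    (hlink : ∀ x, x ∉ A → ({x} : Finset α) ∈ K → 1 ≤ q →
      Acyc k {τ | x ∉ τ ∧ insert x τ ∈ K ∧ ∀ y ∈ τ, y ∈ A ∨ level y < level x} (q - 1)) :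
    RelAcyc k K {σ | σ ∈ K ∧ ∀ x ∈ σ, x ∈ A} q := by
  intro c hc hb
  obtain ⟨y, hy, hys⟩ := relAcyc_morse_aux K hK A level q hinj hlink
    (((c.support.biUnion id).sup level) + 1) c hc (fun s hs => (hb s hs).2) (by
      intro s hs x hx
      right
      have : level x ≤ (c.support.biUnion id).sup level :=
        Finset.le_sup (f := level) (Finset.mem_biUnion.2 ⟨s, hs, hx⟩)
      omega)
  refine ⟨y, hy, fun s hs => ⟨?_, hys s hs⟩⟩
  exact ((hc.add (hy.bd hK)) s hs).1

end Morse

section LinkGeom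

variable {F : Type*} [Field F] {V : Type*} [AddCommGroup V] [Module F V]
variable {t : Module.End F V} {X : Set (Finset (Submodule F V))} {n m : ℕ}

/-- transport of acyclicity to descending links. -/
theorem acyc_desc {k : Type*} [Field k] (G : LinkGeom t X n m) (A : Set (Submodule F V))
    (level : Submodule F V → ℕ) (x : Submodule F V) (hx : ({x} : Finset (Submodule F V)) ∈ X)
    (P : Submodule F V → Prop)
    (hP : ∀ y, y ≠ x → ({x, y} : Finset (Submodule F V)) ∈ X →
      ((y ∈ A ∨ level y < level x) ↔ P (zm t x y))) (q : ℕ)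
    (h : Acyc k (LkC {Z | Z ∈ CC (SpE t x) ((SpE t x).map t) x ∧ P Z} x ∅) q) :
    Acyc k {τ | x ∉ τ ∧ insert x τ ∈ X ∧ ∀ y ∈ τ, y ∈ A ∨ level y < level x} q := by
  refine acyc_of_iso (zm t x) (ym t n x) ?_ ?_ h
  · rintro τ ⟨hxτ, hτ, hlev⟩
    obtain ⟨h1, h2⟩ := G.toLink x τ hxτ hτ
    refine ⟨⟨?_, Finset.disjoint_empty_right _, ?_⟩, fun y hy => (h1 y hy).2⟩
    · intro Z hZ
      obtain ⟨y, hy, rfl⟩ := Finset.mem_image.mp hZ
      have hyx : y ≠ x := fun h => hxτ (h ▸ hy)
      have hedge := G.edge hτ (Finset.mem_insert_self x τ) (Finset.mem_insert_of_mem hy)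
      exact ⟨⟨(h1 y hy).1, (hP y hyx hedge).mp (hlev y hy)⟩, (h1 y hy).1.2.1⟩
    · rw [Finset.union_empty]
      exact h2
  · rintro ρ ⟨hρ1, _, hρ3⟩
    rw [Finset.union_empty] at hρ3
    obtain ⟨h1, h2, h3⟩ := G.ofLink x hx ρ (fun Z hZ => (hρ1 Z hZ).1.1) hρ3
    refine ⟨⟨h2, h1, ?_⟩, h3⟩
    intro y hy
    have hyx : y ≠ x := fun h => h2 (h ▸ hy)
    have hedge := G.edge h1 (Finset.mem_insert_self x _) (Finset.mem_insert_of_mem hy)
    obtain ⟨Z, hZ, rfl⟩ := Finset.mem_image.mp hy
    apply (hP _ hyx hedge).mpr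
    rw [h3 Z hZ]
    exact (hρ1 Z hZ).1.2

end LinkGeom

/-- (M*) of the blueprint. -/
theorem relAcyc_H (n : ℕ) : ∃ N0 : ℕ, ∀ (F : Type) [Field F] [Fintype F] (V : Type u)
    [AddCommGroup V] [Module F V] [FiniteDimensional F V] (k : Type) [Field k]
    (t : Module.End F V) (X : Set (Finset (Submodule F V))) (m : ℕ), LinkGeom t X n m →
    N0 ≤ Fintype.card F → ∀ H : Submodule F V, H ≠ ⊤ → ∀ q, q + 1 ≤ n →
    RelAcyc k X {σ | σ ∈ X ∧ ∀ Λ ∈ σ, ¬ Λ ≤ H} q := by
  obtain ⟨N0, hN0⟩ := acyc_LkC (n - 1)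
  refine ⟨3 * N0, ?_⟩
  intro F _ _ V _ _ _ k _ t X m G hcard H hH q hq
  have h := relAcyc_morse (k := k) X G.down {Λ : Submodule F V | ¬ Λ ≤ H}
    (fun Λ => bH t H Λ * n + Module.finrank F (SpE t Λ)) q ?_ ?_
  · exact h
  · intro σ hσ x hx y hy _ _ hxy
    exact G.level_inj hσ hx hy (bH t H) hxy
  · intro x hxA hx hq1
    have hbad : x ≤ H := by
      by_contra h
      exact hxA h
    apply acyc_desc G {Λ : Submodule F V | ¬ Λ ≤ H}
      (fun Λ => bH t H Λ * n + Module.finrank F (SpE t Λ)) x hx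
      (fun Z => ¬ Z ≤ x ⊓ H.comap (t ^ (bH t H x)))
      (fun y hyx hedge => desc_iff_H G hH hx hbad y hyx hedge)
    have hspec := bH_spec G hH hx
    have hΛH : ¬ x ≤ x ⊓ H.comap (t ^ (bH t H x)) := by
      intro hle
      apply hspec
      rw [pw_le_iff]
      intro c hc
      rcases Nat.lt_or_ge c (bH t H x) with h | h
      · exact (map_pow_le_pw t x le_rfl).trans (pw_le_of_lt_bH (t := t) h)
      · have hcb : c = bH t H x := le_antisymm hc h
        rw [hcb, Submodule.map_le_iff_le_comap]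
        exact hle.trans inf_le_right
    have hGE := genExt_CH (S := SpE t x) (N := (SpE t x).map t) (Λ := x)
      (x ⊓ H.comap (t ^ (bH t H x))) (G.Sp_lt x hx) (map_SpE_le t x) (G.Sp_disj x hx) hΛH N0 hcard
    have hrank : rkS (SpE t x) x = (n - 1) + 1 + (∅ : Finset (Submodule F V)).card := by
      have h1 := G.rank x hx
      have h2 := G.type_lt x hx
      unfold rkS
      simp only [Finset.card_empty]
      omega
    exact hN0 (Submodule F V) k _ _ _ _ hGE x (Set.mem_insert _ _) ∅ (by simp only [notMem_empty, IsEmpty.forall_iff, implies_true]) (by simp)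
      hrank (q - 1) (by omega)

/-- (M) of the blueprint. -/
theorem relAcyc_y (n : ℕ) : ∃ N0 : ℕ, ∀ (F : Type) [Field F] [Fintype F] (V : Type u)
    [AddCommGroup V] [Module F V] [FiniteDimensional F V] (k : Type) [Field k]
    (t : Module.End F V) (X : Set (Finset (Submodule F V))) (m : ℕ), 3 ≤ m → LinkGeom t X n m →
    N0 ≤ Fintype.card F → ∀ y : V, y ≠ 0 → ∀ q, q + 1 ≤ n →
    RelAcyc k X {σ | σ ∈ X ∧ ∀ Λ ∈ σ, y ∉ pw t Λ (m - 2)} q := by
  obtain ⟨N0, hN0⟩ := acyc_LkC (n - 1)
  refine ⟨3 * N0, ?_⟩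
  intro F _ _ V _ _ _ k _ t X m hm G hcard y hy0 q hq
  have h := relAcyc_morse (k := k) X G.down {Λ : Submodule F V | y ∉ pw t Λ (m - 2)}
    (fun Λ => (m * n + n) - (aY t y Λ * n + Module.finrank F (SpE t Λ))) q ?_ ?_
  · exact h
  · intro σ hσ x hx x' hx' _ _ hxy
    have hvx := G.vertex hσ hx
    have hvx' := G.vertex hσ hx'
    have h1 := G.type_lt x hvx
    have h2 := G.type_lt x' hvx'
    have h3 := aY_le_m (by omega) G y hvx
    have h4 := aY_le_m (by omega) G y hvx'
    have h5 : aY t y x * n ≤ m * n := Nat.mul_le_mul_right n h3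
    have h6 : aY t y x' * n ≤ m * n := Nat.mul_le_mul_right n h4
    apply G.level_inj hσ hx hx' (aY t y)
    omega
  · intro x hxA hx hq1
    have hbad : y ∈ pw t x (m - 2) := by
      by_contra h
      exact hxA h
    obtain ⟨u, hux, huS, hu⟩ := exists_u hm G hy0 hx hbad
    apply acyc_desc G {Λ : Submodule F V | y ∉ pw t Λ (m - 2)}
      (fun Λ => (m * n + n) - (aY t y Λ * n + Module.finrank F (SpE t Λ))) x hx
      (fun Z => u ∉ Z)
      (fun x' hne hedge => desc_iff_y hm G hy0 hx hbad hux huS hu x' hne hedge)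
    have hGE := genExt_Cu (S := SpE t x) (N := (SpE t x).map t) (Λ := x)
      u (G.Sp_lt x hx) (map_SpE_le t x) (G.Sp_disj x hx) huS N0 hcard
    have hrank : rkS (SpE t x) x = (n - 1) + 1 + (∅ : Finset (Submodule F V)).card := by
      have h1 := G.rank x hx
      have h2 := G.type_lt x hx
      unfold rkS
      simp only [Finset.card_empty]
      omega
    exact hN0 (Submodule F V) k _ _ _ _ hGE x (Set.mem_insert _ _) ∅ (by simp) (by simp)
      hrank (q - 1) (by omega)

section XXs

open scoped Pointwise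

/-- (M*) for the real complex `X`. -/
theorem relAcyc_H_XX (n : ℕ) : ∃ N0 : ℕ, ∀ (ι : Type) [Fintype ι] [DecidableEq ι] (p m : ℕ)
    [Fact p.Prime] (k : Type) [Field k], Fintype.card ι = n → 3 ≤ m → N0 ≤ p →
    ∀ H : Sb ι p m, H ≠ ⊤ → ∀ q, q + 1 ≤ n →
    RelAcyc k (XX ι p m) {σ | σ ∈ XX ι p m ∧ ∀ Λ ∈ σ, ¬ Λ ≤ H} q := by
  obtain ⟨N0, hN0⟩ := relAcyc_H.{0} n
  refine ⟨N0, ?_⟩
  intro ι _ _ p m _ k _ hn hm hp H hH q hq
  subst hn
  exact hN0 (ZMod p) (VV ι p m) k (tm ι p m) (XX ι p m) m (linkGeom_XX hm)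
    (by rwa [ZMod.card]) H hH q hq

/-- (M) for the real complex `X`. -/
theorem relAcyc_y_XX (n : ℕ) : ∃ N0 : ℕ, ∀ (ι : Type) [Fintype ι] [DecidableEq ι] (p m : ℕ)
    [Fact p.Prime] (k : Type) [Field k], Fintype.card ι = n → 3 ≤ m → N0 ≤ p →
    ∀ y : VV ι p m, y ≠ 0 → ∀ q, q + 1 ≤ n →
    RelAcyc k (XX ι p m) {σ | σ ∈ XX ι p m ∧ ∀ Λ ∈ σ, y ∉ pw (tm ι p m) Λ (m - 2)} q := by
  obtain ⟨N0, hN0⟩ := relAcyc_y.{0} n
  refine ⟨N0, ?_⟩
  intro ι _ _ p m _ k _ hn hm hp y hy q hq
  subst hn
  exact hN0 (ZMod p) (VV ι p m) k (tm ι p m) (XX ι p m) m hm (linkGeom_XX hm)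
    (by rwa [ZMod.card]) y hy q hq

end XXs

section Double

variable {α : Type*} {k : Type*} [Field k] {β ι : Type*}

/-- Boundary in the second coordinate. -/
noncomputable def bdR : (ι × Finset α →₀ k) →ₗ[k] (ι × Finset α →₀ k) :=
  Finsupp.lsum k (fun p => ∑ v ∈ p.2, sg p.2 v • Finsupp.lsingle (p.1, p.2.erase v))

/-- Boundary in the first coordinate. -/
noncomputable def bdL : (Finset β × ι →₀ k) →ₗ[k] (Finset β × ι →₀ k) :=
  Finsupp.lsum k (fun p => ∑ v ∈ p.1, sg p.1 v • Finsupp.lsingle (p.1.erase v, p.2))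

theorem bdR_single (p : ι × Finset α) (a : k) :
    bdR (Finsupp.single p a) = ∑ v ∈ p.2, sg p.2 v • Finsupp.single (p.1, p.2.erase v) a := by
  simp only [bdR, Finsupp.lsum_single, LinearMap.sum_apply, LinearMap.smul_apply,
    Finsupp.lsingle_apply]

theorem bdL_single (p : Finset β × ι) (a : k) :
    bdL (Finsupp.single p a) = ∑ v ∈ p.1, sg p.1 v • Finsupp.single (p.1.erase v, p.2) a := by
  simp only [bdL, Finsupp.lsum_single, LinearMap.sum_apply, LinearMap.smul_apply,
    Finsupp.lsingle_apply]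

theorem bdL_bdR (c : Finset β × Finset α →₀ k) : bdL (bdR c) = bdR (bdL c) := by
  have : (bdL ∘ₗ bdR : (Finset β × Finset α →₀ k) →ₗ[k] _) = bdR ∘ₗ bdL := by
    apply Finsupp.lhom_ext
    rintro ⟨T, s⟩ a
    simp only [LinearMap.comp_apply, bdR_single, map_sum, bdL_single, map_us, Finset.smul_sum,
      smul_smul]
    rw [Finset.sum_comm]
    exact sum_congr rfl fun x _ => sum_congr rfl fun y _ => by rw [mul_comm]
  exact LinearMap.congr_fun this c

theorem bdR_embR (i : ι) (c : Finset α →₀ k) : bdR (embR i c) = embR i (bd c) := by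
  have : (bdR ∘ₗ embR i : (Finset α →₀ k) →ₗ[k] (ι × Finset α →₀ k)) = embR i ∘ₗ bd := by
    apply Finsupp.lhom_ext
    intro s a
    simp only [LinearMap.comp_apply, embR_single, bdR_single, bd_single, map_sum, map_us]
  exact LinearMap.congr_fun this c

theorem rowR_bdR (i : ι) (c : ι × Finset α →₀ k) : rowR i (bdR c) = bd (rowR i c) := by
  have : (rowR i ∘ₗ bdR : (ι × Finset α →₀ k) →ₗ[k] (Finset α →₀ k)) = bd ∘ₗ rowR i := by
    apply Finsupp.lhom_ext
    rintro ⟨j, s⟩ a
    simp only [LinearMap.comp_apply, bdR_single, map_sum, rowR_single, map_us]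
    by_cases h : j = i
    · simp only [h, if_true, bd_single]
    · simp only [h, ↓reduceIte, smul_zero, sum_const_zero, map_zero]
  exact LinearMap.congr_fun this c

/-- Rowwise filling. -/
theorem fill_rows (K : ι → Set (Finset α)) (q : ι → ℕ) (x : ι × Finset α →₀ k)
    (hx : ∀ p ∈ x.support, p.2 ∈ K p.1 ∧ p.2.card = q p.1)
    (hacyc : ∀ p ∈ x.support, Acyc k (K p.1) (q p.1)) (hbd : bdR x = 0) :
    ∃ y : ι × Finset α →₀ k, bdR y = x ∧
      ∀ p ∈ y.support, (∃ r ∈ x.support, r.1 = p.1) ∧ p.2 ∈ K p.1 ∧ p.2.card = q p.1 + 1 := by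
  have h1 : ∀ i ∈ x.support.image Prod.fst, ∃ y : Finset α →₀ k, ChainIn (K i) (q i + 1) y ∧
      bd y = rowR i x := by
    intro i hi
    obtain ⟨r, hr, rfl⟩ := Finset.mem_image.1 hi
    refine hacyc r hr (rowR r.1 x) ?_ ?_
    · intro s hs
      rw [Finsupp.mem_support_iff, rowR_apply] at hs
      exact hx _ (Finsupp.mem_support_iff.2 hs)
    · rw [← rowR_bdR, hbd, map_zero]
  choose! y hy hby using h1
  refine ⟨∑ i ∈ x.support.image Prod.fst, embR i (y i), ?_, ?_⟩
  · rw [map_sum]
    conv_rhs => rw [← sum_embR_rowR x]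
    refine Finset.sum_congr rfl fun i hi => ?_
    rw [bdR_embR, hby i hi]
  · rintro ⟨j, s⟩ hp
    rw [Finsupp.mem_support_iff, Finsupp.finsetSum_apply] at hp
    simp only [embR_apply] at hp
    rw [Finset.sum_ite_eq] at hp
    split_ifs at hp with h
    · obtain ⟨h2, h3⟩ := hy j h s (Finsupp.mem_support_iff.2 hp)
      obtain ⟨r, hr, hrj⟩ := Finset.mem_image.1 h
      exact ⟨⟨r, hr, hrj⟩, h2, h3⟩
    · exact absurd rfl hp

theorem bdR_swp (c : Finset β × ι →₀ k) : bdR (swp c) = swp (bdL c) := by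
  have : (bdR ∘ₗ (swp : (Finset β × ι →₀ k) ≃ₗ[k] _).toLinearMap) = swp.toLinearMap ∘ₗ bdL := by
    apply Finsupp.lhom_ext
    rintro ⟨T, i⟩ a
    simp only [LinearMap.comp_apply, LinearEquiv.coe_coe, swp_single, bdR_single, bdL_single, map_sum,
      Units.smul_def, map_zsmul]
  exact LinearMap.congr_fun this c


/-- Columnwise filling. -/
theorem fill_cols (K : ι → Set (Finset β)) (q : ι → ℕ) (x : Finset β × ι →₀ k)
    (hx : ∀ p ∈ x.support, p.1 ∈ K p.2 ∧ p.1.card = q p.2)
    (hacyc : ∀ p ∈ x.support, Acyc k (K p.2) (q p.2)) (hbd : bdL x = 0) :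
    ∃ y : Finset β × ι →₀ k, bdL y = x ∧
      ∀ p ∈ y.support, (∃ r ∈ x.support, r.2 = p.2) ∧ p.1 ∈ K p.2 ∧ p.1.card = q p.2 + 1 := by
  have hmem : ∀ (z : Finset β × ι →₀ k) (p : ι × Finset β), p ∈ (swp z).support ↔
      (p.2, p.1) ∈ z.support := by
    intro z p
    rw [Finsupp.mem_support_iff, swp_apply, Finsupp.mem_support_iff]
  obtain ⟨y, hy, hys⟩ := fill_rows K q (swp x) (fun p hp => hx _ ((hmem x p).1 hp))
    (fun p hp => hacyc _ ((hmem x p).1 hp)) (by rw [bdR_swp, hbd, map_zero])
  refine ⟨swp.symm y, ?_, ?_⟩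
  · apply swp.injective
    rw [← bdR_swp, LinearEquiv.apply_symm_apply, hy]
  · rintro ⟨T, i⟩ hp
    have hp' : (i, T) ∈ y.support := by
      have := (hmem (swp.symm y) (i, T)).2 hp
      rwa [LinearEquiv.apply_symm_apply] at this
    obtain ⟨⟨r, hr, hri⟩, h1, h2⟩ := hys _ hp'
    exact ⟨⟨(r.2, r.1), (hmem x r).1 hr, hri⟩, h1, h2⟩

theorem mem_support_bdR {c : ι × Finset α →₀ k} {p : ι × Finset α} (h : p ∈ (bdR c).support) :
    ∃ v, v ∉ p.2 ∧ (p.1, insert v p.2) ∈ c.support := by
  obtain ⟨i, s⟩ := p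
  rw [Finsupp.mem_support_iff, ← rowR_apply, rowR_bdR, ← Finsupp.mem_support_iff] at h
  obtain ⟨v, hv, hvs⟩ := mem_support_bd h
  refine ⟨v, hv, ?_⟩
  rw [Finsupp.mem_support_iff, rowR_apply] at hvs
  exact Finsupp.mem_support_iff.2 hvs


theorem mem_support_bdL {c : Finset β × ι →₀ k} {p : Finset β × ι} (h : p ∈ (bdL c).support) :
    ∃ v, v ∉ p.1 ∧ (insert v p.1, p.2) ∈ c.support := by
  have h1 : (p.2, p.1) ∈ (bdR (swp c)).support := by
    rw [bdR_swp, Finsupp.mem_support_iff, swp_apply]
    exact Finsupp.mem_support_iff.1 h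
  obtain ⟨v, hv, hvs⟩ := mem_support_bdR h1
  refine ⟨v, hv, ?_⟩
  rw [Finsupp.mem_support_iff, swp_apply] at hvs
  exact Finsupp.mem_support_iff.2 hvs

theorem BiIn_bdR {R : Finset β → Finset α → Prop}
    (hR : ∀ T T' σ σ', T' ⊆ T → σ' ⊆ σ → R T σ → R T' σ') {a b : ℕ}
    {x : Finset β × Finset α →₀ k} (hx : BiIn R a (b + 1) x) : BiIn R a b (S.bdR x) := by
  intro p hp
  obtain ⟨v, hv, h⟩ := mem_support_bdR hp
  obtain ⟨h1, h2, h3⟩ := hx _ h
  refine ⟨hR _ _ _ _ subset_rfl (Finset.subset_insert _ _) h1, h2, ?_⟩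
  simp only at h3
  rw [Finset.card_insert_of_notMem hv] at h3
  omega

theorem BiIn_bdL {R : Finset β → Finset α → Prop}
    (hR : ∀ T T' σ σ', T' ⊆ T → σ' ⊆ σ → R T σ → R T' σ') {a b : ℕ}
    {x : Finset β × Finset α →₀ k} (hx : BiIn R (a + 1) b x) : BiIn R a b (S.bdL x) := by
  intro p hp
  obtain ⟨v, hv, h⟩ := mem_support_bdL hp
  obtain ⟨h1, h2, h3⟩ := hx _ h
  refine ⟨hR _ _ _ _ (Finset.subset_insert _ _) subset_rfl h1, ?_, h3⟩
  simp only at h2
  rw [Finset.card_insert_of_notMem hv] at h2
  omega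

theorem zigzag (R : Finset β → Finset α → Prop)
    (hR : ∀ T T' σ σ', T' ⊆ T → σ' ⊆ σ → R T σ → R T' σ') (Q : ℕ)
    (hN : ∀ σ, R ∅ σ → σ.card ≤ Q → Acyc k {T | R T σ} (Q - σ.card))
    (hX : ∀ T, R T ∅ → 2 ≤ T.card → T.card ≤ Q + 1 → Acyc k {σ | R T σ} (Q + 1 - T.card)) (d : ℕ) :
    ∀ j : ℕ, 1 ≤ j → j + d = Q + 1 → ∀ z : Finset β × Finset α →₀ k, BiIn R j (Q + 1 - j) z →
      bdL (bdR z) = 0 → ∃ w : Finset β × Finset α →₀ k, BiIn R (j + 1) (Q + 1 - j) w ∧
        bdR (z + bdL w) = 0 := by
  induction d with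
  | zero =>
    intro j hj hjd z hz hzb
    refine ⟨0, ?_, ?_⟩
    · intro p hp; simp at hp
    · rw [map_zero, add_zero]
      ext p
      rw [Finsupp.zero_apply]
      by_contra hcon
      obtain ⟨v, hv, h⟩ := mem_support_bdR (Finsupp.mem_support_iff.2 hcon)
      obtain ⟨_, _, h3⟩ := hz _ h
      simp only at h3
      rw [Finset.card_insert_of_notMem hv] at h3
      omega
  | succ d ih =>
    intro j hj hjd z hz hzb
    have hbz : BiIn R j (Q - j) (bdR z) := by
      refine BiIn_bdR hR ?_
      have : Q - j + 1 = Q + 1 - j := by omega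
      rwa [this]
    -- fill in the first coordinate
    obtain ⟨z1, hz1, hz1s⟩ := fill_cols (fun σ => {T | R T σ}) (fun _ => j) (bdR z)
      (fun p hp => ⟨(hbz p hp).1, (hbz p hp).2.1⟩) (fun p hp => by
        obtain ⟨h1, h2, h3⟩ := hbz p hp
        have h4 := hN p.2 (hR _ _ _ _ (Finset.empty_subset _) subset_rfl h1) (by omega)
        have h5 : Q - p.2.card = j := by omega
        rwa [h5] at h4) hzb
    have hz1in : BiIn R (j + 1) (Q + 1 - (j + 1)) z1 := by
      intro p hp
      obtain ⟨⟨r, hr, hrp⟩, h1, h2⟩ := hz1s p hp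
      refine ⟨h1, h2, ?_⟩
      have := (hbz r hr).2.2
      rw [hrp] at this
      omega
    have hz1b : bdL (bdR z1) = 0 := by
      rw [bdL_bdR, hz1]
      have : bdR (bdR z) = (0 : Finset β × Finset α →₀ k) := by
        ext ⟨T, σ⟩
        rw [← rowR_apply, rowR_bdR, rowR_bdR, bd_bd]
        rfl
      exact this
    obtain ⟨w1, hw1, hw1b⟩ := ih (j + 1) (by omega) (by omega) z1 hz1in hz1b
    have hsum : BiIn R (j + 1) (Q + 1 - (j + 1)) (z1 + bdL w1) :=
      hz1in.add (BiIn_bdL hR hw1)
    obtain ⟨w, hw, hws⟩ := fill_rows (fun T => {σ | R T σ}) (fun _ => Q + 1 - (j + 1))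
      (z1 + bdL w1) (fun p hp => ⟨(hsum p hp).1, (hsum p hp).2.2⟩) (fun p hp => by
        obtain ⟨h1, h2, h3⟩ := hsum p hp
        have h4 := hX p.1 (hR _ _ _ _ subset_rfl (Finset.empty_subset _) h1) (by omega) (by omega)
        have h5 : Q + 1 - p.1.card = Q + 1 - (j + 1) := by omega
        rwa [h5] at h4) hw1b
    refine ⟨-w, ?_, ?_⟩
    · intro p hp
      rw [Finsupp.support_neg] at hp
      obtain ⟨⟨r, hr, hrp⟩, h1, h2⟩ := hws p hp
      refine ⟨h1, ?_, by omega⟩
      have := (hsum r hr).2.1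
      rwa [hrp] at this
    · rw [map_neg, map_add, map_neg, ← bdL_bdR, hw, map_add, hz1]
      have h1 : bdL (bdL w1) = (0 : Finset β × Finset α →₀ k) := by
        have h2 : bdR (bdR (swp w1)) = (0 : Finset α × Finset β →₀ k) := by
          ext ⟨T, σ⟩
          rw [← rowR_apply, rowR_bdR, rowR_bdR, bd_bd]
          rfl
        rw [bdR_swp, bdR_swp] at h2
        exact swp.injective (by rw [h2, map_zero])
      rw [h1, add_zero, add_neg_cancel]

/-- M9d: double complex lemma. -/
theorem double_complex {β : Type*} (R : Finset β → Finset α → Prop)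
    (hR : ∀ T T' σ σ', T' ⊆ T → σ' ⊆ σ → R T σ → R T' σ') (Q : ℕ) (hQ : 1 ≤ Q)
    (hN : ∀ σ, R ∅ σ → σ.card ≤ Q → Acyc k {T | R T σ} (Q - σ.card))
    (hX : ∀ T, R T ∅ → 2 ≤ T.card → T.card ≤ Q + 1 → Acyc k {σ | R T σ} (Q + 1 - T.card))
    (z : Finset α →₀ k) (hz : ChainIn {σ | R ∅ σ} Q z) (hbd : bd z = 0) :
    ∃ (s : Finset β) (zv : β → (Finset α →₀ k)),
      (∀ v ∈ s, ChainIn {σ | R {v} σ} Q (zv v) ∧ bd (zv v) = 0) ∧ z = ∑ v ∈ s, zv v := by
  set z0 : Finset β × Finset α →₀ k := embR ∅ z with hz0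
  have hz0in : BiIn R 0 Q z0 := by
    rintro ⟨T, σ⟩ hp
    rw [Finsupp.mem_support_iff, hz0, embR_apply] at hp
    simp only at hp
    split_ifs at hp with h
    · subst h
      obtain ⟨h1, h2⟩ := hz σ (Finsupp.mem_support_iff.2 hp)
      exact ⟨h1, rfl, h2⟩
    · exact absurd rfl hp
  have hz0R : bdR z0 = 0 := by rw [hz0, bdR_embR, hbd, map_zero]
  have hz0L : bdL z0 = 0 := by
    ext p
    rw [Finsupp.zero_apply]
    by_contra hcon
    obtain ⟨v, hv, h⟩ := mem_support_bdL (Finsupp.mem_support_iff.2 hcon)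
    obtain ⟨_, h2, _⟩ := hz0in _ h
    simp only at h2
    rw [Finset.card_insert_of_notMem hv] at h2
    omega
  obtain ⟨z1, hz1, hz1s⟩ := fill_cols (fun σ => {T | R T σ}) (fun _ => 0) z0
    (fun p hp => ⟨(hz0in p hp).1, (hz0in p hp).2.1⟩) (fun p hp => by
      obtain ⟨h1, h2, h3⟩ := hz0in p hp
      have h4 := hN p.2 (hR _ _ _ _ (Finset.empty_subset _) subset_rfl h1) (by omega)
      have h5 : Q - p.2.card = 0 := by omega
      rwa [h5] at h4) hz0L
  have hz1in : BiIn R 1 (Q + 1 - 1) z1 := by
    intro p hp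
    obtain ⟨⟨r, hr, hrp⟩, h1, h2⟩ := hz1s p hp
    refine ⟨h1, h2, ?_⟩
    have := (hz0in r hr).2.2
    rw [hrp] at this
    omega
  obtain ⟨w, hw, hwb⟩ := zigzag R hR Q hN hX Q 1 le_rfl (by omega) z1 hz1in (by
    rw [bdL_bdR, hz1, hz0R])
  set y : Finset β × Finset α →₀ k := z1 + bdL w with hy
  have hyin : BiIn R 1 (Q + 1 - 1) y := hz1in.add (BiIn_bdL hR hw)
  have hyL : bdL y = z0 := by
    have h1 : bdL (bdL w) = (0 : Finset β × Finset α →₀ k) := by
      have h2 : bdR (bdR (swp w)) = (0 : Finset α × Finset β →₀ k) := by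
        ext ⟨T, σ⟩
        rw [← rowR_apply, rowR_bdR, rowR_bdR, bd_bd]
        rfl
      rw [bdR_swp, bdR_swp] at h2
      exact swp.injective (by rw [h2, map_zero])
    rw [hy, map_add, hz1, h1, add_zero]
  -- decompose `y` along the first coordinate
  refine ⟨(y.support.image Prod.fst).biUnion id, fun v => rowR {v} y, ?_, ?_⟩
  · intro v hv
    refine ⟨?_, ?_⟩
    · intro σ hσ
      rw [Finsupp.mem_support_iff, rowR_apply] at hσ
      obtain ⟨h1, _, h3⟩ := hyin _ (Finsupp.mem_support_iff.2 hσ)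
      exact ⟨h1, by simpa using h3⟩
    · rw [← rowR_bdR, hwb, map_zero]
  · have h1 : z = rowR ∅ z0 := by
      ext σ
      rw [rowR_apply, hz0, embR_apply, if_pos rfl]
    rw [h1, ← hyL]
    have h2 : y = ∑ T ∈ y.support.image Prod.fst, embR T (rowR T y) := (sum_embR_rowR y).symm
    have h3 : ∀ v : β, ∀ c : Finset α →₀ k, rowR ∅ (bdL (embR {v} c)) = c := by
      intro v c
      have : (rowR ∅ ∘ₗ bdL ∘ₗ embR {v} : (Finset α →₀ k) →ₗ[k] (Finset α →₀ k))
          = LinearMap.id := by
        apply Finsupp.lhom_ext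
        intro s a
        simp only [LinearMap.comp_apply, embR_single, bdL_single, Finset.sum_singleton,
          sg_singleton, one_smul, rowR_single, LinearMap.id_apply]
        rw [if_pos]
        ext w
        simp
      exact LinearMap.congr_fun this c
    have h4 : y.support.image Prod.fst
        = ((y.support.image Prod.fst).biUnion id).image (fun v => ({v} : Finset β)) := by
      have hone : ∀ T ∈ y.support.image Prod.fst, ∃ v, T = {v} := by
        intro T hT
        obtain ⟨p, hp, rfl⟩ := Finset.mem_image.1 hT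
        exact Finset.card_eq_one.1 (hyin p hp).2.1
      ext T
      constructor
      · intro hT
        obtain ⟨v, rfl⟩ := hone T hT
        exact Finset.mem_image.2 ⟨v, Finset.mem_biUnion.2 ⟨{v}, hT, Finset.mem_singleton_self v⟩, rfl⟩
      · intro hT
        obtain ⟨v, hv, rfl⟩ := Finset.mem_image.1 hT
        obtain ⟨T', hT', hvT'⟩ := Finset.mem_biUnion.1 hv
        obtain ⟨v', rfl⟩ := hone T' hT'
        have : v = v' := Finset.mem_singleton.1 hvT'
        rwa [this]
    conv_lhs => rw [h2]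
    rw [map_sum, map_sum]
    conv_lhs => rw [h4]
    rw [Finset.sum_image (fun v _ w _ h => Finset.singleton_injective h)]
    exact Finset.sum_congr rfl fun v _ => h3 v _

end Double

section Types

variable {α : Type*} {k : Type*} [Field k]

/-- Push down: vertices of type larger than `r` can be eliminated. -/
theorem relAcyc_types (K : Set (Finset α)) (hK : DownClosed K) (ty : α → ℕ)
    (hinj : ∀ σ ∈ K, ∀ x ∈ σ, ∀ y ∈ σ, ty x = ty y → x = y) (r q : ℕ)
    (hlink : ∀ x, ({x} : Finset α) ∈ K → r < ty x → 1 ≤ q → Acyc k (lowLk K ty x) (q - 1)) :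
    RelAcyc k K (types K ty r) q := by
  have h := relAcyc_morse (k := k) K hK {x | ty x ≤ r} ty q
    (fun σ hσ x hx y hy _ _ h => hinj σ hσ x hx y hy h)
    (fun x hx hxK hq => by
      have hx' : r < ty x := not_le.1 hx
      have := hlink x hxK hx' hq
      have e : {τ | x ∉ τ ∧ insert x τ ∈ K ∧ ∀ y ∈ τ, y ∈ {x | ty x ≤ r} ∨ ty y < ty x}
          = lowLk K ty x := by
        ext τ
        constructor
        · rintro ⟨h1, h2, h3⟩
          refine ⟨h1, h2, fun y hy => ?_⟩
          rcases h3 y hy with h | h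
          · exact lt_of_le_of_lt h hx'
          · exact h
        · rintro ⟨h1, h2, h3⟩
          exact ⟨h1, h2, fun y hy => Or.inr (h3 y hy)⟩
      rw [e]
      exact this)
  exact h

/-- Acyclicity of the part with small types. -/
theorem acyc_types (K : Set (Finset α)) (hK : DownClosed K) (ty : α → ℕ)
    (hinj : ∀ σ ∈ K, ∀ x ∈ σ, ∀ y ∈ σ, ty x = ty y → x = y) (r q : ℕ)
    (hlink : ∀ x, ({x} : Finset α) ∈ K → r < ty x → Acyc k (lowLk K ty x) q)
    (h : Acyc k K q) : Acyc k (types K ty r) q :=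
  acyc_of_relAcyc hK (types_sub K ty r) h
    (relAcyc_types K hK ty hinj r (q + 1) fun x hx hr _ => by simpa using hlink x hx hr)

/-- The abstract induction step: acyclicity of `K` in size `Q` from the covering by the subcomplexes
of the simplices related to a vertex of `K₁`. -/
theorem acyc_step {β : Type*} (K : Set (Finset α)) (hK : DownClosed K) (ty : α → ℕ)
    (K₁ : Set (Finset β)) (hK₁ : DownClosed K₁) (h0 : (∅ : Finset β) ∈ K₁)
    (rel : β → α → Prop) (r Q : ℕ) (hQ : 1 ≤ Q)
    (hpd : RelAcyc k K (types K ty r) Q)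
    (hN : ∀ σ ∈ types K ty r, σ.card ≤ Q →
      Acyc k {T | T ∈ K₁ ∧ ∀ φ ∈ T, ∀ x ∈ σ, rel φ x} (Q - σ.card))
    (hX : ∀ T ∈ K₁, 2 ≤ T.card → T.card ≤ Q + 1 →
      Acyc k {σ | σ ∈ types K ty r ∧ ∀ φ ∈ T, ∀ x ∈ σ, rel φ x} (Q + 1 - T.card))
    (hZ : ∀ φ, ({φ} : Finset β) ∈ K₁ → ∀ z : Finset α →₀ k,
      ChainIn {σ | σ ∈ types K ty r ∧ ∀ x ∈ σ, rel φ x} Q z → bd z = 0 →
      ∃ y : Finset α →₀ k, ChainIn K (Q + 1) y ∧ bd y = z) :
    Acyc k K Q := by
  classical
  intro c hc hbd
  obtain ⟨a, y, ha, hbda, hy, rfl⟩ := homologous_of_relAcyc hK hpd hc hbd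
  let R : Finset β → Finset α → Prop := fun T σ =>
    T ∈ K₁ ∧ σ ∈ types K ty r ∧ ∀ φ ∈ T, ∀ x ∈ σ, rel φ x
  have hR : ∀ T T' σ σ', T' ⊆ T → σ' ⊆ σ → R T σ → R T' σ' := by
    rintro T T' σ σ' hT hσ ⟨h1, h2, h3⟩
    exact ⟨hK₁ T h1 T' hT, types_down hK ty r σ h2 σ' hσ,
      fun φ hφ x hx => h3 φ (hT hφ) x (hσ hx)⟩
  obtain ⟨s, zv, hzv, hsum⟩ := double_complex (k := k) R hR Q hQ
    (by
      rintro σ ⟨_, h2, _⟩ hcard
      have e : {T | R T σ} = {T | T ∈ K₁ ∧ ∀ φ ∈ T, ∀ x ∈ σ, rel φ x} := by
        ext T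
        exact ⟨fun h => ⟨h.1, h.2.2⟩, fun h => ⟨h.1, h2, h.2⟩⟩
      rw [e]
      exact hN σ h2 hcard)
    (by
      rintro T ⟨h1, _, _⟩ h2 h3
      have e : {σ | R T σ} = {σ | σ ∈ types K ty r ∧ ∀ φ ∈ T, ∀ x ∈ σ, rel φ x} := by
        ext σ
        exact ⟨fun h => ⟨h.2.1, h.2.2⟩, fun h => ⟨h1, h.1, h.2⟩⟩
      rw [e]
      exact hX T h1 h2 h3)
    a (by
      intro σ hσ
      exact ⟨⟨h0, (ha σ hσ).1, by simp only [notMem_empty, IsEmpty.forall_iff, implies_true]⟩, (ha σ hσ).2⟩) hbda
  have hfill : ∀ v ∈ s, ∃ w : Finset α →₀ k, ChainIn K (Q + 1) w ∧ bd w = zv v := by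
    intro v hv
    obtain ⟨h1, h2⟩ := hzv v hv
    by_cases hvK : ({v} : Finset β) ∈ K₁
    · refine hZ v hvK (zv v) ?_ h2
      refine h1.mono ?_
      rintro σ ⟨_, h4, h5⟩
      exact ⟨h4, fun x hx => h5 v (by simp) x hx⟩
    · refine ⟨0, ChainIn.zero K _, ?_⟩
      rw [map_zero]
      symm
      rw [← Finsupp.support_eq_empty, Finset.eq_empty_iff_forall_notMem]
      intro σ hσ
      exact hvK (h1 σ hσ).1.1
  choose! w hw1 hw2 using hfill
  refine ⟨∑ v ∈ s, w v + y, (ChainIn.sum hw1).add hy, ?_⟩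
  rw [map_add, map_sum, hsum]
  congr 1
  exact Finset.sum_congr rfl hw2

end Types

section Low

open scoped Pointwise

theorem acyc_lowLk_single (e : ℕ) : ∃ N0 : ℕ, ∀ (ι : Type) [Fintype ι] [DecidableEq ι] (p m : ℕ)
    [Fact p.Prime] (k : Type) [Field k], 3 ≤ m → N0 ≤ p →
    ∀ L : Sb ι p m, ({L} : Finset (Sb ι p m)) ∈ XX ι p m → ty L = e → ∀ q, q + 1 ≤ e →
    Acyc k (lowLk (XX ι p m) ty L) q := by
  obtain ⟨N0, hN0⟩ := acyc_LkC.{0} e
  refine ⟨N0, ?_⟩
  intro ι _ _ p m _ k _ hm hp L hL hty q hq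
  have G := linkGeom_XX (ι := ι) (p := p) hm
  obtain ⟨hfr, hlt, hdisj, hfrN, hsup⟩ := finrank_vertex hm hL
  have hSL : Sp L < L := G.Sp_lt L hL
  have hne : Sp L ⊔ (Sp L).map (tm ι p m) ≠ L := by
    intro h
    have h1 := Submodule.finrank_add_le_finrank_add_finrank (K := ZMod p) (Sp L)
      ((Sp L).map (tm ι p m))
    rw [h] at h1
    omega
  have hGE := genExt_dual (F := ZMod p) (S := Sp L) (N := (Sp L).map (tm ι p m)) (Λ := L) hSL
    (tm_Sp_le L) hdisj hne N0 (by rwa [ZMod.card])
  have hrk : rkD (Sp L) ((Sp L).map (tm ι p m)) L (OrderDual.toDual (Sp L))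
      = e + 1 + (∅ : Finset (Sb ι p m)ᵒᵈ).card := by
    unfold rkD
    rw [if_pos (OrderDual.ofDual_toDual _), hfrN, Finset.card_empty]
    have : Module.finrank (ZMod p) (Sp L) = e := hty
    omega
  have hA := hN0 (Sb ι p m)ᵒᵈ k _ _ _ _ hGE (OrderDual.toDual (Sp L)) (Set.mem_insert _ _) ∅
    (by simp) (by simp) hrk q hq
  refine acyc_of_iso (OrderDual.toDual) (OrderDual.ofDual) ?_ ?_ hA
  · rintro τ ⟨hLτ, hτ, hlow⟩
    obtain ⟨h1, h2⟩ := G.toLink L τ hLτ hτ
    have hylt : ∀ y ∈ τ, y < L := by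
      intro y hy
      have hne' : L ≠ y := fun h => hLτ (h ▸ hy)
      exact (ty_lt_iff hm (G.edge hτ (Finset.mem_insert_self _ _)
        (Finset.mem_insert_of_mem hy)) hne').1 (hlow y hy)
    have hyC : ∀ y ∈ τ, y ∈ CLow (Sp L) ((Sp L).map (tm ι p m)) L := by
      intro y hy
      have h3 := (h1 y hy).1
      have hz : zm (tm ι p m) L y = y := by
        unfold zm
        rw [if_pos (hylt y hy)]
      rw [hz] at h3
      refine ⟨h3.1, h3.2.1, ?_⟩
      have hyv := G.vertex hτ (Finset.mem_insert_of_mem hy)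
      have hfy := (finrank_vertex hm hyv).1
      exact CL_lower hm hL h3 (by omega)
    refine ⟨⟨?_, Finset.disjoint_empty_right _, ?_⟩, fun y _ => rfl⟩
    · intro Z hZ
      obtain ⟨y, hy, rfl⟩ := Finset.mem_image.mp hZ
      exact ⟨hyC y hy, (hyC y hy).1⟩
    · rw [Finset.union_empty]
      intro a ha b hb hab
      obtain ⟨x, hx, rfl⟩ := Finset.mem_image.mp (Finset.mem_coe.mp ha)
      obtain ⟨y, hy, rfl⟩ := Finset.mem_image.mp (Finset.mem_coe.mp hb)
      have hxy : x ≠ y := fun h => hab (by rw [h])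
      rcases G.lt_or_lt (G.edge hτ (Finset.mem_insert_of_mem hx) (Finset.mem_insert_of_mem hy))
        hxy with h | h
      · right; exact h.le
      · left; exact h.le
  · rintro ρ ⟨hρ1, _, hρ3⟩
    rw [Finset.union_empty] at hρ3
    set ρ' : Finset (Sb ι p m) := ρ.image OrderDual.ofDual with hρ'
    have hC : ∀ Z ∈ ρ', Z ∈ CLow (Sp L) ((Sp L).map (tm ι p m)) L := by
      intro Z hZ
      obtain ⟨Z', hZ', rfl⟩ := Finset.mem_image.mp hZ
      exact (hρ1 Z' hZ').1
    have hbig : ∀ Z ∈ ρ', Fintype.card ι ≤ Module.finrank (ZMod p) Z := by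
      intro Z hZ
      have h3 := finrank_low (F := ZMod p) (hC Z hZ).2.2
      omega
    have hch : IsChain (· ≤ ·) (ρ' : Set (Sb ι p m)) := by
      intro a ha b hb hab
      obtain ⟨x, hx, rfl⟩ := Finset.mem_image.mp (Finset.mem_coe.mp ha)
      obtain ⟨y, hy, rfl⟩ := Finset.mem_image.mp (Finset.mem_coe.mp hb)
      have hxy : x ≠ y := fun h => hab (by rw [h])
      rcases hρ3 hx hy hxy with h | h
      · right; exact h
      · left; exact h
    obtain ⟨h1, h2, h3⟩ := G.ofLink L hL ρ' (fun Z hZ => ⟨(hC Z hZ).1, (hC Z hZ).2.1,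
      Or.inr (hC Z hZ).2.2⟩) hch
    have him : ρ'.image (ym (tm ι p m) (Fintype.card ι) L) = ρ' := by
      conv_rhs => rw [← Finset.image_id (s := ρ')]
      apply Finset.image_congr
      intro Z hZ
      unfold ym
      rw [if_pos (hbig Z hZ)]
      rfl
    rw [him] at h1 h2
    refine ⟨⟨h2, h1, ?_⟩, fun y _ => rfl⟩
    intro y hy
    have hne' : L ≠ y := fun h => h2 (h ▸ hy)
    exact (ty_lt_iff hm (G.edge h1 (Finset.mem_insert_self _ _)
        (Finset.mem_insert_of_mem hy)) hne').2 (hC y hy).2.1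

/-- (F5) lower links of vertices of `X` are acyclic below the top dimension. -/
theorem acyc_lowLk_XX (n : ℕ) : ∃ N0 : ℕ, ∀ (ι : Type) [Fintype ι] [DecidableEq ι] (p m : ℕ)
    [Fact p.Prime] (k : Type) [Field k], Fintype.card ι = n → 3 ≤ m → N0 ≤ p →
    ∀ L : Sb ι p m, ({L} : Finset (Sb ι p m)) ∈ XX ι p m → ∀ q, q + 1 ≤ ty L →
    Acyc k (lowLk (XX ι p m) ty L) q := by
  choose N0 hN0 using acyc_lowLk_single
  refine ⟨∑ e ∈ Finset.range n, N0 e, ?_⟩
  intro ι _ _ p m _ k _ hn hm hp L hL q hq
  have hlt : ty L < n := by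
    rw [← hn]; exact (finrank_vertex hm hL).2.1
  have hle : N0 (ty L) ≤ ∑ e ∈ Finset.range n, N0 e :=
    Finset.single_le_sum (f := N0) (fun _ _ => Nat.zero_le _) (Finset.mem_range.mpr hlt)
  exact hN0 (ty L) ι p m k hm (hle.trans hp) L hL rfl q hq

end Low

section IndepSec

variable {k : Type*} [Field k]
variable (F : Type*) {E U : Type*} [Field F] [AddCommGroup U] [Module F U]

theorem acyc_indep_aux (π : E → U) (n : ℕ) : ∀ (S B : Finset E) (q : ℕ), S.card = n →
    Disjoint S B → LinearIndepOn F π (B : Set E) →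
    q + 1 + B.card ≤ Module.finrank F (Submodule.span F (π '' ((S ∪ B : Finset E) : Set E))) →
    Acyc k {T : Finset E | T ⊆ S ∧ LinearIndepOn F π ((T ∪ B : Finset E) : Set E)} q := by
  induction n with
  | zero =>
    intro S B q hS hdisj hB hrk
    exfalso
    rw [Finset.card_eq_zero] at hS
    subst hS
    rw [Finset.empty_union] at hrk
    have h1 : Module.finrank F (Submodule.span F (π '' (B : Set E))) ≤ B.card := by
      have h2 := finrank_span_finset_le_card (R := F) (B.image π)
      rw [Finset.coe_image] at h2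
      exact h2.trans Finset.card_image_le
    omega
  | succ n ih =>
    intro S B q hS hdisj hB hrk
    have hne : S.Nonempty := by
      rw [← Finset.card_pos]; omega
    obtain ⟨e, he⟩ := hne
    have hcard : (S.erase e).card = n := by
      rw [Finset.card_erase_of_mem he]; omega
    have heB : e ∉ B := Finset.disjoint_left.1 hdisj he
    have hdisj1 : Disjoint (S.erase e) B :=
      Finset.disjoint_of_subset_left (Finset.erase_subset e S) hdisj
    by_cases hdep : π e ∈ Submodule.span F (π '' (B : Set E))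
    · -- `e` is a loop
      have hspan : Submodule.span F (π '' ((S ∪ B : Finset E) : Set E))
          = Submodule.span F (π '' ((S.erase e ∪ B : Finset E) : Set E)) := by
        apply le_antisymm
        · rw [Submodule.span_le]
          rintro _ ⟨x, hx, rfl⟩
          by_cases hxe : x = e
          · subst hxe
            exact Submodule.span_mono (Set.image_mono (by
              intro y hy; exact Finset.mem_coe.2 (Finset.mem_union_right _ hy))) hdep
          · apply Submodule.subset_span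
            refine ⟨x, ?_, rfl⟩
            rw [Finset.mem_coe, Finset.mem_union] at hx ⊢
            rcases hx with h | h
            · exact Or.inl (Finset.mem_erase.2 ⟨hxe, h⟩)
            · exact Or.inr h
        · apply Submodule.span_mono
          apply Set.image_mono
          intro x hx
          rw [Finset.mem_coe, Finset.mem_union] at hx ⊢
          rcases hx with h | h
          · exact Or.inl (Finset.mem_of_mem_erase h)
          · exact Or.inr h
      have hset : {T : Finset E | T ⊆ S ∧ LinearIndepOn F π ((T ∪ B : Finset E) : Set E)}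
          = {T : Finset E | T ⊆ S.erase e ∧ LinearIndepOn F π ((T ∪ B : Finset E) : Set E)} := by
        ext T
        constructor
        · rintro ⟨h1, h2⟩
          refine ⟨fun x hx => Finset.mem_erase.2 ⟨?_, h1 hx⟩, h2⟩
          rintro rfl
          have h3 : (insert x B : Finset E) ⊆ T ∪ B := by
            intro y hy
            rcases Finset.mem_insert.1 hy with rfl | h
            · exact Finset.mem_union_left _ hx
            · exact Finset.mem_union_right _ h
          have h4 : LinearIndepOn F π ((insert x B : Finset E) : Set E) := h2.mono (by exact_mod_cast h3)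
          rw [Finset.coe_insert, linearIndepOn_insert (by exact_mod_cast heB)] at h4
          exact h4.2 hdep
        · rintro ⟨h1, h2⟩
          exact ⟨h1.trans (Finset.erase_subset _ _), h2⟩
      rw [hset]
      rw [hspan] at hrk
      exact ih (S.erase e) B q hcard hdisj1 hB hrk
    · have hBe : LinearIndepOn F π ((insert e B : Finset E) : Set E) := by
        rw [Finset.coe_insert, linearIndepOn_insert (by exact_mod_cast heB)]
        exact ⟨hB, hdep⟩
      have hSB : S.erase e ∪ insert e B = S ∪ B := by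
        rw [Finset.union_insert, ← Finset.insert_union, Finset.insert_erase he]
      rcases Nat.eq_zero_or_pos q with hq | hq
      · subst hq
        refine acyc_zero (v := e) ⟨Finset.singleton_subset_iff.2 he, ?_⟩
        rw [Finset.singleton_union]
        exact hBe
      · intro c hc hbd
        have hdisj2 : Disjoint (S.erase e) (insert e B) := by
          rw [Finset.disjoint_insert_right]
          exact ⟨Finset.notMem_erase e S, hdisj1⟩
        have hlink := ih (S.erase e) (insert e B) (q - 1) hcard hdisj2 hBe (by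
          rw [hSB, Finset.card_insert_of_notMem heB]
          omega)
        have hset : {T : Finset E | T ⊆ S.erase e ∧
            LinearIndepOn F π ((T ∪ insert e B : Finset E) : Set E)}
            = {T : Finset E | e ∉ T ∧ insert e T ⊆ S ∧
            LinearIndepOn F π ((insert e T ∪ B : Finset E) : Set E)} := by
          ext T
          constructor
          · rintro ⟨h1, h2⟩
            refine ⟨fun h => Finset.notMem_erase e S (h1 h), ?_, ?_⟩
            · exact Finset.insert_subset he (h1.trans (Finset.erase_subset _ _))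
            · rwa [Finset.insert_union, ← Finset.union_insert]
          · rintro ⟨h0, h1, h2⟩
            refine ⟨fun x hx => Finset.mem_erase.2 ⟨?_, h1 (Finset.mem_insert_of_mem hx)⟩, ?_⟩
            · rintro rfl; exact h0 hx
            · rwa [Finset.union_insert, ← Finset.insert_union]
        rw [hset] at hlink
        have hlkin : ChainIn {T : Finset E | e ∉ T ∧ insert e T ⊆ S ∧
            LinearIndepOn F π ((insert e T ∪ B : Finset E) : Set E)} (q - 1) (lk e c) := by
          intro t ht
          obtain ⟨h1, h2⟩ := mem_support_lk.1 ht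
          obtain ⟨h3, h4⟩ := hc _ h2
          refine ⟨⟨h1, h3.1, h3.2⟩, ?_⟩
          rw [Finset.card_insert_of_notMem h1] at h4
          omega
        obtain ⟨y, hy, hby⟩ := hlink (lk e c) hlkin (by rw [bd_lk, hbd, map_zero, neg_zero])
        have hqq : q - 1 + 1 = q := by omega
        rw [hqq] at hy
        have helim := elim_vertex e c y hby
        -- the new cycle avoids `e`
        have hc' : ChainIn {T : Finset E | T ⊆ S.erase e ∧
            LinearIndepOn F π ((T ∪ B : Finset E) : Set E)} q (c + bd (cone e y)) := by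
          rw [helim]
          refine ChainIn.add ?_ ?_
          · intro s hs
            obtain ⟨h1, h2⟩ := mem_support_del.1 hs
            obtain ⟨h3, h4⟩ := hc _ h2
            refine ⟨⟨fun x hx => Finset.mem_erase.2 ⟨?_, h3.1 hx⟩, h3.2⟩, h4⟩
            rintro rfl; exact h1 hx
          · intro s hs
            obtain ⟨⟨h1, h2, h3⟩, h4⟩ := hy s hs
            refine ⟨⟨fun x hx => Finset.mem_erase.2 ⟨?_, h2 (Finset.mem_insert_of_mem hx)⟩, ?_⟩, h4⟩
            · rintro rfl; exact h1 hx
            · refine h3.mono ?_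
              have : s ∪ B ⊆ insert e s ∪ B := Finset.union_subset_union_left (Finset.subset_insert e s)
              exact_mod_cast this
        have hbd' : bd (c + bd (cone e y)) = 0 := by rw [map_add, bd_bd, hbd, add_zero]
        have hcone : ChainIn {T : Finset E | T ⊆ S ∧
            LinearIndepOn F π ((T ∪ B : Finset E) : Set E)} (q + 1) (cone e y) :=
          ChainIn.cone fun s hs => ⟨⟨(hy s hs).1.2.1, (hy s hs).1.2.2⟩, (hy s hs).2⟩
        have hfin : ∃ y' : Finset E →₀ k, ChainIn {T : Finset E | T ⊆ S ∧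
            LinearIndepOn F π ((T ∪ B : Finset E) : Set E)} (q + 1) y' ∧
            bd y' = c + bd (cone e y) := by
          by_cases hcol : π e ∈ Submodule.span F (π '' ((S.erase e ∪ B : Finset E) : Set E))
          · have hspan : Submodule.span F (π '' ((S ∪ B : Finset E) : Set E))
                = Submodule.span F (π '' ((S.erase e ∪ B : Finset E) : Set E)) := by
              apply le_antisymm
              · rw [Submodule.span_le]
                rintro _ ⟨x, hx, rfl⟩
                by_cases hxe : x = e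
                · subst hxe; exact hcol
                · apply Submodule.subset_span
                  refine ⟨x, ?_, rfl⟩
                  rw [Finset.mem_coe, Finset.mem_union] at hx ⊢
                  rcases hx with h | h
                  · exact Or.inl (Finset.mem_erase.2 ⟨hxe, h⟩)
                  · exact Or.inr h
              · apply Submodule.span_mono
                apply Set.image_mono
                intro x hx
                rw [Finset.mem_coe, Finset.mem_union] at hx ⊢
                rcases hx with h | h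
                · exact Or.inl (Finset.mem_of_mem_erase h)
                · exact Or.inr h
            rw [hspan] at hrk
            obtain ⟨y', hy', hby'⟩ := ih (S.erase e) B q hcard hdisj1 hB hrk _ hc' hbd'
            have hsub : {T : Finset E | T ⊆ S.erase e ∧
                LinearIndepOn F π ((T ∪ B : Finset E) : Set E)} ⊆ {T : Finset E | T ⊆ S ∧
                LinearIndepOn F π ((T ∪ B : Finset E) : Set E)} :=
              fun T hT => ⟨hT.1.trans (Finset.erase_subset _ _), hT.2⟩
            exact ⟨y', hy'.mono hsub, hby'⟩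
          · refine exists_bd_of_cone (x := e) (K := {T : Finset E | T ⊆ S ∧
              LinearIndepOn F π ((T ∪ B : Finset E) : Set E)}) (c := c + bd (cone e y))
              (fun s hs => ?_) hbd'
            obtain ⟨⟨h1, h2⟩, h3⟩ := hc' s hs
            refine ⟨⟨Finset.insert_subset he (h1.trans (Finset.erase_subset _ _)), ?_⟩, h3⟩
            rw [Finset.insert_union, Finset.coe_insert, linearIndepOn_insert]
            · refine ⟨h2, fun h => hcol ?_⟩
              refine Submodule.span_mono (Set.image_mono ?_) h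
              have : s ∪ B ⊆ S.erase e ∪ B := Finset.union_subset_union_left h1
              exact_mod_cast this
            · rw [Finset.mem_coe, Finset.mem_union]
              rintro (h | h)
              · exact Finset.notMem_erase e S (h1 h)
              · exact heB h
        obtain ⟨y', hy', hby'⟩ := hfin
        refine ⟨y' - cone e y, hy'.sub hcone, ?_⟩
        rw [map_sub, hby', add_sub_cancel_right]

/-- M9c: independence complexes are acyclic below the top dimension. -/
theorem acyc_indep [Finite E]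
    (π : E → U) (q : ℕ) (hq : q + 1 ≤ Module.finrank F (Submodule.span F (Set.range π))) :
    Acyc k (Indep F π) q := by
  have := Fintype.ofFinite E
  have h := acyc_indep_aux (k := k) F π _ Finset.univ ∅ q rfl (Finset.disjoint_empty_right _)
    (by simp) (by
      rw [Finset.union_empty, Finset.coe_univ, Set.image_univ]
      simpa using hq)
  have hset : {T : Finset E | T ⊆ Finset.univ ∧ LinearIndepOn F π ((T ∪ ∅ : Finset E) : Set E)}
      = Indep F π := by
    ext T
    simp only [subset_univ, union_empty, true_and, Set.mem_ofPred_eq, Indep]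
  rwa [hset] at h

end IndepSec

end Vale.Agent.P067.S
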